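import Mathlib
import Crest.Agent.PVc.R192.Defs

-- ▼ part PVc/R133/GramKey
section

/-! Row 133: determinant inequalities for positive definite matrices. -/

set_option autoImplicit false
set_option linter.unusedSectionVars false

open Matrix
open scoped MatrixOrder

namespace Crest.Agent.R133

variable {ι : Type*} [Fintype ι] [DecidableEq ι]

/-- A lower bound for all eigenvalues bounds the quadratic form from below. -/
theorem quad_ge_of_eigenvalues {A : Matrix ι ι ℝ} (hA : A.IsHermitian) (μ : ℝ)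
    (h : ∀ i, μ ≤ hA.eigenvalues i) (y : ι → ℝ) : μ * (y ⬝ᵥ y) ≤ y ⬝ᵥ (A *ᵥ y) := by
  set U : Matrix ι ι ℝ := (hA.eigenvectorUnitary : Matrix ι ι ℝ) with hU
  have h1 : A = U * diagonal hA.eigenvalues * Uᵀ := by
    conv_lhs => rw [hA.spectral_theorem, Unitary.conjStarAlgAut_apply]
    simp [hU, star_eq_conjTranspose, conjTranspose_eq_transpose_of_trivial]
  have h2 : U * Uᵀ = 1 := by
    have := Unitary.coe_mul_star_self hA.eigenvectorUnitary
    simpa [hU, star_eq_conjTranspose, conjTranspose_eq_transpose_of_trivial] using this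
  set z := Uᵀ *ᵥ y with hz
  have h3 : y ⬝ᵥ y = z ⬝ᵥ z := by
    rw [hz, dotProduct_mulVec, vecMul_transpose, mulVec_mulVec, h2, one_mulVec]
  have h4 : y ⬝ᵥ (A *ᵥ y) = z ⬝ᵥ (diagonal hA.eigenvalues *ᵥ z) := by
    conv_lhs => rw [h1, ← mulVec_mulVec, ← mulVec_mulVec, dotProduct_mulVec, ← mulVec_transpose]
  rw [h3, h4]
  simp only [dotProduct, mulVec_diagonal, Finset.mul_sum]
  refine Finset.sum_le_sum fun i _ => ?_
  nlinarith [h i, mul_self_nonneg (z i)]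

theorem key_one {A : Matrix ι ι ℝ} (hA : A.PosDef) (htr : A.trace ≤ Fintype.card ι) :
    A.det ≤ 1 ∧ ∀ y : ι → ℝ, A.det / Real.exp 1 * (y ⬝ᵥ y) ≤ y ⬝ᵥ (A *ᵥ y) := by
  have hpos := hA.eigenvalues_pos
  have hdet : A.det = ∏ i, hA.1.eigenvalues i := by simpa using hA.1.det_eq_prod_eigenvalues
  have htr' : ∑ i, hA.1.eigenvalues i ≤ Fintype.card ι := by
    have := hA.1.trace_eq_sum_eigenvalues
    simp only [RCLike.ofReal_real_eq_id, id] at this
    rwa [← this]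
  have hle : ∀ i, hA.1.eigenvalues i ≤ Real.exp (hA.1.eigenvalues i - 1) := fun i => by
    linarith [Real.add_one_le_exp (hA.1.eigenvalues i - 1)]
  constructor
  · rw [hdet]
    calc ∏ i, hA.1.eigenvalues i ≤ ∏ i, Real.exp (hA.1.eigenvalues i - 1) :=
          Finset.prod_le_prod (fun i _ => (hpos i).le) fun i _ => hle i
      _ = Real.exp (∑ i, (hA.1.eigenvalues i - 1)) := (Real.exp_sum _ _).symm
      _ ≤ 1 := by
          rw [Real.exp_le_one_iff, Finset.sum_sub_distrib]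
          simpa using htr'
  · refine quad_ge_of_eigenvalues hA.1 _ fun j => ?_
    rw [div_le_iff₀ (Real.exp_pos 1), hdet, ← Finset.mul_prod_erase _ _ (Finset.mem_univ j)]
    refine mul_le_mul_of_nonneg_left ?_ (hpos j).le
    calc ∏ i ∈ Finset.univ.erase j, hA.1.eigenvalues i
        ≤ ∏ i ∈ Finset.univ.erase j, Real.exp (hA.1.eigenvalues i - 1) :=
          Finset.prod_le_prod (fun i _ => (hpos i).le) fun i _ => hle i
      _ = Real.exp (∑ i ∈ Finset.univ.erase j, (hA.1.eigenvalues i - 1)) :=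
          (Real.exp_sum _ _).symm
      _ ≤ Real.exp 1 := by
          rw [Real.exp_le_exp]
          have h1 := Finset.add_sum_erase _ (fun i => hA.1.eigenvalues i - 1) (Finset.mem_univ j)
          rw [Finset.sum_sub_distrib (s := Finset.univ)] at h1
          simp only [Finset.sum_const, Finset.card_univ, nsmul_eq_mul, mul_one] at h1
          linarith [hpos j]

/-- The key lemma. -/
theorem key {G P : Matrix ι ι ℝ} (hG : G.PosDef) (hP : P.PosDef)
    (htr : (P⁻¹ * G).trace ≤ Fintype.card ι) :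
    G.det ≤ P.det ∧
      ∀ x : ι → ℝ, G.det / (Real.exp 1 * P.det) * (x ⬝ᵥ (P *ᵥ x)) ≤ x ⬝ᵥ (G *ᵥ x) := by
  obtain ⟨B, hB⟩ := CStarAlgebra.nonneg_iff_eq_star_mul_self.mp hP.posSemidef.nonneg
  rw [star_eq_conjTranspose, conjTranspose_eq_transpose_of_trivial] at hB
  have hPd : P.det = B.det * B.det := by rw [hB, det_mul, det_transpose]
  have hPpos := hP.det_pos
  have hBd : B.det ≠ 0 := fun h => by rw [hPd, h, mul_zero] at hPpos; exact lt_irrefl _ hPpos
  have hBu : IsUnit B.det := isUnit_iff_ne_zero.2 hBd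
  have hN : ((B⁻¹)ᵀ * G * B⁻¹).PosDef := by
    have := hG.conjTranspose_mul_mul_same (B := B⁻¹)
      (mulVec_injective_of_isUnit (isUnit_nonsing_inv_iff.2 ((isUnit_iff_isUnit_det B).2 hBu)))
    rwa [conjTranspose_eq_transpose_of_trivial] at this
  have htr' : ((B⁻¹)ᵀ * G * B⁻¹).trace ≤ Fintype.card ι := by
    rw [trace_mul_cycle, transpose_nonsing_inv, ← Matrix.mul_inv_rev, ← hB]
    exact htr
  obtain ⟨h1, h2⟩ := key_one hN htr'
  have hdet : ((B⁻¹)ᵀ * G * B⁻¹).det = G.det / P.det := by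
    rw [det_mul, det_mul, det_transpose, det_nonsing_inv, Ring.inverse_eq_inv', hPd]
    field_simp
  rw [hdet] at h1 h2
  refine ⟨(div_le_one hPpos).1 h1, fun x => ?_⟩
  have h3 := h2 (B *ᵥ x)
  have h4 : (B *ᵥ x) ⬝ᵥ (B *ᵥ x) = x ⬝ᵥ (P *ᵥ x) := by
    rw [hB, ← mulVec_mulVec, dotProduct_mulVec x, vecMul_transpose]
  have h5 : (B *ᵥ x) ⬝ᵥ (((B⁻¹)ᵀ * G * B⁻¹) *ᵥ (B *ᵥ x)) = x ⬝ᵥ (G *ᵥ x) := by
    rw [← mulVec_mulVec, ← mulVec_mulVec, dotProduct_mulVec, vecMul_transpose, mulVec_mulVec,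
      mulVec_mulVec, nonsing_inv_mul _ hBu, one_mulVec, Matrix.mul_one]
  rw [h4, h5] at h3
  convert h3 using 2
  field_simp

/-- Hadamard's inequality. -/
theorem det_le_prod_diag {G : Matrix ι ι ℝ} (hG : G.PosDef) : G.det ≤ ∏ i, G i i := by
  have hd : ∀ i, 0 < G i i := fun i => hG.diag_pos
  have hP : (diagonal fun i => G i i).PosDef := PosDef.diagonal hd
  have hinv : (diagonal fun i => G i i)⁻¹ = diagonal fun i => (G i i)⁻¹ := by
    refine inv_eq_left_inv ?_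
    rw [diagonal_mul_diagonal, ← diagonal_one]
    congr 1
    ext i
    exact inv_mul_cancel₀ (hd i).ne'
  have := (key hG hP (by
    rw [hinv]
    simp only [trace, diag, diagonal_mul]
    rw [Finset.sum_congr rfl fun i _ => inv_mul_cancel₀ (hd i).ne']
    simp)).1
  rwa [det_diagonal] at this

/-- Monotonicity of the determinant. -/
theorem det_le_det_add {G H : Matrix ι ι ℝ} (hG : G.PosDef) (hH : H.PosSemidef) :
    G.det ≤ (G + H).det := by
  have hP : (G + H).PosDef := hG.add_posSemidef hH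
  refine (key hG hP ?_).1
  have hu : IsUnit (G + H).det := (isUnit_iff_isUnit_det _).1 hP.isUnit
  have h1 : (G + H)⁻¹ * G = 1 - (G + H)⁻¹ * H := by
    rw [← nonsing_inv_mul _ hu, Matrix.mul_add, add_sub_cancel_right]
  obtain ⟨B, hB⟩ := CStarAlgebra.nonneg_iff_eq_star_mul_self.mp hH.nonneg
  have h2 : 0 ≤ ((G + H)⁻¹ * H).trace := by
    have := (hP.inv.posSemidef.mul_mul_conjTranspose_same B).trace_nonneg
    rw [trace_mul_cycle, trace_mul_comm, ← star_eq_conjTranspose, ← hB] at this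
    exact this
  rw [h1, trace_sub, trace_one]
  linarith

section Block

variable {m o : Type*} [Fintype m] [DecidableEq m] [Fintype o] [DecidableEq o]

/-- Diagonal blocks. -/
def blkPV (G : Matrix (m × o) (m × o) ℝ) (c : o) : Matrix m m ℝ :=
  G.submatrix (fun i => (i, c)) fun i => (i, c)



end Block

end Crest.Agent.R133
-- keep-prune
end

-- ▼ part PVc/R192/Cost

/-! Row 192: determinant bounds by domination. -/

set_option autoImplicit false

namespace Crest.Agent.R192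

open Crest.AlgebraR.L1 MeasureTheory Matrix
open scoped ContDiff BoundedContinuousFunction

variable {ι : Type} [Fintype ι] [DecidableEq ι]

namespace CostAux

omit [DecidableEq ι] in
theorem quad_nonneg {Γ : Matrix ι ι ℝ} (hΓ : Γ.PosSemidef) (u : ι → ℝ) : 0 ≤ u ⬝ᵥ Γ *ᵥ u := by
  simpa using hΓ.dotProduct_mulVec_nonneg u

omit [DecidableEq ι] in
theorem quad_add (A B : Matrix ι ι ℝ) (u v : ι → ℝ) :
    u ⬝ᵥ (A + B) *ᵥ v = u ⬝ᵥ A *ᵥ v + u ⬝ᵥ B *ᵥ v := by
  rw [add_mulVec, dotProduct_add]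

omit [DecidableEq ι] in
theorem quad_vecMulVec (x y u v : ι → ℝ) :
    u ⬝ᵥ vecMulVec x y *ᵥ v = (x ⬝ᵥ u) * (y ⬝ᵥ v) := by
  rw [vecMulVec_mulVec, op_smul_eq_smul, dotProduct_smul, smul_eq_mul, dotProduct_comm u x,
    mul_comm]

omit [DecidableEq ι] [Fintype ι] in
theorem psd_vecMulVec [Finite ι] (v : ι → ℝ) : (vecMulVec v v).PosSemidef := by
  simpa using posSemidef_vecMulVec_self_star v

omit [DecidableEq ι] in
theorem dom_add_psd {M Γ H : Matrix ι ι ℝ} (h : Dom M Γ) (hH : H.PosSemidef) :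
    Dom M (Γ + H) := fun u v => by
  rw [quad_add, quad_add]
  linarith [h u v, quad_nonneg hH u, quad_nonneg hH v]

/-- Schur test -/
theorem dom_of_sums {M : Matrix ι ι ℝ} {c : ℝ} (h1 : ∀ i, ∑ j, |M i j| ≤ c)
    (h2 : ∀ j, ∑ i, |M i j| ≤ c) : Dom M (diagonal fun _ => c) := fun u v => by
  have hd : ∀ w : ι → ℝ, w ⬝ᵥ (diagonal fun _ => c) *ᵥ w = ∑ i, c * w i ^ 2 := fun w => by
    simp only [dotProduct, mulVec_diagonal]
    exact Finset.sum_congr rfl fun i _ => by ring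
  rw [hd, hd]
  have e1 : 2 * (u ⬝ᵥ M *ᵥ v) = ∑ i, ∑ j, 2 * (u i * M i j * v j) := by
    simp only [dotProduct, mulVec, Finset.mul_sum]
    exact Finset.sum_congr rfl fun i _ => Finset.sum_congr rfl fun j _ => by ring
  have e2 : ∑ i, ∑ j, 2 * (u i * M i j * v j) ≤
      ∑ i, ∑ j, (|M i j| * u i ^ 2 + |M i j| * v j ^ 2) := by
    refine Finset.sum_le_sum fun i _ => Finset.sum_le_sum fun j _ => ?_
    rcases abs_cases (M i j) with ⟨h, h'⟩ | ⟨h, h'⟩
    · rw [h]; nlinarith [mul_nonneg h' (sq_nonneg (u i - v j))]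
    · rw [h]; nlinarith [mul_nonneg (neg_nonneg.2 h'.le) (sq_nonneg (u i + v j))]
  have e3 : ∑ i, ∑ j, |M i j| * u i ^ 2 ≤ ∑ i, c * u i ^ 2 :=
    Finset.sum_le_sum fun i _ => by
      rw [← Finset.sum_mul]
      exact mul_le_mul_of_nonneg_right (h1 i) (sq_nonneg _)
  have e4 : ∑ i, ∑ j, |M i j| * v j ^ 2 ≤ ∑ j, c * v j ^ 2 := by
    rw [Finset.sum_comm]
    exact Finset.sum_le_sum fun j _ => by
      rw [← Finset.sum_mul]
      exact mul_le_mul_of_nonneg_right (h2 j) (sq_nonneg _)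
  simp only [Finset.sum_add_distrib] at e2
  linarith

theorem sum_succ_le (d : ℕ) (j : Fin d) :
    ∑ i : Fin d, (if (i : ℕ) = j + 1 then (1 : ℝ) else 0) ≤ 1 := by
  rw [Finset.sum_boole, Nat.cast_le_one, Finset.card_le_one]
  intro a ha b hb
  simp only [Finset.mem_filter, Finset.mem_univ, true_and] at ha hb
  exact Fin.ext (ha.trans hb.symm)

theorem sum_pred_le (d : ℕ) (i : Fin d) :
    ∑ j : Fin d, (if (i : ℕ) = j + 1 then (1 : ℝ) else 0) ≤ 1 := by
  rw [Finset.sum_boole, Nat.cast_le_one, Finset.card_le_one]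
  intro a ha b hb
  simp only [Finset.mem_filter, Finset.mem_univ, true_and] at ha hb
  exact Fin.ext (by omega)

theorem abs_omega_le (d : ℕ) (i j : Fin d) :
    |omega d i j| ≤ (if (i : ℕ) = j + 1 then (1 : ℝ) else 0) +
      (if (j : ℕ) = i + 1 then (1 : ℝ) else 0) := by
  simp only [omega, Matrix.of_apply]
  split_ifs <;> simp

end CostAux

open CostAux

theorem Dom.abs_det_le {M Γ : Matrix ι ι ℝ} (h : Dom M Γ) (hΓ : Γ.PosDef) : |M.det| ≤ Γ.det := by
  have hpos := hΓ.det_pos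
  by_cases hM : M.det = 0
  · rw [hM, abs_zero]; exact hpos.le
  have hu : IsUnit Γ.det := isUnit_iff_ne_zero.2 hpos.ne'
  have hN : (Mᵀ * Γ⁻¹ * M).PosDef := by
    have := hΓ.inv.conjTranspose_mul_mul_same (B := M)
      (mulVec_injective_of_isUnit ((isUnit_iff_isUnit_det M).2 (isUnit_iff_ne_zero.2 hM)))
    rwa [conjTranspose_eq_transpose_of_trivial] at this
  have hH : (Γ - Mᵀ * Γ⁻¹ * M).PosSemidef := by
    refine PosSemidef.of_dotProduct_mulVec_nonneg (hΓ.1.sub hN.1) fun v => ?_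
    have h1 := h (Γ⁻¹ *ᵥ (M *ᵥ v)) v
    rw [mulVec_mulVec (M *ᵥ v) Γ, mul_nonsing_inv _ hu, one_mulVec] at h1
    have h2 : v ⬝ᵥ (Mᵀ * Γ⁻¹ * M) *ᵥ v = (Γ⁻¹ *ᵥ (M *ᵥ v)) ⬝ᵥ M *ᵥ v := by
      rw [← mulVec_mulVec, ← mulVec_mulVec, dotProduct_mulVec, vecMul_transpose, dotProduct_comm]
    rw [star_trivial, sub_mulVec, dotProduct_sub, h2]
    linarith
  have h3 := R133.det_le_det_add hN hH
  rw [add_sub_cancel, det_mul, det_mul, det_transpose, det_nonsing_inv, Ring.inverse_eq_inv',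
    mul_right_comm, ← div_eq_mul_inv, div_le_iff₀ hpos] at h3
  exact abs_le_of_sq_le_sq' (by nlinarith) hpos.le |> abs_le.2

theorem RelDet.refl (Γ : Matrix ι ι ℝ) : RelDet Γ Γ 1 := by
  intro Δ _
  rw [one_mul]

theorem RelDet.trans {Γ₁ Γ₂ Γ₃ : Matrix ι ι ℝ} {F F' : ℝ} (h : RelDet Γ₁ Γ₂ F)
    (h' : RelDet Γ₂ Γ₃ F') (hF : 0 ≤ F) : RelDet Γ₁ Γ₃ (F * F') := by
  intro Δ hΔ
  rw [mul_assoc]
  exact (h Δ hΔ).trans (mul_le_mul_of_nonneg_left (h' Δ hΔ) hF)

theorem RelDet.add_right {Γ Γ0 H : Matrix ι ι ℝ} {F : ℝ} (h : RelDet Γ Γ0 F)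
    (hH : H.PosSemidef) : RelDet (Γ + H) (Γ0 + H) F := by
  intro Δ hΔ
  rw [add_assoc, add_assoc]
  exact h _ (hΔ.posSemidef_add hH)

theorem RelDet.pos {Γ Γ0 : Matrix ι ι ℝ} {F : ℝ} (h : RelDet Γ Γ0 F) (hΓ : Γ.PosSemidef)
    (hΓ0 : Γ0.PosSemidef) : 0 < F := by
  have h1 := h 1 PosDef.one
  have h2 := (PosDef.posSemidef_add hΓ (PosDef.one (n := ι) (R := ℝ))).det_pos
  have h3 := (PosDef.posSemidef_add hΓ0 (PosDef.one (n := ι) (R := ℝ))).det_pos
  exact (mul_pos_iff_of_pos_right h3).1 (h2.trans_le h1)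

/-- rank one update -/
theorem RelDet.rank_one {Γ : Matrix ι ι ℝ} (hΓ : Γ.PosSemidef) (v : ι → ℝ) {A : ℝ} (hA : 0 ≤ A)
    (hv : ∀ u : ι → ℝ, (v ⬝ᵥ u) ^ 2 ≤ A * (u ⬝ᵥ Γ *ᵥ u)) :
    RelDet (Γ + vecMulVec v v) Γ (1 + A) := by
  intro Δ hΔ
  have hX : (Γ + Δ).PosDef := PosDef.posSemidef_add hΓ hΔ
  have hpos := hX.det_pos
  have hu : IsUnit (Γ + Δ).det := isUnit_iff_ne_zero.2 hpos.ne'
  set u := (Γ + Δ)⁻¹ *ᵥ v with hu_def
  have h1 : (Γ + vecMulVec v v + Δ).det = (Γ + Δ).det * (1 + v ⬝ᵥ u) := by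
    rw [add_right_comm, vecMulVec_eq Unit, det_add_replicateCol_mul_replicateRow hu,
      det_unique (n := Unit), Matrix.mul_assoc, ← replicateCol_mulVec]
    simp [hu_def]
  have h2 : u ⬝ᵥ (Γ + Δ) *ᵥ u = v ⬝ᵥ u := by
    rw [hu_def, mulVec_mulVec, mul_nonsing_inv _ hu, one_mulVec, dotProduct_comm]
  have h3 := hv u
  have h4 := quad_nonneg hΔ.posSemidef u
  rw [quad_add] at h2
  have h5 : v ⬝ᵥ u ≤ A := by
    by_contra hc
    push Not at hc
    nlinarith [mul_nonneg hA h4]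
  rw [h1, mul_comm]
  exact mul_le_mul_of_nonneg_right (by linarith) hpos.le

theorem Cost.of_gram {M Γ : Matrix ι ι ℝ} {b : ι → ℝ} (hΓ : Γ.PosSemidef) (hd : Dom M Γ)
    (hb : ∀ i, Γ i i ≤ b i) : Cost M b 1 :=
  ⟨Γ, Γ, hΓ, hΓ, hb, hd, RelDet.refl Γ⟩

theorem Cost.mono {M : Matrix ι ι ℝ} {b b' : ι → ℝ} {F F' : ℝ} (h : Cost M b F)
    (hb : ∀ i, b i ≤ b' i) (hF : F ≤ F') : Cost M b' F' := by
  obtain ⟨Γ0, Γ, h0, h1, h2, h3, h4⟩ := h
  refine ⟨Γ0, Γ, h0, h1, fun i => (h2 i).trans (hb i), h3, fun Δ hΔ => (h4 Δ hΔ).trans ?_⟩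
  exact mul_le_mul_of_nonneg_right hF (PosDef.posSemidef_add h0 hΔ).det_pos.le

theorem Cost.add {M M' : Matrix ι ι ℝ} {b b' : ι → ℝ} {F F' : ℝ} (h : Cost M b F)
    (h' : Cost M' b' F') : Cost (M + M') (fun i => b i + b' i) (F * F') := by
  obtain ⟨Γ0, Γ, h0, h1, h2, h3, h4⟩ := h
  obtain ⟨Γ0', Γ', h0', h1', h2', h3', h4'⟩ := h'
  refine ⟨Γ0 + Γ0', Γ + Γ', h0.add h0', h1.add h1', fun i => add_le_add (h2 i) (h2' i),
    fun u v => ?_, ?_⟩
  · rw [quad_add, quad_add, quad_add]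
    linarith [h3 u v, h3' u v]
  · refine (h4.add_right h1').trans ?_ (h4.pos h1 h0).le
    rw [add_comm Γ0 Γ', add_comm Γ0 Γ0']
    exact h4'.add_right h0

theorem Cost.neg {M : Matrix ι ι ℝ} {b : ι → ℝ} {F : ℝ} (h : Cost M b F) : Cost (-M) b F := by
  obtain ⟨Γ0, Γ, h0, h1, h2, h3, h4⟩ := h
  refine ⟨Γ0, Γ, h0, h1, h2, fun u v => ?_, h4⟩
  have := h3 u (-v)
  simp only [mulVec_neg, dotProduct_neg, neg_dotProduct, neg_neg, neg_mulVec] at this ⊢
  exact this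

theorem Cost.smul {M : Matrix ι ι ℝ} {b : ι → ℝ} {F : ℝ} (h : Cost M b F) {t : ℝ} (ht : 0 < t) :
    Cost (t • M) (fun i => t * b i) F := by
  obtain ⟨Γ0, Γ, h0, h1, h2, h3, h4⟩ := h
  refine ⟨t • Γ0, t • Γ, h0.smul ht.le, h1.smul ht.le,
    fun i => mul_le_mul_of_nonneg_left (h2 i) ht.le, fun u v => ?_, fun Δ hΔ => ?_⟩
  · simp only [smul_mulVec, dotProduct_smul, smul_eq_mul]
    nlinarith [mul_le_mul_of_nonneg_left (h3 u v) ht.le]
  · have e : ∀ X : Matrix ι ι ℝ, t • X + Δ = t • (X + t⁻¹ • Δ) := fun X => by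
      rw [smul_add, smul_inv_smul₀ ht.ne']
    rw [e, e, det_smul, det_smul, mul_left_comm]
    exact mul_le_mul_of_nonneg_left (h4 _ (hΔ.smul (inv_pos.2 ht))) (pow_nonneg ht.le _)

theorem Cost.sum {κ : Type} (s : Finset κ) (M : κ → Matrix ι ι ℝ) (b : κ → ι → ℝ)
    (h : ∀ a ∈ s, Cost (M a) (b a) 1) : Cost (∑ a ∈ s, M a) (fun i => ∑ a ∈ s, b a i) 1 := by
  classical
  induction s using Finset.induction_on with
  | empty => exact Cost.of_gram PosSemidef.zero (fun u v => by simp) (fun i => by simp)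
  | insert a s ha ih =>
    simp only [Finset.sum_insert ha]
    have := (h a (Finset.mem_insert_self _ _)).add
      (ih fun c hc => h c (Finset.mem_insert_of_mem hc))
    rwa [mul_one] at this

theorem Cost.nonneg {M : Matrix ι ι ℝ} {b : ι → ℝ} {F : ℝ} (h : Cost M b F) :
    0 < F ∧ ∀ i, 0 ≤ b i := by
  obtain ⟨Γ0, Γ, h0, h1, h2, -, h4⟩ := h
  exact ⟨h4.pos h1 h0, fun i => h0.diag_nonneg.trans (h2 i)⟩

theorem Cost.rank2 (x y b : ι → ℝ) {A : ℝ} (hA : 0 ≤ A) (hb : ∀ i, 0 < b i)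
    (hx : ∀ i, x i ^ 2 ≤ A * b i) (hy : ∀ i, y i ^ 2 ≤ A * b i) :
    Cost (vecMulVec x y - vecMulVec y x) b ((1 + Fintype.card ι * A) ^ 2) := by
  have h0 : (diagonal b).PosSemidef := PosSemidef.diagonal fun i => (hb i).le
  have hnA : 0 ≤ (Fintype.card ι : ℝ) * A := by positivity
  have cs : ∀ z : ι → ℝ, (∀ i, z i ^ 2 ≤ A * b i) → ∀ u : ι → ℝ,
      (z ⬝ᵥ u) ^ 2 ≤ Fintype.card ι * A * (u ⬝ᵥ diagonal b *ᵥ u) := by
    intro z hz u
    have h1 := sq_sum_le_card_mul_sum_sq (s := Finset.univ) (f := fun i => z i * u i)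
    rw [Finset.card_univ] at h1
    refine h1.trans ?_
    rw [mul_assoc]
    refine mul_le_mul_of_nonneg_left ?_ (Nat.cast_nonneg _)
    simp only [dotProduct, mulVec_diagonal, Finset.mul_sum]
    refine Finset.sum_le_sum fun i _ => ?_
    nlinarith [mul_le_mul_of_nonneg_right (hz i) (sq_nonneg (u i))]
  have h1 : (diagonal b + vecMulVec x x).PosSemidef := h0.add (psd_vecMulVec x)
  refine ⟨diagonal b, diagonal b + vecMulVec x x + vecMulVec y y, h0, h1.add (psd_vecMulVec y),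
    fun i => by simp, fun u v => ?_, ?_⟩
  · simp only [quad_add, sub_mulVec, dotProduct_sub, quad_vecMulVec]
    nlinarith [quad_nonneg h0 u, quad_nonneg h0 v, sq_nonneg (x ⬝ᵥ u - y ⬝ᵥ v),
      sq_nonneg (y ⬝ᵥ u + x ⬝ᵥ v)]
  · rw [sq]
    refine (RelDet.rank_one h1 y hnA fun u => (cs y hy u).trans ?_).trans
      (RelDet.rank_one h0 x hnA (cs x hx)) (by linarith)
    refine mul_le_mul_of_nonneg_left ?_ hnA
    rw [quad_add]
    linarith [quad_nonneg (psd_vecMulVec x) u]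

theorem Cost.smul_omega (d : ℕ) {t : ℝ} (ht : 0 ≤ t) :
    Cost (t • omega d) (fun _ => 2 * t) 1 := by
  refine Cost.of_gram (Γ := diagonal fun _ => 2 * t)
    (PosSemidef.diagonal fun i => by positivity) (dom_of_sums (fun i => ?_) fun j => ?_)
    fun i => by simp
  · simp only [Matrix.smul_apply, smul_eq_mul, abs_mul, abs_of_nonneg ht, ← Finset.mul_sum]
    have := Finset.sum_le_sum fun j (_ : j ∈ Finset.univ) => abs_omega_le d i j
    rw [Finset.sum_add_distrib] at this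
    nlinarith [sum_succ_le d i, sum_pred_le d i]
  · simp only [Matrix.smul_apply, smul_eq_mul, abs_mul, abs_of_nonneg ht, ← Finset.mul_sum]
    have := Finset.sum_le_sum fun i (_ : i ∈ Finset.univ) => abs_omega_le d i j
    rw [Finset.sum_add_distrib] at this
    nlinarith [sum_succ_le d j, sum_pred_le d j]

theorem Cost.abs_det_le {M : Matrix ι ι ℝ} {b : ι → ℝ} {F : ℝ} (h : Cost M b F) :
    |M.det| ≤ F * ∏ i, b i := by
  have hF := h.nonneg.1
  obtain ⟨Γ0, Γ, h0, h1, h2, h3, h4⟩ := h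
  have key : ∀ η : ℝ, 0 < η → |M.det| ≤ F * ∏ i, (b i + η) := by
    intro η hη
    have hΔ : (diagonal fun _ : ι => η).PosDef := PosDef.diagonal fun _ => hη
    have hX := PosDef.posSemidef_add h0 hΔ
    refine ((dom_add_psd h3 hΔ.posSemidef).abs_det_le (PosDef.posSemidef_add h1 hΔ)).trans ?_
    refine (h4 _ hΔ).trans (mul_le_mul_of_nonneg_left ?_ hF.le)
    refine (R133.det_le_prod_diag hX).trans ?_
    refine Finset.prod_le_prod (fun i _ => hX.diag_pos.le) fun i _ => ?_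
    simp [h2 i]
  have hc : Continuous fun η : ℝ => F * ∏ i, (b i + η) := by fun_prop
  have ht : Filter.Tendsto (fun η : ℝ => F * ∏ i, (b i + η)) (nhdsWithin 0 (Set.Ioi 0))
      (nhds (F * ∏ i, b i)) := by
    simpa using (hc.tendsto 0).mono_left (nhdsWithin_le_nhds (s := Set.Ioi 0))
  exact ge_of_tendsto ht (Filter.eventually_of_mem self_mem_nhdsWithin key)

end Crest.Agent.R192
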