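import Crest.Agent.PVc.R192.Occ
import Crest.Agent.PVc.R192.TP
import Crest.Agent.PVc.R192.Net
import Crest.Agent.PVc.R192.Cost
import Crest.Agent.PVc.R192.TwoPt
import Crest.Agent.PVc.R192.Defs

-- ▼ part PVc/R192/OccCalc
section

/-! Row 192: calculus of occupation fields. -/

set_option autoImplicit false

namespace Crest.Agent.R192

open Crest.AlgebraR.L1 MeasureTheory Matrix
open scoped ContDiff BoundedContinuousFunction

variable {G : Type} [Group G] {n : ℕ} {K : ℝ → ℝ} {E : Type} [NormedAddCommGroup E]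
  [NormedSpace ℝ E]

namespace OccCalcAux

theorem fld_eq_sum (hK : Step K) (c : G) (x : Fin (n + 1) → G) (ξ : G → E) (θ : V (n + 1)) (φ : ℝ)
    (r : ℕ) (hr : ‖θ‖ + |φ| + 2 ≤ r) : fld K c x ξ (θ, φ) =
      ∑ m ∈ Finset.Icc (-r : ℤ) r, ∑ i : Fin (n + 1),
        (K (φ - m - ext θ i.castSucc) - K (φ - m - ext θ i.succ)) • ξ (c ^ m * x i) := by
  simp only [fld, occ_eq_sum hK c x θ φ r hr, map_sum, Finsupp.linearCombination_single]

theorem ev_sum (hK : Step K) (c : G) (x : Fin (n + 1) → G) (ξ : G → E) (p : V (n + 1) × ℝ)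
    (r : ℕ) (hr : ‖p.1‖ + |p.2| + 2 < r) : fld K c x ξ =ᶠ[nhds p] fun q =>
      ∑ m ∈ Finset.Icc (-r : ℤ) r, ∑ i : Fin (n + 1),
        (K (q.2 - m - ext q.1 i.castSucc) - K (q.2 - m - ext q.1 i.succ)) • ξ (c ^ m * x i) := by
  have hc : Continuous fun q : V (n + 1) × ℝ => ‖q.1‖ + |q.2| + 2 := by fun_prop
  filter_upwards [hc.continuousAt.eventually_lt continuousAt_const hr] with q hq
  exact fld_eq_sum hK c x ξ q.1 q.2 r hq.le

theorem ext_smooth (k : Fin (n + 2)) : ContDiff ℝ ∞ fun θ : V (n + 1) => ext θ k := by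
  refine Fin.lastCases ?_ (fun j => ?_) k
  · simp only [ext, Fin.snoc_last]
    fun_prop
  · simp only [ext, Fin.snoc_castSucc]
    fun_prop

theorem ext_line (θ v : V (n + 1)) (t : ℝ) (k : Fin (n + 2)) :
    ext (θ + t • v) k = ext θ k + t * (Fin.snoc v (v 0) : V (n + 2)) k := by
  refine Fin.lastCases ?_ (fun j => ?_) k
  · simp only [ext, Fin.snoc_last, Pi.add_apply, Pi.smul_apply, smul_eq_mul]
    ring
  · simp [ext]

end OccCalcAux

open OccCalcAux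

theorem fld_smooth (hK : Step K) (hK' : ContDiff ℝ ∞ K) (c : G) (x : Fin (n + 1) → G)
    (ξ : G → E) : ContDiff ℝ ∞ (fld K c x ξ) := by
  refine contDiff_iff_contDiffAt.2 fun p => ?_
  obtain ⟨r, hr⟩ := exists_nat_gt (‖p.1‖ + |p.2| + 2)
  refine ContDiffAt.congr_of_eventuallyEq (ContDiff.contDiffAt ?_) (ev_sum hK c x ξ p r hr)
  refine ContDiff.sum fun m _ => ContDiff.sum fun i _ => ContDiff.smul (ContDiff.sub ?_ ?_)
    contDiff_const
  all_goals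
    exact hK'.comp ((contDiff_snd.sub contDiff_const).sub ((ext_smooth _).comp contDiff_fst))

theorem OccCalcAux.fderiv_eq (hK : Step K) (hK' : ContDiff ℝ ∞ K) (c : G) (x : Fin (n + 1) → G)
    (ξ : G → E) (θ v : V (n + 1)) (φ s : ℝ) (r : ℕ) (hr : ‖θ‖ + |φ| + 2 < r) :
    fderiv ℝ (fld K c x ξ) (θ, φ) (v, s) = ∑ m ∈ Finset.Icc (-r : ℤ) r, ∑ i : Fin (n + 1),
      (deriv K (φ - m - ext θ i.castSucc) * (s - (Fin.snoc v (v 0) : V (n + 2)) i.castSucc) -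
        deriv K (φ - m - ext θ i.succ) * (s - (Fin.snoc v (v 0) : V (n + 2)) i.succ)) •
        ξ (c ^ m * x i) := by
  have hl : HasDerivAt (fun t : ℝ => ((θ, φ) : V (n + 1) × ℝ) + t • (v, s)) (v, s) 0 := by
    simpa using ((hasDerivAt_id (0 : ℝ)).smul_const ((v, s) : V (n + 1) × ℝ)).const_add (θ, φ)
  have h0 : ((θ, φ) : V (n + 1) × ℝ) = (θ, φ) + (0 : ℝ) • (v, s) := by simp
  have h1 := ((fld_smooth hK hK' c x ξ).differentiable (by simp) (θ, φ)).hasFDerivAt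
    |>.comp_hasDerivAt_of_eq 0 hl h0
  have ht := hl.continuousAt.tendsto
  rw [← h0] at ht
  have h2 := (ev_sum hK c x ξ (θ, φ) r hr).comp_tendsto ht
  have h3 : ∀ (m : ℤ) (k : Fin (n + 2)), HasDerivAt
      (fun t : ℝ => K (φ + t * s - m - ext (θ + t • v) k))
      (deriv K (φ - m - ext θ k) * (s - (Fin.snoc v (v 0) : V (n + 2)) k)) 0 := by
    intro m k
    simp only [ext_line]
    have h4 : HasDerivAt (fun t : ℝ => φ + t * s - m -
        (ext θ k + t * (Fin.snoc v (v 0) : V (n + 2)) k))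
        (s - (Fin.snoc v (v 0) : V (n + 2)) k) 0 :=
      (((hasDerivAt_mul_const s).const_add φ).sub_const _).sub
        ((hasDerivAt_mul_const _).const_add _)
    exact ((hK'.differentiable (by simp) _).hasDerivAt).comp_of_eq 0 h4 (by simp)
  refine h1.unique (HasDerivAt.congr_of_eventuallyEq ?_ h2)
  exact HasDerivAt.fun_sum fun m _ => HasDerivAt.fun_sum fun i _ =>
    ((h3 m i.castSucc).sub (h3 m i.succ)).smul_const _

theorem norm_fderiv_fld_le (hK : Step K) (hK' : ContDiff ℝ ∞ K) (ℓ : Len G) (c : G)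
    (x : Fin (n + 1) → G) (ξ : G → E) (hξ : ∀ a b, ‖ξ a - ξ b‖ ≤ ℓ.len (a⁻¹ * b))
    (θ : V (n + 1)) (φ : ℝ) (i : Fin (n + 1)) :
    ‖fderiv ℝ (fld K c x ξ) (θ, φ) (ev i, 0)‖ ≤ slen ℓ c x i * per (deriv K) (φ - θ i) := by
  obtain ⟨r, hr⟩ := exists_nat_gt (‖θ‖ + |φ| + 2)
  have hθ : ∀ j, |θ j| ≤ ‖θ‖ := fun j => norm_le_pi_norm θ j
  have hφ := abs_le.1 (le_refl |φ|)
  rw [OccCalcAux.fderiv_eq hK hK' c x ξ θ _ φ 0 r hr]
  have e0 : ∀ w : V (n + 1), ∀ a : ℝ, (Fin.snoc w a : V (n + 2)) 0 = w 0 := fun w a => by simp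
  refine (norm_abel_le ℓ ξ hξ c x r (fun m k => deriv K (φ - m - ext θ k) *
    (0 - (Fin.snoc (ev i) (ev i 0) : V (n + 2)) k)) (fun m => ?_) ?_ ?_).trans (le_of_eq ?_)
  · simp only [ext, Fin.snoc_last, e0]
    push_cast
    ring_nf
  · rw [hK.deriv_eq_zero, zero_mul]
    right
    have := abs_le.1 (hθ 0)
    simp only [ext, e0]
    push_cast
    linarith
  · rw [hK.deriv_eq_zero, zero_mul]
    left
    have := abs_le.1 (hθ 0)
    simp only [ext, e0]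
    push_cast
    linarith
  · rw [Finset.sum_eq_single i]
    · congr 1
      rw [per, finsum_eq_sum_of_support_subset (s := Finset.Icc (-r : ℤ) r)]
      · refine Finset.sum_congr rfl fun m _ => ?_
        simp [ext, sub_right_comm]
      · intro m hm
        by_contra hm'
        refine hm (abs_eq_zero.2 (hK.deriv_eq_zero _ ?_))
        have := abs_le.1 (hθ i)
        rw [Finset.coe_Icc, Set.mem_Icc, not_and_or, not_le, not_le] at hm'
        rcases hm' with h | h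
        · have : (m : ℝ) < -r := by exact_mod_cast h
          right; linarith
        · have : (r : ℝ) < m := by exact_mod_cast h
          left; linarith
    · intro j _ hj
      simp [hj]
    · simp

theorem norm_fld_sub_le {δ0 δ : ℝ} (h0 : 0 < δ0) (h : 0 < δ) (h1 : δ + δ0 ≤ 1) (c : G)
    (x : Fin (n + 1) → G) (ξ : G → E) (hξ : ∀ a, ‖ξ a‖ ≤ 1) {θ : V (n + 1)} (hθ : θ ∈ cell n)
    (φ φ' : ℝ) :
    ‖fld (kerK δ0 δ) c x ξ (θ, φ) - fld (kerK δ0 δ) c x ξ (θ, φ')‖ ≤ 2 * |φ - φ'| / δ := by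
  have hK := kerK_step h0 h h1
  have hK' := kerK_smooth δ0 δ
  have hσ := sig_step h0 (by linarith)
  have hd : ∀ ψ : ℝ, HasDerivAt (fun t => fld (kerK δ0 δ) c x ξ (θ, t))
      (fderiv ℝ (fld (kerK δ0 δ) c x ξ) (θ, ψ) (0, 1)) ψ := fun ψ =>
    ((fld_smooth hK hK' c x ξ).differentiable (by simp) (θ, ψ)).hasFDerivAt.comp_hasDerivAt ψ
      ((hasDerivAt_const ψ θ).prodMk (hasDerivAt_id ψ))
  have hb : ∀ ψ : ℝ, ‖fderiv ℝ (fld (kerK δ0 δ) c x ξ) (θ, ψ) (0, 1)‖ ≤ 2 / δ := by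
    intro ψ
    obtain ⟨r, hr⟩ := exists_nat_gt (‖θ‖ + |ψ| + |ψ - δ| + 2)
    have e : fderiv ℝ (fld (kerK δ0 δ) c x ξ) (θ, ψ) (0, 1) =
        δ⁻¹ • (fld (fun x => Real.smoothTransition (x / δ0)) c x ξ (θ, ψ) -
          fld (fun x => Real.smoothTransition (x / δ0)) c x ξ (θ, ψ - δ)) := by
      rw [OccCalcAux.fderiv_eq hK hK' c x ξ θ _ ψ 1 r (by linarith [abs_nonneg (ψ - δ)]),
        fld_eq_sum hσ c x ξ θ ψ r (by linarith [abs_nonneg (ψ - δ)]),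
        fld_eq_sum hσ c x ξ θ (ψ - δ) r (by linarith [abs_nonneg ψ]), ← Finset.sum_sub_distrib,
        Finset.smul_sum]
      refine Finset.sum_congr rfl fun m _ => ?_
      rw [← Finset.sum_sub_distrib, Finset.smul_sum]
      refine Finset.sum_congr rfl fun i _ => ?_
      have e0 : ∀ k, (Fin.snoc (0 : V (n + 1)) ((0 : V (n + 1)) 0) : V (n + 2)) k = 0 :=
        fun k => Fin.lastCases (by simp) (fun j => by simp) k
      have e1 : ∀ a : ℝ, ψ - δ - m - a = ψ - m - a - δ := fun a => by ring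
      rw [← sub_smul, smul_smul, e0, e0, deriv_kerK h0, deriv_kerK h0, e1, e1]
      congr 1
      ring
    rw [e, norm_smul, norm_inv, Real.norm_of_nonneg h.le, inv_mul_eq_div]
    refine div_le_div_of_nonneg_right ((norm_sub_le _ _).trans ?_) h.le
    have h2 := (isProb_occ hσ c x hθ ψ).norm_pr_le ξ hξ
    have h3 := (isProb_occ hσ c x hθ (ψ - δ)).norm_pr_le ξ hξ
    exact (add_le_add h2 h3).trans (by norm_num)
  have := convex_univ.norm_image_sub_le_of_norm_hasDerivWithin_le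
    (fun ψ _ => (hd ψ).hasDerivWithinAt) (fun ψ _ => hb ψ) (Set.mem_univ φ') (Set.mem_univ φ)
  rw [Real.norm_eq_abs] at this
  refine this.trans (le_of_eq ?_)
  ring

end Crest.Agent.R192
end

-- ▼ part PVc/R192/Avg
section

/-! Row 192: the time average of the soft minimum. -/

set_option autoImplicit false

namespace Crest.Agent.R192

open Crest.AlgebraR.L1 MeasureTheory Matrix
open scoped ContDiff BoundedContinuousFunction

variable {G : Type} [Group G] [TopologicalSpace G] [DiscreteTopology G] {n : ℕ} {ℓ : Len G}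
  (Γ : Gibbs ℓ) {δ0 δ : ℝ}

theorem phi_fld_smooth (h0 : 0 < δ0) (h : 0 < δ) (h1 : δ + δ0 ≤ 1) (c : G)
    (x : Fin (n + 1) → G) : ContDiff ℝ ∞ fun p => Γ.Φ (fld (kerK δ0 δ) c x (xiD ℓ) p) :=
  Γ.smooth.comp (fld_smooth (kerK_step h0 h h1) (kerK_smooth δ0 δ) c x (xiD ℓ))

theorem phi_fld_periodic {K : ℝ → ℝ} (hK : Step K) (c : G) (x : Fin (n + 1) → G)
    (θ : V (n + 1)) : Function.Periodic (fun φ => Γ.Φ (fld K c x (xiD ℓ) (θ, φ))) 1 := by
  intro φ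
  simp only [fld]
  rw [occ_add_one hK, Γ.inv _ _ (mass_occ hK c x θ φ)]

theorem avg_shift {K : ℝ → ℝ} (hK : Step K) (c : G) (x : Fin (n + 1) → G) (θ : V (n + 1))
    (t : ℝ) : ∫ φ in (0 : ℝ)..1, Γ.Φ (fld K c x (xiD ℓ) (θ, φ + t)) = avgΦ Γ K c x θ := by
  rw [intervalIntegral.integral_comp_add_right (fun φ => Γ.Φ (fld K c x (xiD ℓ) (θ, φ))) t,
    zero_add, add_comm 1 t, (phi_fld_periodic Γ hK c x θ).intervalIntegral_add_eq t 0, zero_add]
  rfl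

theorem avg_smooth (h0 : 0 < δ0) (h : 0 < δ) (h1 : δ + δ0 ≤ 1) (c : G) (x : Fin (n + 1) → G) :
    ContDiff ℝ ∞ (avgΦ Γ (kerK δ0 δ) c x) := by
  exact contDiff_intervalIntegral (phi_fld_smooth Γ h0 h h1 c x) 0 1

theorem avg_rot {K : ℝ → ℝ} (hK : Step K) (c : G) (x : Fin (n + 1) → G) (θ : V (n + 1)) (t : ℝ) :
    avgΦ Γ K c x (fun i => θ i + t) = avgΦ Γ K c x θ := by
  rw [← avg_shift Γ hK c x (fun i => θ i + t) t]
  simp only [avgΦ, fld, occ_rot]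

theorem avg_conj {K : ℝ → ℝ} (hK : Step K) (c g : G) (x : Fin (n + 1) → G) :
    avgΦ Γ K (g * c * g⁻¹) (fun i => g * x i) = avgΦ Γ K c x := by
  funext θ
  simp only [avgΦ, fld, occ_conj hK, Γ.inv _ _ (mass_occ hK c x θ _)]

theorem avg_cyc {K : ℝ → ℝ} (hK : Step K) (c : G) (x : Fin (n + 1) → G) (θ : V (n + 1)) :
    avgΦ Γ K c (rotx c x) (rotθ θ) = avgΦ Γ K c x θ := by
  simp only [avgΦ, fld, occ_cyc hK]

theorem avg_face (K : ℝ → ℝ) (c : G) (x : Fin (n + 2) → G) (p : Fin (n + 2)) (θ : V (n + 1)) :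
    avgΦ Γ K c x (faceθ p θ) = avgΦ Γ K c (fun i => x (p.succAbove i)) θ := by
  simp only [avgΦ, fld, occ_face]

theorem avg_nonneg {K : ℝ → ℝ} (hK : Step K) (c : G) (x : Fin (n + 1) → G) {θ : V (n + 1)}
    (hθ : θ ∈ cell n) : 0 ≤ avgΦ Γ K c x θ := by
  exact intervalIntegral.integral_nonneg zero_le_one fun φ _ =>
    Γ.nonneg _ (isProb_occ hK c x hθ φ)

theorem avg_le (h0 : 0 < δ0) (h1 : 5 * δ0 ≤ 1) (c : G) (x : Fin (n + 1) → G) {θ : V (n + 1)}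
    (hθ : θ ∈ cell n) : avgΦ Γ (kerK δ0 δ0) c x θ ≤ Γ.C0 + 4 * (δ0 * tlen ℓ c x) := by
  have h2 : δ0 + δ0 ≤ 1 := by linarith
  have h4 : 0 < 4 * δ0 := by linarith
  have h5 : 4 * δ0 + δ0 ≤ 1 := by linarith
  have hK := kerK_step h0 h0 h2
  have hc := per_deriv_continuous h0 h4 h5
  have key : ∀ φ, Γ.Φ (fld (kerK δ0 δ0) c x (xiD ℓ) (θ, φ)) ≤ Γ.C0 + ∑ i, slen ℓ c x i *
      (4 * δ0 * per (deriv (kerK δ0 (4 * δ0))) (φ + (δ0 - θ i))) := by
    intro φ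
    obtain ⟨z, hz⟩ := occ_heav c x hθ φ
    refine (Γ.le_mdist _ (isProb_occ hK c x hθ φ) z).trans (add_le_add le_rfl ?_)
    have h3 := norm_pr_occ_sub_le ℓ (fun y => (ℓ.len (y⁻¹ * z) : ℝ))
      (fun a b => NetAux.len_sub_le ℓ a b z) hK heav_step c x θ φ
    have h6 : pr (fun y => (ℓ.len (y⁻¹ * z) : ℝ)) (Finsupp.single z 1) = 0 := by
      simp [ℓ.len_one]
    rw [hz, h6, sub_zero] at h3
    refine (le_abs_self _).trans (h3.trans (Finset.sum_le_sum fun i _ => ?_))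
    refine mul_le_mul_of_nonneg_left ?_ (Nat.cast_nonneg _)
    refine (per_sub_heav_le h0 h1 _).trans_eq ?_
    congr 2
    ring
  have hi : ∀ i : Fin (n + 1), Continuous fun φ : ℝ => (slen ℓ c x i : ℝ) *
      (4 * δ0 * per (deriv (kerK δ0 (4 * δ0))) (φ + (δ0 - θ i))) := fun i => by fun_prop
  refine (intervalIntegral.integral_mono_on zero_le_one
    (((phi_fld_smooth Γ h0 h0 h2 c x).continuous.comp
      (Continuous.prodMk_right θ)).intervalIntegrable 0 1)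
    ((continuous_const.add (continuous_finsetSum _ fun i _ => hi i)).intervalIntegrable 0 1)
    fun φ _ => key φ).trans_eq ?_
  simp only [Pi.add_apply]
  rw [intervalIntegral.integral_add intervalIntegrable_const
    ((continuous_finsetSum _ fun i _ => hi i).intervalIntegrable 0 1),
    intervalIntegral.integral_finsetSum fun i _ => (hi i).intervalIntegrable 0 1]
  simp only [intervalIntegral.integral_const_mul, integral_per_deriv h0 h4 h5]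
  simp only [intervalIntegral.integral_const, tlen, Nat.cast_sum, ← Finset.sum_mul, smul_eq_mul]
  ring

theorem avg_fderiv_le (h0 : 0 < δ0) (h : 0 < δ) (h1 : δ + δ0 ≤ 1) (c : G) (x : Fin (n + 1) → G)
    (θ : V (n + 1)) (i : Fin (n + 1)) :
    |fderiv ℝ (avgΦ Γ (kerK δ0 δ) c x) θ (ev i)| ≤ slen ℓ c x i := by
  have hK := kerK_step h0 h h1
  have hf := fld_smooth hK (kerK_smooth δ0 δ) c x (xiD ℓ)
  have hc := per_deriv_continuous h0 h h1
  have e := fderiv_intervalIntegral (phi_fld_smooth Γ h0 h h1 c x) 0 1 θ (ev i)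
  have e' : fderiv ℝ (avgΦ Γ (kerK δ0 δ) c x) θ (ev i) = _ := e
  rw [e', ← Real.norm_eq_abs]
  refine (intervalIntegral.norm_integral_le_of_norm_le zero_le_one
    (g := fun φ => (slen ℓ c x i : ℝ) * per (deriv (kerK δ0 δ)) (φ + -θ i))
    (Filter.Eventually.of_forall fun φ _ => ?_)
    (Continuous.intervalIntegrable (by fun_prop) 0 1)).trans_eq ?_
  · rw [fderiv_fun_comp _ (Γ.smooth.differentiable (by simp) _) (hf.differentiable (by simp) _),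
      ContinuousLinearMap.comp_apply, Real.norm_eq_abs, ← sub_eq_add_neg]
    exact (Γ.grad_le _ _).trans
      (norm_fderiv_fld_le hK (kerK_smooth δ0 δ) ℓ c x _ (norm_xiD_sub_le ℓ) θ φ i)
  · rw [intervalIntegral.integral_const_mul, integral_per_deriv h0 h h1, mul_one]

end Crest.Agent.R192
end

-- ▼ part PVc/R192/EnergyAux
section

/-! Row 192: auxiliary calculus and linear algebra for the energy two-point function. -/

set_option autoImplicit false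

namespace Crest.Agent.R192

open MeasureTheory Matrix
open scoped ContDiff

namespace EnAux

section calculus
variable {X E : Type} [NormedAddCommGroup X] [NormedSpace ℝ X] [NormedAddCommGroup E]
  [NormedSpace ℝ E] {Φ : E → ℝ} {f : X → E}

theorem smooth_mid (hΦ : ContDiff ℝ ∞ Φ) (hf : ContDiff ℝ ∞ f) :
    ContDiff ℝ ∞ fun p : X × X => -Φ ((1 / 2 : ℝ) • f p.1 + (1 / 2 : ℝ) • f p.2) :=
  (hΦ.comp (((hf.comp contDiff_fst).const_smul _).add ((hf.comp contDiff_snd).const_smul _))).neg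

theorem d2 (hΦ : ContDiff ℝ ∞ Φ) (hf : ContDiff ℝ ∞ f) (p q v : X) :
    fderiv ℝ (fun q => -Φ ((1 / 2 : ℝ) • f p + (1 / 2 : ℝ) • f q)) q v =
      -fderiv ℝ Φ ((1 / 2 : ℝ) • f p + (1 / 2 : ℝ) • f q) ((1 / 2 : ℝ) • fderiv ℝ f q v) := by
  have h1 := ((hf.differentiable (by simp) q).hasFDerivAt.const_smul (1 / 2 : ℝ)).const_add
    ((1 / 2 : ℝ) • f p)
  have h2 := ((hΦ.differentiable (by simp) _).hasFDerivAt.comp q h1).neg.fderiv
  exact (DFunLike.congr_fun h2 v).trans rfl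

theorem d12 (hΦ : ContDiff ℝ ∞ Φ) (hf : ContDiff ℝ ∞ f) (p q u v : X) :
    fderiv ℝ (fun p => fderiv ℝ (fun q => -Φ ((1 / 2 : ℝ) • f p + (1 / 2 : ℝ) • f q)) q v) p u =
      (1 / 4 : ℝ) * -fderiv ℝ (fderiv ℝ Φ) ((1 / 2 : ℝ) • f p + (1 / 2 : ℝ) • f q)
        (fderiv ℝ f p u) (fderiv ℝ f q v) := by
  simp only [d2 hΦ hf]
  have h1 := ((hf.differentiable (by simp) p).hasFDerivAt.const_smul (1 / 2 : ℝ)).add_const
    ((1 / 2 : ℝ) • f q)
  have h0 : Differentiable ℝ (fderiv ℝ Φ) :=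
    (hΦ.fderiv_right (m := ∞) (by simp)).differentiable (by simp)
  have h2 := ((((h0 _).hasFDerivAt.comp p h1).clm_apply
    (hasFDerivAt_const ((1 / 2 : ℝ) • fderiv ℝ f q v) p))).neg.fderiv
  refine (DFunLike.congr_fun h2 u).trans ?_
  simp
  ring

theorem symm2 (hΦ : ContDiff ℝ ∞ Φ) (y a b : E) :
    fderiv ℝ (fderiv ℝ Φ) y a b = fderiv ℝ (fderiv ℝ Φ) y b a :=
  (hΦ.contDiffAt.isSymmSndFDerivAt (by
    rw [minSmoothness_of_isRCLikeNormedField]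
    exact WithTop.coe_le_coe.2 (le_top : (2 : ℕ∞) ≤ ⊤))).eq a b

/-- minus the Hessian -/
noncomputable def negHess (Φ : E → ℝ) (y : E) : E →L[ℝ] E →L[ℝ] ℝ := -fderiv ℝ (fderiv ℝ Φ) y

theorem negHess_cont (hΦ : ContDiff ℝ ∞ Φ) : Continuous (negHess Φ) :=
  ((hΦ.fderiv_right (m := ∞) (by simp)).continuous_fderiv (by simp)).neg

end calculus

section bilin
variable {E : Type} [NormedAddCommGroup E] [NormedSpace ℝ E] {B : E →L[ℝ] E →L[ℝ] ℝ}

theorem two_mul_le (hs : ∀ a b, B a b = B b a) (hp : ∀ a, 0 ≤ B a a) (a b : E) :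
    2 * B a b ≤ B a a + B b b := by
  have h := hp (a - b)
  simp only [map_sub, _root_.sub_apply] at h
  linarith [hs a b]

theorem abs_bilin_le (hs : ∀ a b, B a b = B b a) (hp : ∀ a, 0 ≤ B a a) {lam : ℝ} (hl : 0 ≤ lam)
    (hb : ∀ a, B a a ≤ lam * ‖a‖ ^ 2) (a b : E) : |B a b| ≤ lam * ‖a‖ * ‖b‖ := by
  have h1 : ∀ t : ℝ, 0 ≤ B a a * (t * t) + 2 * B a b * t + B b b := fun t => by
    have h := hp (t • a + b)
    simp only [map_add, map_smul, _root_.add_apply, _root_.smul_apply, smul_eq_mul] at h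
    rw [hs b a] at h
    linarith
  have h2 := discrim_le_zero h1
  rw [discrim] at h2
  refine abs_le.2 (abs_le_of_sq_le_sq' ?_ (by positivity))
  calc (B a b) ^ 2 ≤ B a a * B b b := by nlinarith
    _ ≤ (lam * ‖a‖ ^ 2) * (lam * ‖b‖ ^ 2) := mul_le_mul (hb a) (hb b) (hp b) (by positivity)
    _ = _ := by ring

variable {ι : Type} [Fintype ι]

theorem form (B : E →L[ℝ] E →L[ℝ] ℝ) (a b : ι → E) (u v : ι → ℝ) :
    u ⬝ᵥ (Matrix.of fun i j => B (a i) (b j)) *ᵥ v = B (∑ i, u i • a i) (∑ j, v j • b j) := by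
  simp only [dotProduct, mulVec, of_apply, map_sum, map_smul, _root_.sum_apply,
    _root_.smul_apply, smul_eq_mul, Finset.mul_sum]
  rw [Finset.sum_comm]
  exact Finset.sum_congr rfl fun i _ => Finset.sum_congr rfl fun j _ => by ring

theorem dom_gram (hs : ∀ a b, B a b = B b a) (hp : ∀ a, 0 ≤ B a a) (a b : ι → E) :
    Dom (Matrix.of fun i j => 1 / 4 * B (a i) (b j) - 1 / 4 * B (a j) (b i))
      (Matrix.of fun i j => 1 / 4 * (B (a i) (a j) + B (b i) (b j))) := by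
  intro u v
  have e1 : (Matrix.of fun i j => 1 / 4 * B (a i) (b j) - 1 / 4 * B (a j) (b i)) =
      (1 / 4 : ℝ) • ((Matrix.of fun i j => B (a i) (b j)) - Matrix.of fun i j => B (b i) (a j)) := by
    ext i j
    simp only [of_apply, Matrix.smul_apply, Matrix.sub_apply, smul_eq_mul, hs (a j) (b i)]
    ring
  have e2 : (Matrix.of fun i j => 1 / 4 * (B (a i) (a j) + B (b i) (b j))) =
      (1 / 4 : ℝ) • ((Matrix.of fun i j => B (a i) (a j)) + Matrix.of fun i j => B (b i) (b j)) := by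
    ext i j
    simp only [of_apply, Matrix.smul_apply, Matrix.add_apply, smul_eq_mul]
  rw [e1, e2]
  simp only [smul_mulVec, sub_mulVec, add_mulVec, dotProduct_smul, dotProduct_sub, dotProduct_add,
    form, smul_eq_mul]
  have h1 := two_mul_le hs hp (∑ i, u i • a i) (∑ j, v j • b j)
  have h2 := two_mul_le hs hp (-∑ i, u i • b i) (∑ j, v j • a j)
  simp only [map_neg, _root_.neg_apply, neg_neg] at h2
  linarith

end bilin

section integral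
variable {ι Ω : Type} [Fintype ι] [MeasurableSpace Ω] {μ : Measure Ω}

theorem form_integral (F : Ω → Matrix ι ι ℝ) (hF : ∀ i j, Integrable (fun p => F p i j) μ)
    (u v : ι → ℝ) : Integrable (fun p => u ⬝ᵥ F p *ᵥ v) μ ∧
      u ⬝ᵥ (Matrix.of fun i j => ∫ p, F p i j ∂μ) *ᵥ v = ∫ p, u ⬝ᵥ F p *ᵥ v ∂μ := by
  simp only [dotProduct, mulVec, of_apply]
  have h1 : ∀ i, Integrable (fun p => ∑ j, F p i j * v j) μ := fun i =>
    integrable_finsetSum _ fun j _ => (hF i j).mul_const _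
  refine ⟨integrable_finsetSum _ fun i _ => (h1 i).const_mul _, ?_⟩
  rw [integral_finsetSum _ fun i _ => (h1 i).const_mul _]
  refine Finset.sum_congr rfl fun i _ => ?_
  rw [integral_const_mul, integral_finsetSum _ fun j _ => (hF i j).mul_const _]
  simp only [integral_mul_const]

variable [DecidableEq ι]

theorem cost_integral (M F : Ω → Matrix ι ι ℝ) (hM : ∀ i j, Integrable (fun p => M p i j) μ)
    (hF : ∀ i j, Integrable (fun p => F p i j) μ) (hs : ∀ p i j, F p i j = F p j i)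
    (hd : ∀ p, Dom (M p) (F p)) {b : ι → ℝ} (hb : ∀ i, ∫ p, F p i i ∂μ ≤ b i) :
    Cost (Matrix.of fun i j => ∫ p, M p i j ∂μ) b 1 := by
  have hdom : Dom (Matrix.of fun i j => ∫ p, M p i j ∂μ) (Matrix.of fun i j => ∫ p, F p i j ∂μ) := by
    intro u v
    obtain ⟨i1, e1⟩ := form_integral M hM u v
    obtain ⟨i2, e2⟩ := form_integral F hF u u
    obtain ⟨i3, e3⟩ := form_integral F hF v v
    rw [e1, e2, e3, ← integral_const_mul, ← integral_add i2 i3]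
    exact integral_mono (i1.const_mul 2) (i2.add i3) fun p => hd p u v
  refine Cost.of_gram (PosSemidef.of_dotProduct_mulVec_nonneg ?_ fun u => ?_) hdom hb
  · ext i j
    simp only [conjTranspose_apply, of_apply, star_trivial, hs _ j i]
  · have := hdom u 0
    simpa using this

end integral

/-- the measure on the box `[0,1] × [0,δ]` -/
noncomputable def box (δ : ℝ) : Measure (ℝ × ℝ) :=
  (volume.restrict (Set.Ioc (0 : ℝ) 1)).prod (volume.restrict (Set.Ioc 0 δ))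

theorem integrable_box (δ : ℝ) {f : ℝ × ℝ → ℝ} (hf : Continuous f) : Integrable f (box δ) := by
  rw [box, Measure.prod_restrict]
  exact (hf.continuousOn.integrableOn_compact (isCompact_Icc.prod isCompact_Icc)).mono_set
    (Set.prod_mono Set.Ioc_subset_Icc_self Set.Ioc_subset_Icc_self)

theorem integral_box {δ : ℝ} (h : 0 ≤ δ) {f : ℝ × ℝ → ℝ} (hf : Continuous f) :
    ∫ p, f p ∂(box δ) = ∫ φ in (0 : ℝ)..1, ∫ s in (0 : ℝ)..δ, f (φ, s) := by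
  simp only [intervalIntegral.integral_of_le h, intervalIntegral.integral_of_le zero_le_one]
  exact integral_prod f (integrable_box δ hf)

theorem integral_box' {δ : ℝ} (h : 0 ≤ δ) {f : ℝ × ℝ → ℝ} (hf : Continuous f) :
    ∫ p, f p ∂(box δ) = ∫ s in (0 : ℝ)..δ, ∫ φ in (0 : ℝ)..1, f (φ, s) := by
  simp only [intervalIntegral.integral_of_le h, intervalIntegral.integral_of_le zero_le_one]
  exact integral_prod_symm f (integrable_box δ hf)

end EnAux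

end Crest.Agent.R192
end

-- ▼ part PVc/R192/Energy
section

/-! Row 192: the energy two-point function at one scale. -/

set_option autoImplicit false

namespace Crest.Agent.R192

open Crest.AlgebraR.L1 MeasureTheory Matrix
open scoped ContDiff BoundedContinuousFunction

variable {G : Type} [Group G] [TopologicalSpace G] [DiscreteTopology G] {n : ℕ} {ℓ : Len G}
  (Γ : Gibbs ℓ) {δ0 δ : ℝ}

namespace EnAux

theorem mid_tr {μ μ' : G →₀ ℝ} (hμ : mass μ = 1) (hμ' : mass μ' = 1) (g : G) :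
    Γ.Φ ((1 / 2 : ℝ) • pr (xiD ℓ) (tr g μ) + (1 / 2 : ℝ) • pr (xiD ℓ) (tr g μ')) =
      Γ.Φ ((1 / 2 : ℝ) • pr (xiD ℓ) μ + (1 / 2 : ℝ) • pr (xiD ℓ) μ') := by
  have h := Γ.inv g ((1 / 2 : ℝ) • μ + (1 / 2 : ℝ) • μ') (by
    simp only [mass, pr] at hμ hμ' ⊢
    rw [map_add, map_smul, map_smul, hμ, hμ']
    norm_num)
  simpa only [tr, pr, Finsupp.mapDomain_add, Finsupp.mapDomain_smul, map_add, map_smul] using h

theorem timeInv {K : ℝ → ℝ} (hK : Step K) (c : G) (x : Fin (n + 1) → G) :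
    TimeInv fun p : (V (n + 1) × ℝ) × (V (n + 1) × ℝ) =>
      -Γ.Φ ((1 / 2 : ℝ) • fld K c x (xiD ℓ) p.1 + (1 / 2 : ℝ) • fld K c x (xiD ℓ) p.2) where
  rot1 θ φ t q := by simp only [fld, occ_rot]
  rot2 p θ φ t := by simp only [fld, occ_rot]
  per θ φ θ' φ' := by
    simp only [fld, occ_add_one hK]
    rw [mid_tr Γ (mass_occ hK c x θ φ) (mass_occ hK c x θ' φ')]

theorem fld_smooth' (h0 : 0 < δ0) (h : 0 < δ) (h1 : δ + δ0 ≤ 1) (c : G) (x : Fin (n + 1) → G) :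
    ContDiff ℝ ∞ (fld (kerK δ0 δ) c x (xiD ℓ)) :=
  fld_smooth (kerK_step h0 h h1) (kerK_smooth δ0 δ) c x _

/-- minus the Hessian of `Φ` at the midpoint -/
noncomputable def BB (δ0 δ : ℝ) (c : G) (x : Fin (n + 1) → G) (θ : V (n + 1)) (p : ℝ × ℝ) :=
  negHess Γ.Φ ((1 / 2 : ℝ) • fld (kerK δ0 δ) c x (xiD ℓ) (θ, p.1) +
    (1 / 2 : ℝ) • fld (kerK δ0 δ) c x (xiD ℓ) (θ, p.1 + p.2))

/-- variation of the field -/
noncomputable def aa (ℓ : Len G) (δ0 δ : ℝ) (c : G) (x : Fin (n + 1) → G) (θ u : V (n + 1))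
    (φ : ℝ) : G →ᵇ ℝ :=
  fderiv ℝ (fld (kerK δ0 δ) c x (xiD ℓ)) (θ, φ) (u, 0)

theorem BB_symm (c : G) (x : Fin (n + 1) → G) (θ : V (n + 1)) (p : ℝ × ℝ) (a b : G →ᵇ ℝ) :
    BB Γ δ0 δ c x θ p a b = BB Γ δ0 δ c x θ p b a :=
  congrArg Neg.neg (symm2 Γ.smooth _ a b)

theorem BB_nonneg (c : G) (x : Fin (n + 1) → G) (θ : V (n + 1)) (p : ℝ × ℝ) (a : G →ᵇ ℝ) :
    0 ≤ BB Γ δ0 δ c x θ p a a :=
  neg_nonneg.2 (Γ.hess_nonpos _ a)

theorem BB_le (c : G) (x : Fin (n + 1) → G) (θ : V (n + 1)) (p : ℝ × ℝ) (a : G →ᵇ ℝ) :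
    BB Γ δ0 δ c x θ p a a ≤ Γ.lam * ‖a‖ ^ 2 :=
  Γ.hess_le _ a

theorem BB_cont (h0 : 0 < δ0) (h : 0 < δ) (h1 : δ + δ0 ≤ 1) (c : G) (x : Fin (n + 1) → G)
    (θ : V (n + 1)) : Continuous (BB Γ δ0 δ c x θ) := by
  have h2 := (fld_smooth' (ℓ := ℓ) h0 h h1 c x).continuous
  have h3 := negHess_cont Γ.smooth
  unfold BB
  fun_prop

theorem aa_cont (h0 : 0 < δ0) (h : 0 < δ) (h1 : δ + δ0 ≤ 1) (c : G) (x : Fin (n + 1) → G)
    (θ u : V (n + 1)) : Continuous (aa ℓ δ0 δ c x θ u) := by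
  have h2 := (fld_smooth' (ℓ := ℓ) h0 h h1 c x).continuous_fderiv (by simp)
  unfold aa
  fun_prop

theorem aa_le (h0 : 0 < δ0) (h : 0 < δ) (h1 : δ + δ0 ≤ 1) (c : G) (x : Fin (n + 1) → G)
    (θ : V (n + 1)) (i : Fin (n + 1)) (φ : ℝ) :
    ‖aa ℓ δ0 δ c x θ (ev i) φ‖ ≤ slen ℓ c x i * per (deriv (kerK δ0 δ)) (φ - θ i) :=
  norm_fderiv_fld_le (kerK_step h0 h h1) (kerK_smooth δ0 δ) ℓ c x _ (norm_xiD_sub_le ℓ) θ φ i

theorem aa_le' (h0 : 0 < δ0) (h : 0 < δ) (h1 : δ + δ0 ≤ 1) (c : G) (x : Fin (n + 1) → G)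
    (θ : V (n + 1)) (i : Fin (n + 1)) (φ : ℝ) :
    ‖aa ℓ δ0 δ c x θ (ev i) φ‖ ≤ slen ℓ c x i * (1 / δ) :=
  (aa_le h0 h h1 c x θ i φ).trans
    (mul_le_mul_of_nonneg_left (per_deriv_le h0 h h1 _) (Nat.cast_nonneg _))

theorem hess_eq (h0 : 0 < δ0) (h : 0 < δ) (h1 : δ + δ0 ≤ 1) (c : G) (x : Fin (n + 1) → G)
    (θ u v : V (n + 1)) : hess (WE Γ δ0 δ c x) θ u v = ∫ p, 1 / 4 * BB Γ δ0 δ c x θ p
      (aa ℓ δ0 δ c x θ u p.1) (aa ℓ δ0 δ c x θ v (p.1 + p.2)) ∂(box δ) := by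
  have h2 := fld_smooth' (ℓ := ℓ) h0 h h1 c x
  have h3 := BB_cont Γ h0 h h1 c x θ
  have h4 := aa_cont (ℓ := ℓ) h0 h h1 c x θ u
  have h5 := aa_cont (ℓ := ℓ) h0 h h1 c x θ v
  rw [integral_box h.le (by fun_prop), WE, hess_tp (smooth_mid Γ.smooth h2)]
  simp only [d12 Γ.smooth h2]
  rfl

theorem int_per (h0 : 0 < δ0) (h : 0 < δ) (h1 : δ + δ0 ≤ 1) (t : ℝ) :
    ∫ p, per (deriv (kerK δ0 δ)) (p.1 - t) ∂(box δ) = δ := by
  have h2 := per_deriv_continuous h0 h h1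
  rw [integral_box' h.le (by fun_prop)]
  simp only [sub_eq_add_neg, integral_per_deriv h0 h h1]
  simp

theorem int_per' (h0 : 0 < δ0) (h : 0 < δ) (h1 : δ + δ0 ≤ 1) (t : ℝ) :
    ∫ p, per (deriv (kerK δ0 δ)) (p.1 + p.2 - t) ∂(box δ) = δ := by
  have h2 := per_deriv_continuous h0 h h1
  rw [integral_box' h.le (by fun_prop)]
  simp only [add_sub_assoc, integral_per_deriv h0 h h1]
  simp

end EnAux

open EnAux

theorem WE_smooth (h0 : 0 < δ0) (h : 0 < δ) (h1 : δ + δ0 ≤ 1) (c : G) (x : Fin (n + 1) → G) :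
    Smooth2 (WE Γ δ0 δ c x) := by
  exact tp_smooth (smooth_mid Γ.smooth (fld_smooth' h0 h h1 c x)) δ

theorem WE_rotInv (h0 : 0 < δ0) (h : 0 < δ) (h1 : δ + δ0 ≤ 1) (c : G) (x : Fin (n + 1) → G) :
    RotInv (WE Γ δ0 δ c x) := by
  exact tp_rotInv (timeInv Γ (kerK_step h0 h h1) c x) δ

theorem WE_conj (h0 : 0 < δ0) (h : 0 < δ) (h1 : δ + δ0 ≤ 1) (c g : G) (x : Fin (n + 1) → G) :
    WE Γ δ0 δ (g * c * g⁻¹) (fun i => g * x i) = WE Γ δ0 δ c x := by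
  have hK := kerK_step h0 h h1
  funext θ θ'
  simp only [WE, tp, fld, occ_conj hK, mid_tr Γ (mass_occ hK c x _ _) (mass_occ hK c x _ _)]

theorem WE_cyc (h0 : 0 < δ0) (h : 0 < δ) (h1 : δ + δ0 ≤ 1) (c : G) (x : Fin (n + 1) → G)
    (θ θ' : V (n + 1)) : WE Γ δ0 δ c (rotx c x) (rotθ θ) (rotθ θ') = WE Γ δ0 δ c x θ θ' := by
  simp only [WE, tp, fld, occ_cyc (kerK_step h0 h h1)]

theorem WE_face (c : G) (x : Fin (n + 2) → G) (p : Fin (n + 2)) (θ θ' : V (n + 1)) :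
    WE Γ δ0 δ c x (faceθ p θ) (faceθ p θ') = WE Γ δ0 δ c (fun i => x (p.succAbove i)) θ θ' := by
  simp only [WE, tp, fld, occ_face]

theorem WE_UU (h0 : 0 < δ0) (h : 0 < δ) (h1 : 2 * δ + δ0 ≤ 1) (c : G) (x : Fin (n + 1) → G)
    (θ : V (n + 1)) : UU (WE Γ δ0 δ c x) θ =
      avgΦ Γ (kerK δ0 (2 * δ)) c x θ - avgΦ Γ (kerK δ0 δ) c x θ := by
  have h2 : δ + δ0 ≤ 1 := by linarith
  have h3 : 0 < 2 * δ := by linarith
  have c1 := (phi_fld_smooth Γ h0 h h2 c x).continuous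
  have c2 := (phi_fld_smooth Γ h0 h3 h1 c x).continuous
  rw [WE, UU_tp (smooth_mid Γ.smooth (fld_smooth' h0 h h2 c x))
    (timeInv Γ (kerK_step h0 h h2) c x), ← avg_shift Γ (kerK_step h0 h3 h1) c x θ δ, avgΦ,
    ← intervalIntegral.integral_sub
      ((c2.comp' (f := fun φ : ℝ => (θ, φ + δ)) (by fun_prop)).intervalIntegrable 0 1)
      ((c1.comp' (f := fun φ : ℝ => (θ, φ)) (by fun_prop)).intervalIntegrable 0 1)]
  refine intervalIntegral.integral_congr fun φ _ => ?_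
  simp only [fld, pr, occ_two_mul h0 h h1, map_add, map_smul, ← add_smul]
  norm_num
  ring

theorem WE_beta_le (h0 : 0 < δ0) (h : 0 < δ) (h1 : δ + δ0 ≤ 1) (c : G) (x : Fin (n + 1) → G)
    (θ : V (n + 1)) (i : Fin (n + 1)) : |beta (WE Γ δ0 δ c x) θ (ev i)| ≤ slen ℓ c x i := by
  have h2 := fld_smooth' (ℓ := ℓ) h0 h h1 c x
  rw [WE, beta_tp (smooth_mid Γ.smooth h2), ← Real.norm_eq_abs]
  simp only [d2 Γ.smooth h2]
  refine (intervalIntegral.norm_integral_le_of_norm_le_const (C := slen ℓ c x i)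
    fun φ _ => ?_).trans_eq (by simp)
  refine (intervalIntegral.norm_integral_le_of_norm_le_const (C := slen ℓ c x i * (1 / δ))
    fun s _ => ?_).trans_eq (by rw [sub_zero, abs_of_pos h]; field_simp)
  rw [norm_neg, Real.norm_eq_abs]
  refine (Γ.grad_le _ _).trans ?_
  have h3 := aa_le' (ℓ := ℓ) h0 h h1 c x θ i (φ + s)
  rw [norm_smul, Real.norm_of_nonneg (by norm_num)]
  unfold aa at h3
  linarith [norm_nonneg (fderiv ℝ (fld (kerK δ0 δ) c x (xiD ℓ)) (θ, φ + s) (ev i, 0))]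

theorem WE_hess_le (h0 : 0 < δ0) (h : 0 < δ) (h1 : δ + δ0 ≤ 1) (c : G) (x : Fin (n + 1) → G)
    (θ : V (n + 1)) (i j : Fin (n + 1)) :
    |hess (WE Γ δ0 δ c x) θ (ev i) (ev j)| ≤ Γ.lam * slen ℓ c x i * slen ℓ c x j := by
  have h2 := per_deriv_continuous h0 h h1
  have hl := Γ.lam_pos.le
  rw [hess_eq Γ h0 h h1, ← Real.norm_eq_abs]
  refine (norm_integral_le_of_norm_le (g := fun p : ℝ × ℝ => Γ.lam * slen ℓ c x i *
    slen ℓ c x j / δ * per (deriv (kerK δ0 δ)) (p.1 - θ i)) (integrable_box δ (by fun_prop))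
    (Filter.Eventually.of_forall fun p => ?_)).trans_eq ?_
  · have h3 := abs_bilin_le (BB_symm Γ (δ0 := δ0) (δ := δ) c x θ p) (BB_nonneg Γ c x θ p) hl
      (BB_le Γ c x θ p) (aa ℓ δ0 δ c x θ (ev i) p.1) (aa ℓ δ0 δ c x θ (ev j) (p.1 + p.2))
    have h4 := mul_le_mul (mul_le_mul_of_nonneg_left (aa_le (ℓ := ℓ) h0 h h1 c x θ i p.1) hl)
      (aa_le' (ℓ := ℓ) h0 h h1 c x θ j (p.1 + p.2)) (norm_nonneg _)
      (mul_nonneg hl (mul_nonneg (Nat.cast_nonneg _) (per_nonneg _ _)))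
    rw [norm_mul, Real.norm_of_nonneg (by norm_num), Real.norm_eq_abs]
    refine (mul_le_of_le_one_left (abs_nonneg _) (by norm_num)).trans
      (h3.trans (h4.trans_eq (by ring)))
  · rw [integral_const_mul, int_per h0 h h1]
    field_simp

theorem WE_cost (h0 : 0 < δ0) (h : 0 < δ) (h1 : δ + δ0 ≤ 1) (c : G) (x : Fin (n + 1) → G)
    (θ : V (n + 1)) :
    Cost (Mb (WE Γ δ0 δ c x) θ) (fun i => Γ.lam * (slen ℓ c x i.succ : ℝ) ^ 2) 1 := by
  have h2 := per_deriv_continuous h0 h h1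
  have h3 := BB_cont Γ h0 h h1 c x θ
  have h4 := fun u => aa_cont (ℓ := ℓ) h0 h h1 c x θ u
  have hl := Γ.lam_pos.le
  have key := cost_integral (μ := box δ) (b := fun i : Fin n => Γ.lam * (slen ℓ c x i.succ : ℝ) ^ 2)
    _ _ (fun i j => integrable_box δ (by simp only [of_apply]; fun_prop))
    (fun i j => integrable_box δ (by simp only [of_apply]; fun_prop))
    (fun p i j => by simp only [of_apply, BB_symm Γ c x θ p (aa ℓ δ0 δ c x θ (ev i.succ) _)])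
    (fun p : ℝ × ℝ => dom_gram (BB_symm Γ (δ0 := δ0) (δ := δ) c x θ p) (BB_nonneg Γ c x θ p)
      (fun i : Fin n => aa ℓ δ0 δ c x θ (ev i.succ) p.1)
      (fun i : Fin n => aa ℓ δ0 δ c x θ (ev i.succ) (p.1 + p.2))) ?_
  · convert key using 1
    ext i j
    simp only [Mb, of_apply, hess_eq Γ h0 h h1]
    rw [integral_sub (integrable_box δ (by fun_prop)) (integrable_box δ (by fun_prop))]
  · intro i
    have hb : ∀ p φ, BB Γ δ0 δ c x θ p (aa ℓ δ0 δ c x θ (ev i.succ) φ)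
        (aa ℓ δ0 δ c x θ (ev i.succ) φ) ≤ Γ.lam * (slen ℓ c x i.succ : ℝ) ^ 2 / δ *
          per (deriv (kerK δ0 δ)) (φ - θ i.succ) := fun p φ => by
      refine (BB_le Γ c x θ p _).trans ?_
      have h5 := mul_le_mul (aa_le (ℓ := ℓ) h0 h h1 c x θ i.succ φ)
        (aa_le' (ℓ := ℓ) h0 h h1 c x θ i.succ φ) (norm_nonneg _)
        (mul_nonneg (Nat.cast_nonneg _) (per_nonneg _ _))
      rw [sq]
      exact (mul_le_mul_of_nonneg_left h5 hl).trans_eq (by ring)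
    simp only [of_apply]
    refine (integral_mono (g := fun p : ℝ × ℝ => Γ.lam * (slen ℓ c x i.succ : ℝ) ^ 2 / δ / 4 *
      (per (deriv (kerK δ0 δ)) (p.1 - θ i.succ) + per (deriv (kerK δ0 δ)) (p.1 + p.2 - θ i.succ)))
      (integrable_box δ (by fun_prop)) (integrable_box δ (by fun_prop)) fun p => ?_).trans ?_
    · have h5 := add_le_add (hb p p.1) (hb p (p.1 + p.2))
      dsimp only
      linarith
    · rw [integral_const_mul, integral_add (integrable_box δ (by fun_prop))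
        (integrable_box δ (by fun_prop)), int_per h0 h h1, int_per' h0 h h1]
      have h5 : 0 ≤ Γ.lam * (slen ℓ c x i.succ : ℝ) ^ 2 := by positivity
      have h6 : Γ.lam * (slen ℓ c x i.succ : ℝ) ^ 2 / δ / 4 * (δ + δ) =
          Γ.lam * (slen ℓ c x i.succ : ℝ) ^ 2 / 2 := by field_simp; ring
      linarith

end Crest.Agent.R192
end

-- ▼ part PVc/R192/YPiece1
section

/-! Row 192: the label two-point function: smoothness and symmetries. -/

set_option autoImplicit false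

namespace Crest.Agent.R192

open Crest.AlgebraR.L1 MeasureTheory Matrix
open scoped ContDiff BoundedContinuousFunction

variable {G : Type} [Group G] [TopologicalSpace G] [DiscreteTopology G] {n : ℕ} {ℓ : Len G}
  {R L0 : ℕ} {Z : ℝ} (𝓛 : Labels ℓ R L0 Z) {K : ℝ → ℝ}

/-- amplitude of the label `l` along the path -/
noncomputable def Yf (K : ℝ → ℝ) (c : G) (x : Fin (n + 1) → G) (w : 𝓛.Λ → 𝓛.S) (l : 𝓛.L)
    (p : V (n + 1) × ℝ) : ℂ :=
  𝓛.Y w l (fld K c x (bump ℓ R) p)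

/-- the integrand of `WY` -/
noncomputable def hY (K : ℝ → ℝ) (c : G) (x : Fin (n + 1) → G) (w : 𝓛.Λ → 𝓛.S)
    (p : (V (n + 1) × ℝ) × (V (n + 1) × ℝ)) : ℝ :=
  ∑ᶠ l ∈ {l | 𝓛.cls l = c},
    ((1 - 𝓛.chi l)⁻¹ * (starRingEnd ℂ) (Yf 𝓛 K c x w l p.1) * Yf 𝓛 K c x w l p.2).re

theorem WY_eq (K : ℝ → ℝ) (c : G) (x : Fin (n + 1) → G) (w : 𝓛.Λ → 𝓛.S) :
    WY 𝓛 K c x w = tp (hY 𝓛 K c x w) 1 := rfl

theorem Yf_eq (K : ℝ → ℝ) (c : G) (x : Fin (n + 1) → G) (w : 𝓛.Λ → 𝓛.S) (l : 𝓛.L)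
    (p : V (n + 1) × ℝ) : Yf 𝓛 K c x w l p = 𝓛.Y w l (feat ℓ R (occ K c x p.1 p.2)) := rfl

theorem Yf_smooth (hK : Step K) (hK' : ContDiff ℝ ∞ K) (c : G) (x : Fin (n + 1) → G)
    (w : 𝓛.Λ → 𝓛.S) (l : 𝓛.L) : ContDiff ℝ ∞ (Yf 𝓛 K c x w l) := by
  refine contDiff_iff_contDiffAt.2 fun p => ?_
  exact (𝓛.smooth w l (occ K c x p.1 p.2)).comp p (fld_smooth hK hK' c x (bump ℓ R)).contDiffAt

theorem Yf_add_one (hK : Step K) (c : G) (x : Fin (n + 1) → G) (w : 𝓛.Λ → 𝓛.S) (l : 𝓛.L)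
    (hl : 𝓛.cls l = c) (θ : V (n + 1)) (φ : ℝ) :
    Yf 𝓛 K c x w l (θ, φ + 1) = 𝓛.chi l * Yf 𝓛 K c x w l (θ, φ) := by
  rw [Yf_eq, Yf_eq]
  simp only
  rw [occ_add_one hK, ← 𝓛.quasi w l, hl]

theorem finsum_cls_eq (c : G) (F : Finset 𝓛.L) (hF : ∀ l ∈ F, 𝓛.cls l = c) (f : 𝓛.L → ℝ)
    (hf : ∀ l, 𝓛.cls l = c → l ∉ F → f l = 0) :
    ∑ᶠ l ∈ {l | 𝓛.cls l = c}, f l = ∑ l ∈ F, f l := by
  refine finsum_mem_eq_sum_of_inter_support_eq f ?_
  ext l
  simp only [Set.mem_inter_iff, Set.mem_ofPred_eq, Function.mem_support, Finset.mem_coe]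
  refine ⟨fun h => ⟨?_, h.2⟩, fun h => ⟨hF l h.1, h.2⟩⟩
  by_contra hl
  exact h.2 (hf l h.1 hl)

/-- on bounded sets only finitely many labels occur -/
theorem hY_local (hK : Step K) (c : G) (x : Fin (n + 1) → G) (r : ℝ) :
    ∃ F : Finset 𝓛.L, (∀ l ∈ F, 𝓛.cls l = c) ∧
      (∀ w l, 𝓛.cls l = c → l ∉ F → ∀ p : V (n + 1) × ℝ, ‖p‖ ≤ r → Yf 𝓛 K c x w l p = 0) ∧
      ∀ w (p q : V (n + 1) × ℝ), ‖p‖ ≤ r → hY 𝓛 K c x w (p, q) = ∑ l ∈ F,
        ((1 - 𝓛.chi l)⁻¹ * (starRingEnd ℂ) (Yf 𝓛 K c x w l p) * Yf 𝓛 K c x w l q).re := by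
  obtain ⟨X, hX⟩ := occ_support hK c x r
  obtain ⟨F, F', hF, hfin⟩ := 𝓛.fin c X
  have h1 : ∀ w l, 𝓛.cls l = c → l ∉ F → ∀ p : V (n + 1) × ℝ, ‖p‖ ≤ r →
      Yf 𝓛 K c x w l p = 0 := fun w l hl hlF p hp =>
    (hfin _ (hX p.1 p.2 ((norm_fst_le p).trans hp) ((norm_snd_le p).trans hp))).1 w l hl hlF
  refine ⟨F, hF, h1, fun w p q hp => ?_⟩
  refine finsum_cls_eq 𝓛 c F hF _ fun l hl hlF => ?_
  simp only [h1 w l hl hlF p hp, map_zero, mul_zero, zero_mul, Complex.zero_re]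

theorem hY_smooth (hK : Step K) (hK' : ContDiff ℝ ∞ K) (c : G) (x : Fin (n + 1) → G)
    (w : 𝓛.Λ → 𝓛.S) : ContDiff ℝ ∞ (hY 𝓛 K c x w) := by
  refine contDiff_iff_contDiffAt.2 fun p => ?_
  obtain ⟨F, -, -, hF⟩ := hY_local 𝓛 hK c x (‖p.1‖ + 1)
  have h1 : ContDiff ℝ ∞ fun q : (V (n + 1) × ℝ) × (V (n + 1) × ℝ) => ∑ l ∈ F,
      ((1 - 𝓛.chi l)⁻¹ * (starRingEnd ℂ) (Yf 𝓛 K c x w l q.1) * Yf 𝓛 K c x w l q.2).re := by
    refine ContDiff.sum fun l _ => ?_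
    have h2 := Yf_smooth 𝓛 hK hK' c x w l
    exact Complex.reCLM.contDiff.comp ((contDiff_const.mul
      (Complex.conjCLE.contDiff.comp (h2.comp contDiff_fst))).mul (h2.comp contDiff_snd))
  refine h1.contDiffAt.congr_of_eventuallyEq ?_
  have h3 : ∀ᶠ q : (V (n + 1) × ℝ) × (V (n + 1) × ℝ) in nhds p, ‖q.1‖ < ‖p.1‖ + 1 :=
    (continuous_fst.norm.continuousAt).eventually_lt continuousAt_const (lt_add_one _)
  filter_upwards [h3] with q hq
  exact hF w q.1 q.2 hq.le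

theorem unit_cancel {u : ℂ} (hu : ‖u‖ = 1) (a y z : ℂ) :
    a * (starRingEnd ℂ) (u * y) * (u * z) = a * (starRingEnd ℂ) y * z := by
  have h : (starRingEnd ℂ) u * u = 1 := by
    rw [Complex.conj_mul', hu]
    simp
  rw [map_mul]
  linear_combination (a * (starRingEnd ℂ) y * z) * h

theorem hY_timeInv (hK : Step K) (c : G) (x : Fin (n + 1) → G) (w : 𝓛.Λ → 𝓛.S) :
    TimeInv (hY 𝓛 K c x w) := by
  refine ⟨fun θ φ t q => ?_, fun p θ φ t => ?_, fun θ φ θ' φ' => ?_⟩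
  · simp only [hY, Yf_eq, occ_rot]
  · simp only [hY, Yf_eq, occ_rot]
  · refine finsum_mem_congr rfl fun l hl => ?_
    simp only
    rw [Yf_add_one 𝓛 hK c x w l hl, Yf_add_one 𝓛 hK c x w l hl, unit_cancel (𝓛.norm_chi l)]

theorem WY_smooth (hK : Step K) (hK' : ContDiff ℝ ∞ K) (c : G) (x : Fin (n + 1) → G)
    (w : 𝓛.Λ → 𝓛.S) : Smooth2 (WY 𝓛 K c x w) := by
  rw [WY_eq]
  exact tp_smooth (hY_smooth 𝓛 hK hK' c x w) 1

theorem WY_rotInv (hK : Step K) (c : G) (x : Fin (n + 1) → G) (w : 𝓛.Λ → 𝓛.S) :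
    RotInv (WY 𝓛 K c x w) := by
  rw [WY_eq]
  exact tp_rotInv (hY_timeInv 𝓛 hK c x w) 1

theorem hY_conj (hK : Step K) (c g : G) (x : Fin (n + 1) → G) (w : 𝓛.Λ → 𝓛.S) :
    hY 𝓛 K (g * c * g⁻¹) (fun i => g * x i) (act g w) = hY 𝓛 K c x w := by
  funext p
  symm
  refine finsum_mem_eq_of_bijOn (fun l => g • l) ⟨fun l hl => ?_, fun l _ l' _ h => ?_,
    fun l hl => ⟨g⁻¹ • l, ?_, smul_inv_smul g l⟩⟩ fun l hl => ?_
  · simp only [Set.mem_ofPred_eq] at hl ⊢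
    rw [𝓛.cls_smul, hl]
  · exact MulAction.injective g h
  · simp only [Set.mem_ofPred_eq] at hl ⊢
    rw [𝓛.cls_smul, hl]
    group
  · obtain ⟨u, hu, h⟩ := 𝓛.equiv g l
    simp only [Yf_eq, occ_conj hK, h, 𝓛.chi_smul, unit_cancel hu]

theorem WY_conj (hK : Step K) (c g : G) (x : Fin (n + 1) → G) (w : 𝓛.Λ → 𝓛.S) :
    WY 𝓛 K (g * c * g⁻¹) (fun i => g * x i) (act g w) = WY 𝓛 K c x w := by
  rw [WY_eq, WY_eq, hY_conj 𝓛 hK]

theorem WY_cyc (hK : Step K) (c : G) (x : Fin (n + 1) → G) (w : 𝓛.Λ → 𝓛.S) (θ θ' : V (n + 1)) :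
    WY 𝓛 K c (rotx c x) w (rotθ θ) (rotθ θ') = WY 𝓛 K c x w θ θ' := by
  simp only [WY_eq, tp, hY, Yf_eq, occ_cyc hK]

theorem WY_face (K : ℝ → ℝ) (c : G) (x : Fin (n + 2) → G) (w : 𝓛.Λ → 𝓛.S) (p : Fin (n + 2))
    (θ θ' : V (n + 1)) :
    WY 𝓛 K c x w (faceθ p θ) (faceθ p θ') = WY 𝓛 K c (fun i => x (p.succAbove i)) w θ θ' := by
  simp only [WY_eq, tp, hY, Yf_eq, occ_face]

theorem WY_fin (hK : Step K) (c : G) (x : Fin (n + 1) → G) :
    ∃ F : Finset 𝓛.Λ, ∀ w w', (∀ l ∈ F, w l = w' l) →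
      ∀ θ θ', ‖θ‖ < 2 → ‖θ'‖ < 2 → WY 𝓛 K c x w θ θ' = WY 𝓛 K c x w' θ θ' := by
  obtain ⟨X, hX⟩ := occ_support hK c x 2
  obtain ⟨F, F', hF, hfin⟩ := 𝓛.fin c X
  refine ⟨F', fun w w' hw θ θ' hθ hθ' => ?_⟩
  simp only [WY_eq, tp]
  refine intervalIntegral.integral_congr fun φ hφ => intervalIntegral.integral_congr fun s hs => ?_
  rw [Set.uIcc_of_le zero_le_one] at hφ hs
  have h1 := hfin _ (hX θ φ hθ.le (abs_le.2 ⟨by linarith [hφ.1], by linarith [hφ.2]⟩))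
  have h2 := hfin _ (hX θ' (φ + s) hθ'.le
    (abs_le.2 ⟨by linarith [hφ.1, hs.1], by linarith [hφ.2, hs.2]⟩))
  refine finsum_mem_congr rfl fun l hl => ?_
  simp only [Yf_eq]
  by_cases hlF : l ∈ F
  · rw [h1.2 w w' hw l hlF, h2.2 w w' hw l hlF]
  · rw [h1.1 w l hl hlF, h1.1 w' l hl hlF, h2.1 w l hl hlF, h2.1 w' l hl hlF]

theorem WY_UU (hK : Step K) (hK' : ContDiff ℝ ∞ K) {c : G} (hc : Adm ℓ L0 c)
    (x : Fin (n + 1) → G) (w : 𝓛.Λ → 𝓛.S) (θ : V (n + 1)) :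
    ∃ g : ℝ → ℝ, Continuous g ∧ UU (WY 𝓛 K c x w) θ = ∫ φ in (0 : ℝ)..1, g φ ∧
      ∀ φ, 0 ≤ g φ ∧ ∀ l, 𝓛.cls l = c → ‖Yf 𝓛 K c x w l (θ, φ)‖ ^ 2 ≤ g φ := by
  have hs := (hY_smooth 𝓛 hK hK' c x w).continuous
  refine ⟨fun φ => hY 𝓛 K c x w ((θ, φ), (θ, φ)) - hY 𝓛 K c x w ((θ, φ), (θ, φ + 1)),
    by fun_prop, ?_, fun φ => ?_⟩
  · rw [WY_eq, UU_tp (hY_smooth 𝓛 hK hK' c x w) (hY_timeInv 𝓛 hK c x w)]
  · obtain ⟨F, hF, h0, h1⟩ := hY_local 𝓛 hK c x ‖(θ, φ)‖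
    have h2 : hY 𝓛 K c x w ((θ, φ), (θ, φ)) - hY 𝓛 K c x w ((θ, φ), (θ, φ + 1)) =
        ∑ l ∈ F, ‖Yf 𝓛 K c x w l (θ, φ)‖ ^ 2 := by
      rw [h1 w _ _ le_rfl, h1 w _ _ le_rfl, ← Finset.sum_sub_distrib]
      refine Finset.sum_congr rfl fun l hl => ?_
      have h3 : 1 - 𝓛.chi l ≠ 0 := norm_pos_iff.1
        ((Real.exp_pos _).trans_le (𝓛.chi_far l (by rwa [hF l hl])))
      rw [Yf_add_one 𝓛 hK c x w l (hF l hl), ← Complex.sub_re, ← mul_sub, ← one_sub_mul,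
        mul_mul_mul_comm, inv_mul_cancel₀ h3, one_mul, Complex.conj_mul', ← Complex.ofReal_pow,
        Complex.ofReal_re]
    simp only [h2]
    refine ⟨Finset.sum_nonneg fun l _ => sq_nonneg _, fun l hl => ?_⟩
    by_cases hlF : l ∈ F
    · exact Finset.single_le_sum (f := fun l => ‖Yf 𝓛 K c x w l (θ, φ)‖ ^ 2)
        (fun l _ => sq_nonneg _) hlF
    · rw [h0 w l hl hlF _ le_rfl, norm_zero, zero_pow two_ne_zero]
      exact Finset.sum_nonneg fun l _ => sq_nonneg _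

end Crest.Agent.R192
end

-- ▼ part PVc/R192/CostY
section

/-! Row 192: cost of the antiderivative form on quasi-periodic functions with few active blocks. -/

set_option autoImplicit false

namespace Crest.Agent.R192

open Crest.AlgebraR.L1 MeasureTheory Matrix
open scoped ContDiff BoundedContinuousFunction

namespace CostY

section alg

variable {ι : Type} [Fintype ι]

/-- real linear combination of complex numbers -/
noncomputable def cz (u : ι → ℝ) (z : ι → ℂ) : ℂ := ∑ i, (u i : ℂ) * z i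

theorem cz_re (u : ι → ℝ) (z : ι → ℂ) : (cz u z).re = (fun i => (z i).re) ⬝ᵥ u := by
  simp [cz, dotProduct, mul_comm]

theorem cz_im (u : ι → ℝ) (z : ι → ℂ) : (cz u z).im = (fun i => (z i).im) ⬝ᵥ u := by
  simp [cz, dotProduct, mul_comm]

theorem form_vecMulVec (x u : ι → ℝ) : u ⬝ᵥ vecMulVec x x *ᵥ u = (x ⬝ᵥ u) ^ 2 := by
  rw [vecMulVec_mulVec, op_smul_eq_smul, dotProduct_smul, smul_eq_mul, dotProduct_comm u x, sq]

theorem psd_vecMulVec (x : ι → ℝ) : (vecMulVec x x).PosSemidef := by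
  simpa using posSemidef_vecMulVec_self_star x


variable [DecidableEq ι]

theorem add_real {Γ : Matrix ι ι ℝ} (hΓ : Γ.PosSemidef) (x : ι → ℝ) {w : ℝ} (hw : 0 ≤ w)
    (h : ∀ u, (x ⬝ᵥ u) ^ 2 ≤ u ⬝ᵥ Γ *ᵥ u) :
    ∃ Γ' : Matrix ι ι ℝ, Γ'.PosSemidef ∧ RelDet Γ' Γ (1 + w) ∧
      ∀ u, u ⬝ᵥ Γ' *ᵥ u = u ⬝ᵥ Γ *ᵥ u + w * (x ⬝ᵥ u) ^ 2 := by
  have e : ∀ u : ι → ℝ, ((Real.sqrt w • x) ⬝ᵥ u) ^ 2 = w * (x ⬝ᵥ u) ^ 2 := by
    intro u
    rw [smul_dotProduct, smul_eq_mul, mul_pow, Real.sq_sqrt hw]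
  refine ⟨Γ + vecMulVec (Real.sqrt w • x) (Real.sqrt w • x), hΓ.add (psd_vecMulVec _),
    RelDet.rank_one hΓ _ hw fun u => ?_, fun u => ?_⟩
  · rw [e]
    exact mul_le_mul_of_nonneg_left (h u) hw
  · rw [add_mulVec, dotProduct_add, form_vecMulVec, e]

theorem add_complex {Γ : Matrix ι ι ℝ} (hΓ : Γ.PosSemidef) (z : ι → ℂ) {w : ℝ} (hw : 0 ≤ w)
    (h : ∀ u, ‖cz u z‖ ^ 2 ≤ u ⬝ᵥ Γ *ᵥ u) :
    ∃ Γ' : Matrix ι ι ℝ, Γ'.PosSemidef ∧ RelDet Γ' Γ ((1 + w) ^ 2) ∧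
      ∀ u, u ⬝ᵥ Γ' *ᵥ u = u ⬝ᵥ Γ *ᵥ u + w * ‖cz u z‖ ^ 2 := by
  have e : ∀ u, ‖cz u z‖ ^ 2
      = ((fun i => (z i).re) ⬝ᵥ u) ^ 2 + ((fun i => (z i).im) ⬝ᵥ u) ^ 2 := by
    intro u
    rw [Complex.sq_norm, Complex.normSq_apply, cz_re, cz_im]
    ring
  obtain ⟨Γ1, h1, r1, f1⟩ := add_real hΓ (fun i => (z i).re) hw fun u => by
    have := h u
    rw [e] at this
    nlinarith [sq_nonneg ((fun i => (z i).im) ⬝ᵥ u)]
  obtain ⟨Γ2, h2, r2, f2⟩ := add_real h1 (fun i => (z i).im) hw fun u => by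
    have := h u
    rw [e] at this
    rw [f1]
    have h3 := mul_nonneg hw (sq_nonneg ((fun i => (z i).re) ⬝ᵥ u))
    nlinarith [sq_nonneg ((fun i => (z i).re) ⬝ᵥ u)]
  refine ⟨Γ2, h2, ?_, fun u => ?_⟩
  · rw [sq]
    exact r2.trans r1 (by linarith)
  · rw [f2, f1, e]
    ring

theorem last_le (Z : ℕ → ℂ) (T : Finset ℕ) (h0 : Z 0 = 0) (n : ℕ)
    (hT : ∀ k < n, k ∉ T → Z (k + 1) = Z k) :
    ‖Z n‖ ^ 2 ≤ ∑ k ∈ (Finset.range n).filter (· ∈ T), ‖Z (k + 1)‖ ^ 2 := by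
  induction n with
  | zero => simp [h0]
  | succ n ih =>
    have ih' := ih fun k hk => hT k (by omega)
    rw [Finset.range_add_one, Finset.filter_insert]
    split_ifs with hn
    · rw [Finset.sum_insert (by simp)]
      have : 0 ≤ ∑ k ∈ (Finset.range n).filter (· ∈ T), ‖Z (k + 1)‖ ^ 2 :=
        Finset.sum_nonneg fun _ _ => sq_nonneg _
      linarith
    · rw [hT n (by omega) hn]
      exact ih'

theorem add_label {Γ : Matrix ι ι ℝ} (hΓ : Γ.PosSemidef) (z : ℕ → ι → ℂ) (T : Finset ℕ) {w : ℝ}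
    (hw : 2 ≤ w) (h0 : ∀ u, cz u (z 0) = 0) (n : ℕ)
    (hT : ∀ k < n, k ∉ T → ∀ u, cz u (z (k + 1)) = cz u (z k))
    (hT' : ∀ k < n, ∀ u, 2 * ‖cz u (z (k + 1)) - cz u (z k)‖ ^ 2 ≤ u ⬝ᵥ Γ *ᵥ u) :
    ∃ Γ' : Matrix ι ι ℝ, Γ'.PosSemidef ∧
      RelDet Γ' Γ ((1 + w) ^ (2 * ((Finset.range n).filter (· ∈ T)).card)) ∧
      ∀ u, u ⬝ᵥ Γ' *ᵥ u = u ⬝ᵥ Γ *ᵥ u +
        w * ∑ k ∈ (Finset.range n).filter (· ∈ T), ‖cz u (z (k + 1))‖ ^ 2 := by
  induction n with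
  | zero => exact ⟨Γ, hΓ, by simpa using RelDet.refl Γ, by simp⟩
  | succ n ih =>
    obtain ⟨Γ1, h1, r1, f1⟩ := ih (fun k hk => hT k (by omega)) (fun k hk => hT' k (by omega))
    rw [Finset.range_add_one, Finset.filter_insert]
    split_ifs with hn
    · obtain ⟨Γ2, h2, r2, f2⟩ := add_complex h1 (z (n + 1)) (by linarith : 0 ≤ w) fun u => by
        have a1 := last_le (fun k => cz u (z k)) T (h0 u) n fun k hk hk' => hT k (by omega) hk' u
        have a2 := hT' n (by omega) u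
        have a3 : ‖cz u (z (n + 1))‖ ≤ ‖cz u (z n)‖ + ‖cz u (z (n + 1)) - cz u (z n)‖ := by
          have := norm_add_le (cz u (z n)) (cz u (z (n + 1)) - cz u (z n))
          rwa [add_sub_cancel] at this
        have a4 := pow_le_pow_left₀ (norm_nonneg _) a3 2
        have a5 : 0 ≤ ∑ k ∈ (Finset.range n).filter (· ∈ T), ‖cz u (z (k + 1))‖ ^ 2 :=
          Finset.sum_nonneg fun _ _ => sq_nonneg _
        rw [f1]
        nlinarith [sq_nonneg (‖cz u (z n)‖ - ‖cz u (z (n + 1)) - cz u (z n)‖)]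
      refine ⟨Γ2, h2, ?_, fun u => ?_⟩
      · rw [Finset.card_insert_of_notMem (by simp), mul_add, mul_one, pow_add, mul_comm]
        exact r2.trans r1 (by positivity)
      · rw [Finset.sum_insert (by simp), f2, f1]
        ring
    · exact ⟨Γ1, h1, r1, f1⟩

theorem add_labels {L : Type} (s : Finset L) {Γ : Matrix ι ι ℝ} (hΓ : Γ.PosSemidef)
    (z : L → ℕ → ι → ℂ) (T : L → Finset ℕ) {w : ℝ}
    (hw : 2 ≤ w) (h0 : ∀ l ∈ s, ∀ u, cz u (z l 0) = 0) (n : ℕ)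
    (hT : ∀ l ∈ s, ∀ k < n, k ∉ T l → ∀ u, cz u (z l (k + 1)) = cz u (z l k))
    (hT' : ∀ l ∈ s, ∀ k < n, ∀ u, 2 * ‖cz u (z l (k + 1)) - cz u (z l k)‖ ^ 2 ≤ u ⬝ᵥ Γ *ᵥ u) :
    ∃ Γ' : Matrix ι ι ℝ, Γ'.PosSemidef ∧
      RelDet Γ' Γ ((1 + w) ^ (2 * ∑ l ∈ s, ((Finset.range n).filter (· ∈ T l)).card)) ∧
      ∀ u, u ⬝ᵥ Γ' *ᵥ u = u ⬝ᵥ Γ *ᵥ u +
        w * ∑ l ∈ s, ∑ k ∈ (Finset.range n).filter (· ∈ T l), ‖cz u (z l (k + 1))‖ ^ 2 := by
  classical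
  induction s using Finset.induction_on with
  | empty => exact ⟨Γ, hΓ, by simpa using RelDet.refl Γ, by simp⟩
  | insert a s ha ih =>
    obtain ⟨Γ1, h1, r1, f1⟩ := ih (fun l hl => h0 l (Finset.mem_insert_of_mem hl))
      (fun l hl => hT l (Finset.mem_insert_of_mem hl))
      (fun l hl => hT' l (Finset.mem_insert_of_mem hl))
    have ham := Finset.mem_insert_self a s
    obtain ⟨Γ2, h2, r2, f2⟩ := add_label h1 (z a) (T a) hw (h0 a ham) n (hT a ham)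
      fun k hk u => by
        have a1 := hT' a ham k hk u
        have a5 : 0 ≤ ∑ l ∈ s, ∑ k ∈ (Finset.range n).filter (· ∈ T l),
            ‖cz u (z l (k + 1))‖ ^ 2 :=
          Finset.sum_nonneg fun _ _ => Finset.sum_nonneg fun _ _ => sq_nonneg _
        rw [f1]
        nlinarith
    refine ⟨Γ2, h2, ?_, fun u => ?_⟩
    · rw [Finset.sum_insert ha, mul_add, pow_add]
      exact r2.trans r1 (by positivity)
    · rw [Finset.sum_insert ha, f2, f1]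
      ring

end alg

section ana

/-- the primitive -/
noncomputable def P (f : ℝ → ℂ) (x : ℝ) : ℂ := ∫ t in (0 : ℝ)..x, f t

/-- the real inner product on `[α, β]` -/
noncomputable def G (α β : ℝ) (f g : ℝ → ℂ) : ℝ :=
  ∫ φ in α..β, ((starRingEnd ℂ) (f φ) * g φ).re

/-- the squared norm on `[α, β]` -/
noncomputable def n2 (α β : ℝ) (f : ℝ → ℂ) : ℝ := ∫ φ in α..β, ‖f φ‖ ^ 2

theorem continuous_P {f : ℝ → ℂ} (hf : Continuous f) : Continuous (P f) :=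
  intervalIntegral.continuous_primitive (fun a b => hf.intervalIntegrable a b) 0

theorem P_sub {f : ℝ → ℂ} (hf : Continuous f) (x y : ℝ) : P f y - P f x = ∫ t in x..y, f t :=
  intervalIntegral.integral_interval_sub_left (hf.intervalIntegrable _ _)
    (hf.intervalIntegrable _ _)

theorem G_self (α β : ℝ) (f : ℝ → ℂ) : G α β f f = n2 α β f := by
  unfold G n2
  congr 1
  funext φ
  rw [Complex.conj_mul', ← Complex.ofReal_pow, Complex.ofReal_re]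

theorem n2_nonneg {α β : ℝ} (h : α ≤ β) (f : ℝ → ℂ) : 0 ≤ n2 α β f :=
  intervalIntegral.integral_nonneg h fun _ _ => sq_nonneg _

theorem cs {α β : ℝ} (h : α < β) {f : ℝ → ℂ} (hf : Continuous f) :
    (∫ t in α..β, ‖f t‖) ^ 2 ≤ (β - α) * n2 α β f := by
  set I := ∫ t in α..β, ‖f t‖ with hI
  have hd : 0 < β - α := by linarith
  set m := I / (β - α) with hm
  have h1 : 0 ≤ ∫ t in α..β, (‖f t‖ - m) ^ 2 :=
    intervalIntegral.integral_nonneg h.le fun _ _ => sq_nonneg _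
  have e : ∀ t, (‖f t‖ - m) ^ 2 = ‖f t‖ ^ 2 - 2 * m * ‖f t‖ + m ^ 2 := fun t => by ring
  simp only [e] at h1
  have c1 : Continuous fun t => ‖f t‖ ^ 2 := by fun_prop
  have c2 : Continuous fun t => 2 * m * ‖f t‖ := by fun_prop
  have c3 : Continuous fun t => ‖f t‖ ^ 2 - 2 * m * ‖f t‖ := c1.sub c2
  rw [intervalIntegral.integral_add (c3.intervalIntegrable _ _)
    (continuous_const.intervalIntegrable _ _),
    intervalIntegral.integral_sub (c1.intervalIntegrable _ _) (c2.intervalIntegrable _ _),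
    intervalIntegral.integral_const_mul, intervalIntegral.integral_const, smul_eq_mul, ← hI] at h1
  have h2 : I = m * (β - α) := by rw [hm]; field_simp
  unfold n2
  rw [h2] at h1 ⊢
  nlinarith

theorem norm_int_sq_le {α β x y : ℝ} (h : α < β) (hx : α ≤ x) (hxy : x ≤ y) (hy : y ≤ β)
    {f : ℝ → ℂ} (hf : Continuous f) : ‖P f y - P f x‖ ^ 2 ≤ (β - α) * n2 α β f := by
  rw [P_sub hf]
  refine le_trans (pow_le_pow_left₀ (norm_nonneg _) ?_ 2) (cs h hf)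
  refine (intervalIntegral.norm_integral_le_integral_norm hxy).trans ?_
  exact intervalIntegral.integral_mono_interval hx hxy hy
    (Filter.Eventually.of_forall fun _ => norm_nonneg _) (hf.norm.intervalIntegrable _ _)

theorem block {α β : ℝ} (h : α < β) {f g : ℝ → ℂ} (hf : Continuous f) (hg : Continuous g) :
    2 * |G α β f (P g)| ≤ (β - α) * n2 α β f + 2 * ‖P g β‖ ^ 2 + 2 * ((β - α) * n2 α β g) := by
  have hd : 0 < β - α := by linarith
  set K := 2 * ‖P g β‖ ^ 2 + 2 * ((β - α) * n2 α β g) with hK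
  have hP := continuous_P hg
  have c0 : Continuous fun φ => ((starRingEnd ℂ) (f φ) * P g φ).re := by fun_prop
  have c1 : Continuous fun φ => (β - α) / 2 * ‖f φ‖ ^ 2 := by fun_prop
  have h1 : |G α β f (P g)| ≤ ∫ φ in α..β, ((β - α) / 2 * ‖f φ‖ ^ 2 + K / (2 * (β - α))) := by
    unfold G
    refine (intervalIntegral.abs_integral_le_integral_abs h.le).trans ?_
    refine intervalIntegral.integral_mono_on h.le (c0.abs.intervalIntegrable _ _)
      ((c1.add continuous_const).intervalIntegrable _ _) fun φ hφ => ?_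
    have a1 := norm_int_sq_le h hφ.1 hφ.2 le_rfl hg
    have a2 : ‖P g φ‖ ≤ ‖P g β‖ + ‖P g β - P g φ‖ := by
      have := norm_sub_le (P g β) (P g β - P g φ)
      rwa [sub_sub_cancel] at this
    have a3 := pow_le_pow_left₀ (norm_nonneg _) a2 2
    have a4 : ‖P g φ‖ ^ 2 ≤ K := by
      rw [hK]
      nlinarith [sq_nonneg (‖P g β‖ - ‖P g β - P g φ‖)]
    have a5 : |((starRingEnd ℂ) (f φ) * P g φ).re| ≤ ‖f φ‖ * ‖P g φ‖ := by
      refine (Complex.abs_re_le_norm _).trans (le_of_eq ?_)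
      rw [norm_mul, Complex.norm_conj]
    refine a5.trans ?_
    have a6 : ‖P g φ‖ ^ 2 / (2 * (β - α)) ≤ K / (2 * (β - α)) :=
      div_le_div_of_nonneg_right a4 (by linarith)
    have a7 : ‖f φ‖ * ‖P g φ‖ ≤ (β - α) / 2 * ‖f φ‖ ^ 2 + ‖P g φ‖ ^ 2 / (2 * (β - α)) := by
      have : (β - α) / 2 * ‖f φ‖ ^ 2 + ‖P g φ‖ ^ 2 / (2 * (β - α)) - ‖f φ‖ * ‖P g φ‖
          = ((β - α) * ‖f φ‖ - ‖P g φ‖) ^ 2 / (2 * (β - α)) := by
        field_simp
        ring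
      have h2 : 0 ≤ ((β - α) * ‖f φ‖ - ‖P g φ‖) ^ 2 / (2 * (β - α)) := by positivity
      linarith
    linarith
  rw [intervalIntegral.integral_add (c1.intervalIntegrable _ _)
    (continuous_const.intervalIntegrable _ _), intervalIntegral.integral_const_mul,
    intervalIntegral.integral_const, smul_eq_mul] at h1
  have e : (β - α) * (K / (2 * (β - α))) = K / 2 := by field_simp
  rw [e] at h1
  unfold n2 at hK ⊢
  linarith

theorem sum_blocks {B : ℕ} (hB : 0 < B) {F : ℝ → ℝ} (hF : Continuous F) :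
    ∑ k ∈ Finset.range B, ∫ φ in ((k : ℝ) / B)..(((k + 1 : ℕ) : ℝ) / B), F φ
      = ∫ φ in (0 : ℝ)..1, F φ := by
  have hB' : (B : ℝ) ≠ 0 := by positivity
  have := intervalIntegral.sum_integral_adjacent_intervals (f := F) (μ := volume)
    (a := fun k : ℕ => (k : ℝ) / B) (n := B) fun k _ => hF.intervalIntegrable _ _
  simpa [hB'] using this

theorem label {B : ℕ} (hB : 0 < B) {f g : ℝ → ℂ} (hf : Continuous f) (hg : Continuous g)
    (T : Finset ℕ)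
    (hT : ∀ k < B, k ∉ T → ∀ φ ∈ Set.Icc ((k : ℝ) / B) (((k + 1 : ℕ) : ℝ) / B), f φ = 0) :
    2 * |G 0 1 f (P g)| ≤ 1 / B * n2 0 1 f + 2 / B * n2 0 1 g +
      2 * ∑ k ∈ (Finset.range B).filter (· ∈ T), ‖P g (((k + 1 : ℕ) : ℝ) / B)‖ ^ 2 := by
  have hB' : (0 : ℝ) < B := by positivity
  have hP := continuous_P hg
  have c0 : Continuous fun φ => ((starRingEnd ℂ) (f φ) * P g φ).re := by fun_prop
  have c1 : Continuous fun φ => ‖f φ‖ ^ 2 := by fun_prop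
  have c2 : Continuous fun φ => ‖g φ‖ ^ 2 := by fun_prop
  have e0 : G 0 1 f (P g) = ∑ k ∈ Finset.range B, G ((k : ℝ) / B) (((k + 1 : ℕ) : ℝ) / B) f (P g) :=
    (sum_blocks hB c0).symm
  have e1 : n2 0 1 f = ∑ k ∈ Finset.range B, n2 ((k : ℝ) / B) (((k + 1 : ℕ) : ℝ) / B) f :=
    (sum_blocks hB c1).symm
  have e2 : n2 0 1 g = ∑ k ∈ Finset.range B, n2 ((k : ℝ) / B) (((k + 1 : ℕ) : ℝ) / B) g :=
    (sum_blocks hB c2).symm
  rw [e0, e1, e2, Finset.sum_filter, Finset.mul_sum, Finset.mul_sum, Finset.mul_sum,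
    ← Finset.sum_add_distrib, ← Finset.sum_add_distrib]
  refine (mul_le_mul_of_nonneg_left (Finset.abs_sum_le_sum_abs _ _) zero_le_two).trans ?_
  rw [Finset.mul_sum]
  refine Finset.sum_le_sum fun k hk => ?_
  have hd : ((k + 1 : ℕ) : ℝ) / B - (k : ℝ) / B = 1 / B := by push_cast; ring
  have hd' : (0 : ℝ) < 1 / B := by positivity
  have hlt : (k : ℝ) / B < ((k + 1 : ℕ) : ℝ) / B := by linarith
  split_ifs with hkT
  · have := block hlt hf hg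
    rw [hd] at this
    have e3 : (2 : ℝ) / B = 2 * (1 / B) := by ring
    rw [e3]
    linarith
  · have : G ((k : ℝ) / B) (((k + 1 : ℕ) : ℝ) / B) f (P g) = 0 := by
      unfold G
      rw [intervalIntegral.integral_congr (g := fun _ => 0), intervalIntegral.integral_zero]
      intro φ hφ
      rw [Set.uIcc_of_le hlt.le] at hφ
      simp [hT k (Finset.mem_range.1 hk) hkT φ hφ]
    rw [this]
    have a1 := n2_nonneg hlt.le f
    have a2 := n2_nonneg hlt.le g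
    simp only [abs_zero, mul_zero, add_zero]
    positivity

theorem shift {g : ℝ → ℂ} (hg : Continuous g) {χ : ℂ} (hq : ∀ φ, g (φ + 1) = χ * g φ) (φ : ℝ) :
    ∫ t in (0 : ℝ)..1, g (φ + t) = P g 1 - (1 - χ) * P g φ := by
  rw [intervalIntegral.integral_comp_add_left, add_zero, ← P_sub hg]
  have h1 : P g (φ + 1) - P g 1 = χ * P g φ := by
    rw [P_sub hg]
    have := intervalIntegral.integral_comp_add_right (a := 0) (b := φ) g 1
    rw [zero_add] at this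
    rw [← this]
    simp only [hq]
    rw [intervalIntegral.integral_const_mul]
    rfl
  linear_combination h1

variable {ι : Type} [Fintype ι]

/-- linear combination of functions -/
noncomputable def cmb (u : ι → ℝ) (f : ι → ℝ → ℂ) (φ : ℝ) : ℂ := cz u fun i => f i φ

theorem continuous_cmb (u : ι → ℝ) {f : ι → ℝ → ℂ} (hf : ∀ i, Continuous (f i)) :
    Continuous (cmb u f) := by
  unfold cmb cz
  fun_prop

theorem P_cmb (u : ι → ℝ) {f : ι → ℝ → ℂ} (hf : ∀ i, Continuous (f i)) :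
    P (cmb u f) = cmb u fun i => P (f i) := by
  funext x
  unfold P cmb cz
  have c0 : ∀ i, Continuous fun t => (u i : ℂ) * f i t := fun i => continuous_const.mul (hf i)
  rw [intervalIntegral.integral_finsetSum fun i _ => (c0 i).intervalIntegrable _ _]
  simp only [intervalIntegral.integral_const_mul]

theorem re_bilin (c : ℂ) (u v : ι → ℝ) (x y : ι → ℂ) :
    ∑ i, u i * ∑ j, (c * (starRingEnd ℂ) (x i) * y j).re * v j
      = (c * (starRingEnd ℂ) (cz u x) * cz v y).re := by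
  unfold cz
  rw [map_sum, Finset.mul_sum _ _ c, Finset.sum_mul_sum, Complex.re_sum]
  refine Finset.sum_congr rfl fun i _ => ?_
  rw [Complex.re_sum, Finset.mul_sum]
  refine Finset.sum_congr rfl fun j _ => ?_
  rw [show c * (starRingEnd ℂ) ((u i : ℂ) * x i) * ((v j : ℂ) * y j)
    = ((u i * v j : ℝ) : ℂ) * (c * (starRingEnd ℂ) (x i) * y j) by
      rw [map_mul, Complex.conj_ofReal]; push_cast; ring, Complex.re_ofReal_mul]
  ring

theorem G_bilin (α β : ℝ) (u v : ι → ℝ) {f g : ι → ℝ → ℂ} (hf : ∀ i, Continuous (f i))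
    (hg : ∀ i, Continuous (g i)) :
    ∑ i, u i * ∑ j, G α β (f i) (g j) * v j = G α β (cmb u f) (cmb v g) := by
  unfold G
  have e : ∀ φ, ((starRingEnd ℂ) (cmb u f φ) * cmb v g φ).re
      = ∑ i, u i * ∑ j, ((starRingEnd ℂ) (f i φ) * g j φ).re * v j := by
    intro φ
    have := re_bilin 1 u v (fun i => f i φ) fun i => g i φ
    simp only [one_mul] at this
    exact this.symm
  simp only [e]
  have c0 : ∀ i j, Continuous fun φ => ((starRingEnd ℂ) (f i φ) * g j φ).re * v j := by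
    intro i j
    have := hf i
    have := hg j
    fun_prop
  have c1 : ∀ i, Continuous fun φ => u i * ∑ j, ((starRingEnd ℂ) (f i φ) * g j φ).re * v j :=
    fun i => continuous_const.mul (continuous_finsetSum _ fun j _ => c0 i j)
  rw [intervalIntegral.integral_finsetSum fun i _ => (c1 i).intervalIntegrable _ _]
  refine Finset.sum_congr rfl fun i _ => ?_
  rw [intervalIntegral.integral_const_mul,
    intervalIntegral.integral_finsetSum fun j _ => (c0 i j).intervalIntegrable _ _]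
  simp only [intervalIntegral.integral_mul_const]

theorem entry {L : Type} (s : Finset L) (f g : L → ℝ → ℂ) (hf : ∀ l ∈ s, Continuous (f l))
    (hg : ∀ l ∈ s, Continuous (g l)) (χ : L → ℂ) (hne : ∀ l ∈ s, χ l ≠ 1)
    (hq : ∀ l ∈ s, ∀ φ, g l (φ + 1) = χ l * g l φ) :
    ∫ φ in (0 : ℝ)..1, ∫ t in (0 : ℝ)..1,
      ∑ l ∈ s, ((1 - χ l)⁻¹ * (starRingEnd ℂ) (f l φ) * g l (φ + t)).re
      = ∑ l ∈ s, (((1 - χ l)⁻¹ * (starRingEnd ℂ) (P (f l) 1) * P (g l) 1).re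
          - G 0 1 (f l) (P (g l))) := by
  have e : ∀ φ, ∫ t in (0 : ℝ)..1,
      ∑ l ∈ s, ((1 - χ l)⁻¹ * (starRingEnd ℂ) (f l φ) * g l (φ + t)).re
      = ∑ l ∈ s, (((1 - χ l)⁻¹ * (starRingEnd ℂ) (f l φ) * P (g l) 1).re
          - ((starRingEnd ℂ) (f l φ) * P (g l) φ).re) := by
    intro φ
    have c0 : ∀ l ∈ s, Continuous fun t =>
        (1 - χ l)⁻¹ * (starRingEnd ℂ) (f l φ) * g l (φ + t) := by
      intro l hl
      have := hg l hl
      fun_prop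
    have c0' : ∀ l ∈ s, Continuous fun t =>
        ((1 - χ l)⁻¹ * (starRingEnd ℂ) (f l φ) * g l (φ + t)).re :=
      fun l hl => Complex.continuous_re.comp (c0 l hl)
    rw [intervalIntegral.integral_finsetSum fun l hl => (c0' l hl).intervalIntegrable _ _]
    refine Finset.sum_congr rfl fun l hl => ?_
    have h1 := intervalIntegral.intervalIntegral_re ((c0 l hl).intervalIntegrable (μ := volume) 0 1)
    simp only [RCLike.re_to_complex] at h1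
    rw [h1, intervalIntegral.integral_const_mul, shift (hg l hl) (hq l hl), ← Complex.sub_re]
    congr 1
    have : 1 - χ l ≠ 0 := sub_ne_zero.2 (hne l hl).symm
    field_simp
  simp only [e]
  have c1 : ∀ l ∈ s, Continuous fun φ => (1 - χ l)⁻¹ * (starRingEnd ℂ) (f l φ) * P (g l) 1 := by
    intro l hl
    have := hf l hl
    fun_prop
  have c2 : ∀ l ∈ s, Continuous fun φ => ((starRingEnd ℂ) (f l φ) * P (g l) φ).re := by
    intro l hl
    have := hf l hl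
    have := continuous_P (hg l hl)
    fun_prop
  have c1' : ∀ l ∈ s, Continuous fun φ =>
      ((1 - χ l)⁻¹ * (starRingEnd ℂ) (f l φ) * P (g l) 1).re :=
    fun l hl => Complex.continuous_re.comp (c1 l hl)
  have c3 : ∀ l ∈ s, Continuous fun φ => ((1 - χ l)⁻¹ * (starRingEnd ℂ) (f l φ) * P (g l) 1).re
      - ((starRingEnd ℂ) (f l φ) * P (g l) φ).re := fun l hl => (c1' l hl).sub (c2 l hl)
  rw [intervalIntegral.integral_finsetSum fun l hl => (c3 l hl).intervalIntegrable _ _]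
  refine Finset.sum_congr rfl fun l hl => ?_
  rw [intervalIntegral.integral_sub
    ((c1' l hl).intervalIntegrable _ _) ((c2 l hl).intervalIntegrable _ _)]
  have h1 := intervalIntegral.intervalIntegral_re ((c1 l hl).intervalIntegrable (μ := volume) 0 1)
  simp only [RCLike.re_to_complex] at h1
  congr 1
  rw [h1, intervalIntegral.integral_mul_const, intervalIntegral.integral_const_mul,
    intervalIntegral.intervalIntegral_conj]
  rfl

theorem form_sum {L : Type} (s : Finset L) (M : L → ι → ι → ℝ) (N : Matrix ι ι ℝ)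
    (hN : ∀ i j, N i j = ∑ l ∈ s, M l i j) (u v : ι → ℝ) :
    u ⬝ᵥ N *ᵥ v = ∑ l ∈ s, ∑ i, u i * ∑ j, M l i j * v j := by
  simp only [dotProduct, mulVec, hN, Finset.sum_mul]
  rw [Finset.sum_comm (s := s)]
  refine Finset.sum_congr rfl fun i _ => ?_
  rw [Finset.sum_comm, Finset.mul_sum]

end ana

end CostY

open CostY in
theorem cost_prefix {ι L : Type} [Fintype ι] [DecidableEq ι] (s : Finset L)
    (U : L → ι → ℝ → ℂ) (hU : ∀ l ∈ s, ∀ i, Continuous (U l i)) (χ : L → ℂ) (a : ℝ) (ha0 : 0 ≤ a)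
    (hne : ∀ l ∈ s, χ l ≠ 1) (ha : ∀ l ∈ s, ‖(1 - χ l)⁻¹‖ ≤ a)
    (hq : ∀ l ∈ s, ∀ i φ, U l i (φ + 1) = χ l * U l i φ)
    (B : ℕ) (hB : 0 < B) (A : L → Finset (Fin B))
    (hA : ∀ l ∈ s, ∀ b, b ∉ A l → ∀ φ ∈ Set.Icc (((b : ℕ) : ℝ) / B) ((((b : ℕ) : ℝ) + 1) / B),
      ∀ i, U l i φ = 0)
    (m : ℕ) (hm : ∑ l ∈ s, (A l).card ≤ m) (N : Matrix ι ι ℝ)
    (hN : ∀ i j, N i j = ∫ φ in (0 : ℝ)..1, ∫ t in (0 : ℝ)..1,
      ∑ l ∈ s, ((1 - χ l)⁻¹ * (starRingEnd ℂ) (U l i φ) * U l j (φ + t)).re) :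
    Cost (N - Nᵀ) (fun i => 3 / B * ∑ l ∈ s, ∫ φ in (0 : ℝ)..1, ‖U l i φ‖ ^ 2)
      ((10 * (1 + a)) ^ (4 * m)) := by
  have hB' : (0 : ℝ) < B := by positivity
  -- the Gram matrix
  let Γ0 : Matrix ι ι ℝ := Matrix.of fun i j => ∑ l ∈ s, 3 / B * G 0 1 (U l i) (U l j)
  have hΓ0f : ∀ u, u ⬝ᵥ Γ0 *ᵥ u = 3 / B * ∑ l ∈ s, n2 0 1 (cmb u (U l)) := by
    intro u
    rw [form_sum s (fun l i j => 3 / B * G 0 1 (U l i) (U l j)) Γ0 (fun _ _ => rfl),
      Finset.mul_sum]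
    refine Finset.sum_congr rfl fun l hl => ?_
    rw [← G_self, ← G_bilin 0 1 u u (hU l hl) (hU l hl), Finset.mul_sum]
    refine Finset.sum_congr rfl fun i _ => ?_
    rw [mul_left_comm, Finset.mul_sum _ _ ((3 : ℝ) / B)]
    simp only [mul_assoc]
  have hn : ∀ l u, 0 ≤ n2 0 1 (cmb u (U l)) := fun l u => n2_nonneg zero_le_one _
  have hΓ0 : Γ0.PosSemidef := by
    refine PosSemidef.of_dotProduct_mulVec_nonneg ?_ fun u => ?_
    · ext i j
      simp only [conjTranspose_apply, star_trivial, Γ0, Matrix.of_apply]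
      refine Finset.sum_congr rfl fun l _ => ?_
      congr 1
      unfold G
      congr 1
      funext φ
      simp only [Complex.mul_re, Complex.conj_re, Complex.conj_im]
      ring
    · rw [star_trivial, hΓ0f]
      exact mul_nonneg (by positivity) (Finset.sum_nonneg fun l _ => hn l u)
  -- the active blocks
  let T : L → Finset ℕ := fun l => (A l).map Fin.valEmbedding
  have hTc : ∀ l, ((Finset.range B).filter (· ∈ T l)).card ≤ (A l).card := by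
    intro l
    rw [← Finset.card_map Fin.valEmbedding]
    exact Finset.card_le_card fun k hk => (Finset.mem_filter.1 hk).2
  have hz : ∀ l ∈ s, ∀ u, ∀ k < B, k ∉ T l →
      ∀ φ ∈ Set.Icc ((k : ℝ) / B) (((k + 1 : ℕ) : ℝ) / B), cmb u (U l) φ = 0 := by
    intro l hl u k hk hkT φ hφ
    have h1 : (⟨k, hk⟩ : Fin B) ∉ A l := fun h => hkT (Finset.mem_map.2 ⟨_, h, rfl⟩)
    have h2 := hA l hl _ h1 φ (by simpa using hφ)
    simp [cmb, cz, h2]
  let z : L → ℕ → ι → ℂ := fun l k i => P (U l i) ((k : ℝ) / B)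
  have hzP : ∀ l ∈ s, ∀ k u, cz u (z l k) = P (cmb u (U l)) ((k : ℝ) / B) := by
    intro l hl k u
    rw [P_cmb u (hU l hl)]
    rfl
  have hlt : ∀ k : ℕ, (k : ℝ) / B < ((k + 1 : ℕ) : ℝ) / B := fun k =>
    div_lt_div_of_pos_right (by push_cast; linarith) hB'
  have h0 : ∀ l ∈ s, ∀ u, cz u (z l 0) = 0 := by
    intro l hl u
    rw [hzP l hl]
    simp [P]
  have hT : ∀ l ∈ s, ∀ k < B, k ∉ T l → ∀ u, cz u (z l (k + 1)) = cz u (z l k) := by
    intro l hl k hk hkT u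
    rw [hzP l hl, hzP l hl, ← sub_eq_zero, P_sub (continuous_cmb u (hU l hl)),
      intervalIntegral.integral_congr (g := fun _ => 0), intervalIntegral.integral_zero]
    intro φ hφ
    rw [Set.uIcc_of_le (hlt k).le] at hφ
    exact hz l hl u k hk hkT φ hφ
  have hT' : ∀ l ∈ s, ∀ k < B, ∀ u,
      2 * ‖cz u (z l (k + 1)) - cz u (z l k)‖ ^ 2 ≤ u ⬝ᵥ Γ0 *ᵥ u := by
    intro l hl k hk u
    have hc := continuous_cmb u (hU l hl)
    rw [hzP l hl, hzP l hl, hΓ0f]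
    have a1 := norm_int_sq_le (hlt k) le_rfl (hlt k).le le_rfl hc
    have hd : ((k + 1 : ℕ) : ℝ) / B - (k : ℝ) / B = 1 / B := by push_cast; ring
    rw [hd] at a1
    have a2 : n2 ((k : ℝ) / B) (((k + 1 : ℕ) : ℝ) / B) (cmb u (U l)) ≤ n2 0 1 (cmb u (U l)) := by
      refine intervalIntegral.integral_mono_interval (by positivity) (hlt k).le ?_
        (Filter.Eventually.of_forall fun _ => sq_nonneg _)
        ((hc.norm.pow 2).intervalIntegrable _ _)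
      rw [div_le_one hB']
      exact_mod_cast hk
    have a3 : n2 0 1 (cmb u (U l)) ≤ ∑ l ∈ s, n2 0 1 (cmb u (U l)) :=
      Finset.single_le_sum (f := fun l => n2 0 1 (cmb u (U l))) (fun l _ => hn l u) hl
    have a4 : (0 : ℝ) < 1 / B := by positivity
    have a5 := hn l u
    have e3 : (3 : ℝ) / B = 3 * (1 / B) := by ring
    rw [e3]
    nlinarith
  obtain ⟨Γ, hΓ, hr, hf⟩ := add_labels s hΓ0 z T (w := 2 * (1 + a)) (by linarith) h0 B hT hT'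
  refine Cost.mono (b := fun i => 3 / B * ∑ l ∈ s, ∫ φ in (0 : ℝ)..1, ‖U l i φ‖ ^ 2)
    ⟨Γ0, Γ, hΓ0, hΓ, fun i => le_of_eq ?_, fun u v => ?_, hr⟩ (fun _ => le_rfl) ?_
  · simp only [Γ0, Matrix.of_apply, G_self]
    rw [Finset.mul_sum]
    rfl
  · have hN' : ∀ u v : ι → ℝ, u ⬝ᵥ N *ᵥ v = ∑ l ∈ s,
        (((1 - χ l)⁻¹ * (starRingEnd ℂ) (P (cmb u (U l)) 1) * P (cmb v (U l)) 1).re
          - G 0 1 (cmb u (U l)) (P (cmb v (U l)))) := by
      intro u v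
      rw [form_sum s (fun l i j =>
        ((1 - χ l)⁻¹ * (starRingEnd ℂ) (P (U l i) 1) * P (U l j) 1).re
          - G 0 1 (U l i) (P (U l j))) N (fun i j => by
          rw [hN, entry s (fun l => U l i) (fun l => U l j) (fun l hl => hU l hl i)
            (fun l hl => hU l hl j) χ hne fun l hl => hq l hl j])]
      refine Finset.sum_congr rfl fun l hl => ?_
      simp only [sub_mul, Finset.sum_sub_distrib, mul_sub]
      rw [re_bilin, G_bilin 0 1 u v (hU l hl) fun j => continuous_P (hU l hl j),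
        P_cmb u (hU l hl), P_cmb v (hU l hl)]
      rfl
    have e1 : u ⬝ᵥ (N - Nᵀ) *ᵥ v = u ⬝ᵥ N *ᵥ v - v ⬝ᵥ N *ᵥ u := by
      rw [sub_mulVec, dotProduct_sub, mulVec_transpose, dotProduct_comm u (v ᵥ* N),
        ← dotProduct_mulVec]
    rw [e1, hN', hN', hf, hf, hΓ0f, hΓ0f, ← Finset.sum_sub_distrib]
    simp only [Finset.mul_sum s]
    rw [← Finset.sum_add_distrib, ← Finset.sum_add_distrib, ← Finset.sum_add_distrib]
    refine Finset.sum_le_sum fun l hl => ?_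
    have hcu := continuous_cmb u (hU l hl)
    have hcv := continuous_cmb v (hU l hl)
    have b1 := label hB hcu hcv (T l) (hz l hl u)
    have b2 := label hB hcv hcu (T l) (hz l hl v)
    have b3 := last_le (fun k => cz u (z l k)) (T l) (h0 l hl u) B fun k hk hk' => hT l hl k hk hk' u
    have b4 := last_le (fun k => cz v (z l k)) (T l) (h0 l hl v) B fun k hk hk' => hT l hl k hk hk' v
    simp only [hzP l hl, div_self hB'.ne'] at b3 b4 ⊢
    have b5 : ∀ x y : ℂ, |((1 - χ l)⁻¹ * (starRingEnd ℂ) x * y).re| ≤ a * (‖x‖ * ‖y‖) := by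
      intro x y
      refine (Complex.abs_re_le_norm _).trans ?_
      rw [norm_mul, norm_mul, Complex.norm_conj, mul_assoc]
      exact mul_le_mul_of_nonneg_right (ha l hl) (by positivity)
    have b6 := abs_le.1 (b5 (P (cmb u (U l)) 1) (P (cmb v (U l)) 1))
    have b7 := abs_le.1 (b5 (P (cmb v (U l)) 1) (P (cmb u (U l)) 1))
    have b8 := neg_abs_le (G 0 1 (cmb u (U l)) (P (cmb v (U l))))
    have b9 := le_abs_self (G 0 1 (cmb v (U l)) (P (cmb u (U l))))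
    have c1 := mul_le_mul_of_nonneg_left b3 ha0
    have c2 := mul_le_mul_of_nonneg_left b4 ha0
    have c3 := mul_nonneg ha0 (sq_nonneg (‖P (cmb u (U l)) 1‖ - ‖P (cmb v (U l)) 1‖))
    have e3 : (3 : ℝ) / B = 1 / B + 2 / B := by ring
    rw [e3]
    nlinarith
  · have h1 : ∑ l ∈ s, ((Finset.range B).filter (· ∈ T l)).card ≤ m :=
      (Finset.sum_le_sum fun l _ => hTc l).trans hm
    calc (1 + 2 * (1 + a)) ^ (2 * ∑ l ∈ s, ((Finset.range B).filter (· ∈ T l)).card)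
        ≤ (10 * (1 + a)) ^ (2 * ∑ l ∈ s, ((Finset.range B).filter (· ∈ T l)).card) :=
          pow_le_pow_left₀ (by linarith) (by linarith) _
      _ ≤ (10 * (1 + a)) ^ (4 * m) := pow_le_pow_right₀ (by linarith) (by omega)

end Crest.Agent.R192
end

-- ▼ part PVc/R192/YPiece2
section

/-! Row 192: the label two-point function: bounds. -/

set_option autoImplicit false

namespace Crest.Agent.R192

open Crest.AlgebraR.L1 MeasureTheory Matrix
open scoped ContDiff BoundedContinuousFunction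

variable {G : Type} [Group G] [TopologicalSpace G] [DiscreteTopology G] {n : ℕ} {ℓ : Len G}
  {R L0 : ℕ} {Z : ℝ} (𝓛 : Labels ℓ R L0 Z) {δ0 δ : ℝ}

namespace YP2

/-- derivative of the amplitude in the direction `v` -/
noncomputable def U (K : ℝ → ℝ) (c : G) (x : Fin (n + 1) → G) (w : 𝓛.Λ → 𝓛.S) (θ : V (n + 1))
    (l : 𝓛.L) (v : V (n + 1)) (φ : ℝ) : ℂ :=
  fderiv ℝ (Yf 𝓛 K c x w l) (θ, φ) (v, 0)

variable {K : ℝ → ℝ}

theorem U_cont (hK : Step K) (hK' : ContDiff ℝ ∞ K) (c : G) (x : Fin (n + 1) → G)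
    (w : 𝓛.Λ → 𝓛.S) (θ : V (n + 1)) (l : 𝓛.L) (v : V (n + 1)) :
    Continuous (U 𝓛 K c x w θ l v) := by
  have h := (Yf_smooth 𝓛 hK hK' c x w l).continuous_fderiv (by simp)
  unfold U
  fun_prop

theorem U_add_one (hK : Step K) (hK' : ContDiff ℝ ∞ K) (c : G) (x : Fin (n + 1) → G)
    (w : 𝓛.Λ → 𝓛.S) (θ : V (n + 1)) (l : 𝓛.L) (hl : 𝓛.cls l = c) (v : V (n + 1)) (φ : ℝ) :
    U 𝓛 K c x w θ l v (φ + 1) = 𝓛.chi l * U 𝓛 K c x w θ l v φ := by
  have hd := (Yf_smooth 𝓛 hK hK' c x w l).differentiable (by simp)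
  have e : (fun p : V (n + 1) × ℝ => Yf 𝓛 K c x w l (p + (0, 1))) =
      fun p => 𝓛.chi l * Yf 𝓛 K c x w l p := by
    funext p
    obtain ⟨θ', φ'⟩ := p
    simp only [Prod.mk_add_mk, add_zero]
    exact Yf_add_one 𝓛 hK c x w l hl θ' φ'
  have h1 : fderiv ℝ (fun p : V (n + 1) × ℝ => Yf 𝓛 K c x w l (p + (0, 1))) (θ, φ) =
      fderiv ℝ (Yf 𝓛 K c x w l) ((θ, φ) + (0, 1)) := fderiv_comp_add_right _
  rw [e, fderiv_const_mul (hd _)] at h1
  simp only [Prod.mk_add_mk, add_zero] at h1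
  unfold U
  rw [← h1]
  rfl

theorem U_eq (hK : Step K) (hK' : ContDiff ℝ ∞ K) (c : G) (x : Fin (n + 1) → G)
    (w : 𝓛.Λ → 𝓛.S) (θ : V (n + 1)) (l : 𝓛.L) (v : V (n + 1)) (φ : ℝ) :
    U 𝓛 K c x w θ l v φ = fderiv ℝ (𝓛.Y w l) (feat ℓ R (occ K c x θ φ))
      (fderiv ℝ (fld K c x (bump ℓ R)) (θ, φ) (v, 0)) := by
  have h1 : DifferentiableAt ℝ (fld K c x (bump ℓ R)) (θ, φ) :=
    (fld_smooth hK hK' c x (bump ℓ R)).differentiable (by simp) _
  have h2 : DifferentiableAt ℝ (𝓛.Y w l) (fld K c x (bump ℓ R) (θ, φ)) :=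
    (𝓛.smooth w l (occ K c x θ φ)).differentiableAt (by simp)
  have h3 := fderiv_comp (θ, φ) h2 h1
  unfold U
  change fderiv ℝ (𝓛.Y w l ∘ fld K c x (bump ℓ R)) (θ, φ) (v, 0) = _
  rw [h3]
  rfl

theorem norm_U_le (hR : 0 < R) (hK : Step K) (hK' : ContDiff ℝ ∞ K) (c : G)
    (x : Fin (n + 1) → G) (w : 𝓛.Λ → 𝓛.S) {θ : V (n + 1)} (hθ : θ ∈ cell n) (l : 𝓛.L)
    (i : Fin (n + 1)) (φ : ℝ) :
    ‖U 𝓛 K c x w θ l (ev i) φ‖ ≤ Z * (slen ℓ c x i * per (deriv K) (φ - θ i)) := by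
  rw [U_eq 𝓛 hK hK']
  have h1 := 𝓛.fderiv_le w l _ (isProb_occ hK c x hθ φ)
  have h2 := norm_fderiv_fld_le hK hK' ℓ c x (bump ℓ R) (norm_bump_sub_le ℓ R hR) θ φ i
  exact (ContinuousLinearMap.le_opNorm _ _).trans
    (mul_le_mul h1 h2 (norm_nonneg _) ((ContinuousLinearMap.opNorm_nonneg _).trans h1))

theorem U_inactive (hK : Step K) (hK' : ContDiff ℝ ∞ K) (c : G)
    (x : Fin (n + 1) → G) (w : 𝓛.Λ → 𝓛.S) {θ : V (n + 1)} (hθ : θ ∈ cell n) (l : 𝓛.L)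
    (v : V (n + 1)) (φ : ℝ) (ha : ¬ 𝓛.Act w l (occ K c x θ φ)) : U 𝓛 K c x w θ l v φ = 0 := by
  rw [U_eq 𝓛 hK hK', (𝓛.inactive w l _ (isProb_occ hK c x hθ φ) ha).2]
  rfl

theorem Yf_inactive (hK : Step K) (c : G)
    (x : Fin (n + 1) → G) (w : 𝓛.Λ → 𝓛.S) {θ : V (n + 1)} (hθ : θ ∈ cell n) (l : 𝓛.L)
    (φ : ℝ) (ha : ¬ 𝓛.Act w l (occ K c x θ φ)) : Yf 𝓛 K c x w l (θ, φ) = 0 :=
  (𝓛.inactive w l _ (isProb_occ hK c x hθ φ) ha).1

theorem norm_Yf_le (hK : Step K) (c : G)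
    (x : Fin (n + 1) → G) (w : 𝓛.Λ → 𝓛.S) {θ : V (n + 1)} (hθ : θ ∈ cell n) (l : 𝓛.L)
    (φ : ℝ) : ‖Yf 𝓛 K c x w l (θ, φ)‖ ≤ 1 :=
  𝓛.norm_le w l _ (isProb_occ hK c x hθ φ)

/-- a sum over labels whose terms vanish at inactive labels -/
theorem sum_le (hZ : 1 ≤ Z) (hK : Step K) {c : G}
    (x : Fin (n + 1) → G) (w : 𝓛.Λ → 𝓛.S) {θ : V (n + 1)} (hθ : θ ∈ cell n) (φ : ℝ)
    (F : Finset 𝓛.L) (hF : ∀ l ∈ F, 𝓛.cls l = c) (f : 𝓛.L → ℝ) {M : ℝ} (hM : 0 ≤ M)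
    (hf : ∀ l ∈ F, f l ≤ M) (hf0 : ∀ l ∈ F, ¬ 𝓛.Act w l (occ K c x θ φ) → f l = 0) :
    ∑ l ∈ F, f l ≤ Z * M := by
  classical
  have h1 : ∑ l ∈ F, f l = ∑ l ∈ F.filter fun l => 𝓛.Act w l (occ K c x θ φ), f l := by
    refine (Finset.sum_filter_of_ne fun l hl hne => ?_).symm
    by_contra ha
    exact hne (hf0 l hl ha)
  have h2 := 𝓛.mult w c (F.filter fun l => 𝓛.Act w l (occ K c x θ φ)) (fun _ => occ K c x θ φ)
    (fun l hl => ⟨hF l (Finset.mem_filter.1 hl).1, isProb_occ hK c x hθ φ,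
      (Finset.mem_filter.1 hl).2⟩)
    (fun l _ l' _ => by
      rw [sub_self, norm_zero]
      positivity)
  rw [h1]
  refine (Finset.sum_le_card_nsmul _ _ M fun l hl => hf l (Finset.mem_filter.1 hl).1).trans ?_
  rw [nsmul_eq_mul]
  exact mul_le_mul_of_nonneg_right h2 hM

theorem chi_bound {c : G} (hc : Adm ℓ L0 c) {l : 𝓛.L} (hl : 𝓛.cls l = c) :
    𝓛.chi l ≠ 1 ∧ ‖(1 - 𝓛.chi l)⁻¹‖ ≤ Real.exp Z := by
  have h := 𝓛.chi_far l (hl ▸ hc)
  have hp := Real.exp_pos (-Z)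
  constructor
  · intro h1
    rw [h1, sub_self, norm_zero] at h
    linarith
  · rw [norm_inv]
    refine (inv_anti₀ hp h).trans ?_
    rw [Real.exp_neg, inv_inv]

theorem abs_re_le (a b d : ℂ) {A B D : ℝ} (ha : ‖a‖ ≤ A) (hb : ‖b‖ ≤ B) (hd : ‖d‖ ≤ D) :
    |(a * (starRingEnd ℂ) b * d).re| ≤ A * B * D := by
  refine (Complex.abs_re_le_norm _).trans ?_
  rw [norm_mul, norm_mul, Complex.norm_conj]
  have hA := (norm_nonneg _).trans ha
  have hB := (norm_nonneg _).trans hb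
  gcongr

theorem fderiv_sum_re {X ι : Type} [NormedAddCommGroup X] [NormedSpace ℝ X] (F : Finset ι)
    (a : ι → ℂ) (f : ι → X → ℂ) (hf : ∀ l, Differentiable ℝ (f l)) (q v : X) :
    fderiv ℝ (fun q => ∑ l ∈ F, (a l * f l q).re) q v = ∑ l ∈ F, (a l * fderiv ℝ (f l) q v).re := by
  have h : HasFDerivAt (fun q => ∑ l ∈ F, (a l * f l q).re)
      (∑ l ∈ F, Complex.reCLM.comp (a l • fderiv ℝ (f l) q)) q :=
    HasFDerivAt.fun_sum fun l _ =>
      Complex.reCLM.hasFDerivAt.comp q ((hf l q).hasFDerivAt.const_mul (a l))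
  rw [h.fderiv]
  simp

theorem fderiv_sum_re' {X ι : Type} [NormedAddCommGroup X] [NormedSpace ℝ X] (F : Finset ι)
    (a d : ι → ℂ) (f : ι → X → ℂ) (hf : ∀ l, Differentiable ℝ (f l)) (q v : X) :
    fderiv ℝ (fun q => ∑ l ∈ F, (a l * (starRingEnd ℂ) (f l q) * d l).re) q v =
      ∑ l ∈ F, (a l * (starRingEnd ℂ) (fderiv ℝ (f l) q v) * d l).re := by
  have e : ∀ (l : ι) (z : ℂ), (a l * (starRingEnd ℂ) z * d l).re =
      ((starRingEnd ℂ) (a l * d l) * z).re := by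
    intro l z
    rw [← Complex.conj_re]
    congr 1
    simp only [map_mul, Complex.conj_conj]
    ring
  simp only [e]
  exact fderiv_sum_re F _ f hf q v

/-- the integrands of `beta` and `hess` as finite sums -/
theorem exists_sum (hK : Step K) (hK' : ContDiff ℝ ∞ K) (c : G) (x : Fin (n + 1) → G)
    (w : 𝓛.Λ → 𝓛.S) (θ : V (n + 1)) : ∃ F : Finset 𝓛.L, (∀ l ∈ F, 𝓛.cls l = c) ∧
      (∀ v, beta (WY 𝓛 K c x w) θ v = ∫ φ in (0 : ℝ)..1, ∫ t in (0 : ℝ)..1, ∑ l ∈ F,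
        ((1 - 𝓛.chi l)⁻¹ * (starRingEnd ℂ) (Yf 𝓛 K c x w l (θ, φ)) *
          U 𝓛 K c x w θ l v (φ + t)).re) ∧
      ∀ u v, hess (WY 𝓛 K c x w) θ u v = ∫ φ in (0 : ℝ)..1, ∫ t in (0 : ℝ)..1, ∑ l ∈ F,
        ((1 - 𝓛.chi l)⁻¹ * (starRingEnd ℂ) (U 𝓛 K c x w θ l u φ) *
          U 𝓛 K c x w θ l v (φ + t)).re := by
  obtain ⟨F, hF, -, hs⟩ := hY_local 𝓛 hK c x (‖θ‖ + 3)
  have hd : ∀ l, Differentiable ℝ (Yf 𝓛 K c x w l) := fun l =>
    (Yf_smooth 𝓛 hK hK' c x w l).differentiable (by simp)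
  have hn : ∀ φ ∈ Set.uIcc (0 : ℝ) 1, ‖((θ, φ) : V (n + 1) × ℝ)‖ < ‖θ‖ + 3 := by
    intro φ hφ
    rw [Set.uIcc_of_le zero_le_one] at hφ
    rw [Prod.norm_mk, max_lt_iff, Real.norm_of_nonneg hφ.1]
    have := norm_nonneg θ
    constructor <;> linarith [hφ.2]
  have h1 : ∀ p : V (n + 1) × ℝ, ‖p‖ ≤ ‖θ‖ + 3 → ∀ (φ : ℝ) (v : V (n + 1)),
      fderiv ℝ (fun q => hY 𝓛 K c x w (p, q)) (θ, φ) (v, 0) = ∑ l ∈ F,
        ((1 - 𝓛.chi l)⁻¹ * (starRingEnd ℂ) (Yf 𝓛 K c x w l p) * U 𝓛 K c x w θ l v φ).re := by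
    intro p hp φ v
    have e : (fun q => hY 𝓛 K c x w (p, q)) = fun q => ∑ l ∈ F,
        ((1 - 𝓛.chi l)⁻¹ * (starRingEnd ℂ) (Yf 𝓛 K c x w l p) * Yf 𝓛 K c x w l q).re :=
      funext fun q => hs w p q hp
    rw [e]
    exact fderiv_sum_re F _ _ hd _ _
  refine ⟨F, hF, fun v => ?_, fun u v => ?_⟩
  · rw [WY_eq, beta_tp (hY_smooth 𝓛 hK hK' c x w)]
    refine intervalIntegral.integral_congr fun φ hφ => ?_
    refine intervalIntegral.integral_congr fun t _ => ?_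
    exact h1 _ (hn φ hφ).le _ _
  · rw [WY_eq, hess_tp (hY_smooth 𝓛 hK hK' c x w)]
    refine intervalIntegral.integral_congr fun φ hφ => ?_
    refine intervalIntegral.integral_congr fun t _ => ?_
    have e : (fun p => fderiv ℝ (fun q => hY 𝓛 K c x w (p, q)) (θ, φ + t) (v, 0)) =ᶠ[nhds (θ, φ)]
        fun p => ∑ l ∈ F, ((1 - 𝓛.chi l)⁻¹ * (starRingEnd ℂ) (Yf 𝓛 K c x w l p) *
          U 𝓛 K c x w θ l v (φ + t)).re := by
      filter_upwards [(isOpen_lt continuous_norm continuous_const).mem_nhds (hn φ hφ)] with p hp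
      exact h1 p hp.le _ _
    rw [e.fderiv_eq]
    exact fderiv_sum_re' F _ _ _ hd _ _

/-- bound for an iterated integral -/
theorem abs_int_le {f : ℝ → ℝ → ℝ} {g k : ℝ → ℝ} {M : ℝ} (hg : Continuous g) (hk : Continuous k)
    (hf : ∀ φ t, |f φ t| ≤ M * g φ * k (φ + t)) (hg1 : ∫ φ in (0 : ℝ)..1, g φ = 1)
    (hk1 : ∀ φ, ∫ t in (0 : ℝ)..1, k (φ + t) = 1) :
    |∫ φ in (0 : ℝ)..1, ∫ t in (0 : ℝ)..1, f φ t| ≤ M := by
  have h1 : ∀ φ, ‖∫ t in (0 : ℝ)..1, f φ t‖ ≤ M * g φ := by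
    intro φ
    have h2 := intervalIntegral.norm_integral_le_of_norm_le (μ := volume) (f := f φ)
      (g := fun t => M * g φ * k (φ + t)) zero_le_one
      (Filter.Eventually.of_forall fun t _ => hf φ t)
      (Continuous.intervalIntegrable (by fun_prop) _ _)
    rwa [intervalIntegral.integral_const_mul, hk1, mul_one] at h2
  have h2 := intervalIntegral.norm_integral_le_of_norm_le (μ := volume)
    (f := fun φ => ∫ t in (0 : ℝ)..1, f φ t) (g := fun φ => M * g φ) zero_le_one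
    (Filter.Eventually.of_forall fun φ _ => h1 φ)
    (Continuous.intervalIntegrable (by fun_prop) _ _)
  rwa [intervalIntegral.integral_const_mul, hg1, mul_one] at h2

theorem int_per (h0 : 0 < δ0) (h : 0 < δ) (h1 : δ + δ0 ≤ 1) (a φ : ℝ) :
    ∫ t in (0 : ℝ)..1, per (deriv (kerK δ0 δ)) (φ + t - a) = 1 := by
  refine Eq.trans ?_ (integral_per_deriv h0 h h1 (φ - a))
  congr 1
  funext t
  congr 1
  ring

theorem int_per' (h0 : 0 < δ0) (h : 0 < δ) (h1 : δ + δ0 ≤ 1) (a : ℝ) :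
    ∫ t in (0 : ℝ)..1, per (deriv (kerK δ0 δ)) (t - a) = 1 := by
  simpa using int_per h0 h h1 a 0

end YP2

open YP2

theorem WY_beta_le (hR : 0 < R) (hZ : 1 ≤ Z) (h0 : 0 < δ0) (h : 0 < δ) (h1 : δ + δ0 ≤ 1) {c : G}
    (hc : Adm ℓ L0 c) (x : Fin (n + 1) → G) (w : 𝓛.Λ → 𝓛.S) {θ : V (n + 1)} (hθ : θ ∈ cell n)
    (i : Fin (n + 1)) :
    |beta (WY 𝓛 (kerK δ0 δ) c x w) θ (ev i)| ≤ Real.exp Z * Z ^ 3 * slen ℓ c x i := by
  have hK := kerK_step h0 h h1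
  have hK' := kerK_smooth δ0 δ
  have hc' := per_deriv_continuous h0 h h1
  obtain ⟨F, hF, hb, -⟩ := exists_sum 𝓛 hK hK' c x w θ
  have hE := Real.exp_pos Z
  have hs : (0 : ℝ) ≤ slen ℓ c x i := Nat.cast_nonneg _
  rw [hb]
  refine (abs_int_le (M := Real.exp Z * Z ^ 2 * slen ℓ c x i) (g := fun _ => 1)
    (k := fun t => per (deriv (kerK δ0 δ)) (t - θ i)) continuous_const (by fun_prop)
    (fun φ t => ?_) (by simp) (fun φ => int_per h0 h h1 _ φ)).trans ?_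
  · have hp := per_nonneg (deriv (kerK δ0 δ)) (φ + t - θ i)
    refine (Finset.abs_sum_le_sum_abs _ _).trans ((sum_le 𝓛 hZ hK x w hθ φ F hF _
      (M := Real.exp Z * 1 * (Z * (slen ℓ c x i * per (deriv (kerK δ0 δ)) (φ + t - θ i))))
      (by positivity) (fun l hl => ?_) fun l _ ha => ?_).trans (le_of_eq (by ring)))
    · exact abs_re_le _ _ _ (chi_bound 𝓛 hc (hF l hl)).2 (norm_Yf_le 𝓛 hK c x w hθ l φ)
        (norm_U_le 𝓛 hR hK hK' c x w hθ l i _)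
    · simp [Yf_inactive 𝓛 hK c x w hθ l φ ha]
  · have : Z ^ 2 ≤ Z ^ 3 := pow_le_pow_right₀ hZ (by norm_num)
    gcongr

theorem WY_hess_le (hR : 0 < R) (hZ : 1 ≤ Z) (h0 : 0 < δ0) (h : 0 < δ) (h1 : δ + δ0 ≤ 1) {c : G}
    (hc : Adm ℓ L0 c) (x : Fin (n + 1) → G) (w : 𝓛.Λ → 𝓛.S) {θ : V (n + 1)} (hθ : θ ∈ cell n)
    (i j : Fin (n + 1)) : |hess (WY 𝓛 (kerK δ0 δ) c x w) θ (ev i) (ev j)| ≤
      Real.exp Z * Z ^ 3 * slen ℓ c x i * slen ℓ c x j := by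
  have hK := kerK_step h0 h h1
  have hK' := kerK_smooth δ0 δ
  have hc' := per_deriv_continuous h0 h h1
  obtain ⟨F, hF, -, hb⟩ := exists_sum 𝓛 hK hK' c x w θ
  have hE := Real.exp_pos Z
  rw [hb]
  refine abs_int_le (g := fun t => per (deriv (kerK δ0 δ)) (t - θ i))
    (k := fun t => per (deriv (kerK δ0 δ)) (t - θ j)) (by fun_prop) (by fun_prop)
    (fun φ t => ?_) (int_per' h0 h h1 _) fun φ => int_per h0 h h1 _ φ
  have hp := per_nonneg (deriv (kerK δ0 δ)) (φ + t - θ j)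
  have hp' := per_nonneg (deriv (kerK δ0 δ)) (φ - θ i)
  refine (Finset.abs_sum_le_sum_abs _ _).trans ((sum_le 𝓛 hZ hK x w hθ φ F hF _
    (M := Real.exp Z * (Z * (slen ℓ c x i * per (deriv (kerK δ0 δ)) (φ - θ i))) *
      (Z * (slen ℓ c x j * per (deriv (kerK δ0 δ)) (φ + t - θ j))))
    (by positivity) (fun l hl => ?_) fun l _ ha => ?_).trans (le_of_eq (by ring)))
  · exact abs_re_le _ _ _ (chi_bound 𝓛 hc (hF l hl)).2 (norm_U_le 𝓛 hR hK hK' c x w hθ l i _)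
      (norm_U_le 𝓛 hR hK hK' c x w hθ l j _)
  · simp [U_inactive 𝓛 hK hK' c x w hθ l _ φ ha]

theorem WY_cost (hR : 0 < R) (hZ : 1 ≤ Z) (h0 : 0 < δ0) (h : 0 < δ) (h1 : δ + δ0 ≤ 1) {c : G}
    (hc : Adm ℓ L0 c) (x : Fin (n + 1) → G) (w : 𝓛.Λ → 𝓛.S) {θ : V (n + 1)} (hθ : θ ∈ cell n)
    (B : ℕ) (hB : 2 * Z ≤ B * δ) :
    Cost (Mb (WY 𝓛 (kerK δ0 δ) c x w) θ)
      (fun i => 3 * Z ^ 3 / (B * δ) * (slen ℓ c x i.succ : ℝ) ^ 2)
      ((10 * (1 + Real.exp Z)) ^ (4 * (⌊Z⌋₊ * B))) := by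
  classical
  have hK := kerK_step h0 h h1
  have hK' := kerK_smooth δ0 δ
  have hc' := per_deriv_continuous h0 h h1
  obtain ⟨F, hF, -, hb⟩ := exists_sum 𝓛 hK hK' c x w θ
  have hB0 : 0 < B := by
    rcases Nat.eq_zero_or_pos B with rfl | hB0
    · simp only [Nat.cast_zero, zero_mul] at hB
      linarith
    · exact hB0
  have hB' : (0 : ℝ) < B := by positivity
  have hZ0 : 0 < Z := by linarith
  let P : 𝓛.L → Fin B → Prop := fun l b =>
    ∃ φ ∈ Set.Icc (((b : ℕ) : ℝ) / B) ((((b : ℕ) : ℝ) + 1) / B),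
      𝓛.Act w l (occ (kerK δ0 δ) c x θ φ)
  have hcard : ∀ b : Fin B, (F.filter fun l => P l b).card ≤ ⌊Z⌋₊ := by
    intro b
    have hch : ∀ l, ∃ φ : ℝ, P l b → φ ∈ Set.Icc (((b : ℕ) : ℝ) / B) ((((b : ℕ) : ℝ) + 1) / B) ∧
        𝓛.Act w l (occ (kerK δ0 δ) c x θ φ) := by
      intro l
      by_cases hP : P l b
      · obtain ⟨φ, hφ⟩ := hP
        exact ⟨φ, fun _ => hφ⟩
      · exact ⟨0, fun h => absurd h hP⟩
    choose τ hτ using hch
    refine Nat.le_floor (𝓛.mult w c _ (fun l => occ (kerK δ0 δ) c x θ (τ l))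
      (fun l hl => ⟨hF l (Finset.mem_filter.1 hl).1, isProb_occ hK c x hθ _,
        (hτ l (Finset.mem_filter.1 hl).2).2⟩) fun l hl l' hl' => ?_)
    refine (norm_fld_sub_le h0 h h1 c x (bump ℓ R) (norm_bump_le ℓ R) hθ (τ l) (τ l')).trans ?_
    have a1 := (hτ l (Finset.mem_filter.1 hl).2).1
    have a2 := (hτ l' (Finset.mem_filter.1 hl').2).1
    have a3 : |τ l - τ l'| ≤ 1 / B := by
      have e : (((b : ℕ) : ℝ) + 1) / B = ((b : ℕ) : ℝ) / B + 1 / B := by ring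
      rw [e] at a1 a2
      rw [abs_le]
      constructor <;> linarith [a1.1, a1.2, a2.1, a2.2]
    calc 2 * |τ l - τ l'| / δ ≤ 2 * (1 / B) / δ := by gcongr
      _ = 2 / (B * δ) := by field_simp
      _ ≤ 2 / (2 * Z) := by gcongr
      _ = 1 / Z := by field_simp
  have hm : ∑ l ∈ F, (Finset.univ.filter fun b => P l b).card ≤ ⌊Z⌋₊ * B := by
    have e : ∑ l ∈ F, (Finset.univ.filter fun b => P l b).card =
        ∑ b : Fin B, (F.filter fun l => P l b).card := by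
      simp only [Finset.card_filter]
      exact Finset.sum_comm
    rw [e]
    refine (Finset.sum_le_card_nsmul _ _ _ fun b _ => hcard b).trans ?_
    simp [mul_comm]
  have key := cost_prefix F (fun l (i : Fin n) => U 𝓛 (kerK δ0 δ) c x w θ l (ev i.succ))
    (fun l _ i => U_cont 𝓛 hK hK' c x w θ l _) 𝓛.chi (Real.exp Z) (Real.exp_pos Z).le
    (fun l hl => (chi_bound 𝓛 hc (hF l hl)).1) (fun l hl => (chi_bound 𝓛 hc (hF l hl)).2)
    (fun l hl i φ => U_add_one 𝓛 hK hK' c x w θ l (hF l hl) _ φ) B hB0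
    (fun l => Finset.univ.filter fun b => P l b)
    (fun l _ b hb' φ hφ i => U_inactive 𝓛 hK hK' c x w hθ l _ φ fun ha =>
      hb' (Finset.mem_filter.2 ⟨Finset.mem_univ _, φ, hφ, ha⟩))
    _ hm (Matrix.of fun i j : Fin n => hess (WY 𝓛 (kerK δ0 δ) c x w) θ (ev i.succ) (ev j.succ))
    (fun i j => hb _ _)
  refine Cost.mono (M := Mb (WY 𝓛 (kerK δ0 δ) c x w) θ) key (fun i => ?_) le_rfl
  have hU : ∀ l ∈ F, Continuous fun φ => ‖U 𝓛 (kerK δ0 δ) c x w θ l (ev i.succ) φ‖ ^ 2 :=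
    fun l _ => (U_cont 𝓛 hK hK' c x w θ l _).norm.pow 2
  rw [← intervalIntegral.integral_finsetSum fun l hl => (hU l hl).intervalIntegrable _ _]
  have b1 : ∫ φ in (0 : ℝ)..1, ∑ l ∈ F, ‖U 𝓛 (kerK δ0 δ) c x w θ l (ev i.succ) φ‖ ^ 2 ≤
      ∫ φ in (0 : ℝ)..1, Z ^ 3 / δ * (slen ℓ c x i.succ : ℝ) ^ 2 *
        per (deriv (kerK δ0 δ)) (φ - θ i.succ) := by
    refine intervalIntegral.integral_mono_on zero_le_one
      ((continuous_finsetSum _ hU).intervalIntegrable _ _)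
      (Continuous.intervalIntegrable (by fun_prop) _ _) fun φ _ => ?_
    have hp := per_nonneg (deriv (kerK δ0 δ)) (φ - θ i.succ)
    have hp' := per_deriv_le h0 h h1 (φ - θ i.succ)
    refine (sum_le 𝓛 hZ hK x w hθ φ F hF _
      (M := (Z * (slen ℓ c x i.succ * per (deriv (kerK δ0 δ)) (φ - θ i.succ))) ^ 2)
      (by positivity) (fun l _ => ?_) fun l _ ha => ?_).trans ?_
    · exact pow_le_pow_left₀ (norm_nonneg _) (norm_U_le 𝓛 hR hK hK' c x w hθ l _ _) 2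
    · simp [U_inactive 𝓛 hK hK' c x w hθ l _ φ ha]
    · calc Z * (Z * (slen ℓ c x i.succ * per (deriv (kerK δ0 δ)) (φ - θ i.succ))) ^ 2
          = Z ^ 3 * (slen ℓ c x i.succ : ℝ) ^ 2 * per (deriv (kerK δ0 δ)) (φ - θ i.succ) *
            per (deriv (kerK δ0 δ)) (φ - θ i.succ) := by ring
        _ ≤ Z ^ 3 * (slen ℓ c x i.succ : ℝ) ^ 2 * per (deriv (kerK δ0 δ)) (φ - θ i.succ) *
            (1 / δ) := by gcongr
        _ = _ := by ring
  rw [intervalIntegral.integral_const_mul, int_per' h0 h h1, mul_one] at b1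
  calc 3 / B * ∫ φ in (0 : ℝ)..1, ∑ l ∈ F, ‖U 𝓛 (kerK δ0 δ) c x w θ l (ev i.succ) φ‖ ^ 2
      ≤ 3 / B * (Z ^ 3 / δ * (slen ℓ c x i.succ : ℝ) ^ 2) := by gcongr
    _ = _ := by field_simp

end Crest.Agent.R192
end

-- ▼ part PVc/R192/Total
section

/-! Row 192: the full two-point function. -/

set_option autoImplicit false

namespace Crest.Agent.R192

open Crest.AlgebraR.L1 MeasureTheory Matrix
open scoped ContDiff BoundedContinuousFunction

namespace TotAux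

variable {n : ℕ}

/-- the shape of `Wtot` -/
noncomputable def comb (t : ℝ) (s : Finset ℕ) (E : ℕ → TwoPt n) (f : V (n + 1) → ℝ) (Y : TwoPt n) :
    TwoPt n :=
  fun θ θ' => t * (∑ a ∈ s, E a θ θ' + f θ * stdW n θ θ') + 9 * Y θ θ'

section comb
variable (t : ℝ) {s : Finset ℕ} {E : ℕ → TwoPt n} {f : V (n + 1) → ℝ} {Y : TwoPt n}
  (hE : ∀ a ∈ s, Smooth2 (E a)) (hf : ContDiff ℝ ∞ f) (hY : Smooth2 Y)
include hE hf hY

theorem comb_smooth : Smooth2 (comb t s E f Y) :=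
  (((Smooth2.sum s hE).add ((stdW_smooth n).fmul hf)).fmul (f := fun _ => t) contDiff_const).add
    (hY.fmul (f := fun _ => 9) contDiff_const)

theorem comb_beta (θ u : V (n + 1)) : beta (comb t s E f Y) θ u =
    t * (∑ a ∈ s, beta (E a) θ u + f θ * beta (stdW n) θ u) + 9 * beta Y θ u := by
  have h1 := Smooth2.sum s hE
  have h2 := (stdW_smooth n).fmul hf
  have e1 := beta_add ((h1.add h2).fmul (f := fun _ => t) contDiff_const)
    (hY.fmul (f := fun _ => 9) contDiff_const) θ u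
  have e2 := beta_fmul (h1.add h2) (fun _ => t) θ u
  have e3 := beta_fmul hY (fun _ => 9) θ u
  rw [e2, e3, beta_add h1 h2, beta_sum s hE, beta_fmul (stdW_smooth n)] at e1
  exact e1

theorem comb_hess (θ u v : V (n + 1)) : hess (comb t s E f Y) θ u v =
    t * (∑ a ∈ s, hess (E a) θ u v +
      (fderiv ℝ f θ u * beta (stdW n) θ v + f θ * hess (stdW n) θ u v)) + 9 * hess Y θ u v := by
  have h1 := Smooth2.sum s hE
  have h2 := (stdW_smooth n).fmul hf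
  have e1 := hess_add ((h1.add h2).fmul (f := fun _ => t) contDiff_const)
    (hY.fmul (f := fun _ => 9) contDiff_const) θ u v
  have e2 := hess_fmul (h1.add h2) (f := fun _ => t) contDiff_const θ u v
  have e3 := hess_fmul hY (f := fun _ => 9) contDiff_const θ u v
  rw [e2, e3, hess_add h1 h2, hess_sum s hE, hess_fmul (stdW_smooth n) hf] at e1
  simp only [fderiv_fun_const, Pi.zero_apply, _root_.zero_apply, zero_mul, zero_add] at e1
  exact e1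

theorem comb_Mb (θ : V (n + 1)) : Mb (comb t s E f Y) θ =
    t • ∑ a ∈ s, Mb (E a) θ + (t * f θ) • omega n +
      (vecMulVec (fun i => t * fderiv ℝ f θ (ev i.succ)) (fun i => beta (stdW n) θ (ev i.succ)) -
        vecMulVec (fun i => beta (stdW n) θ (ev i.succ)) fun i => t * fderiv ℝ f θ (ev i.succ)) +
      (9 : ℝ) • Mb Y θ := by
  rw [← Mb_stdW θ]
  ext i j
  simp only [Mb, Matrix.of_apply, comb_hess t hE hf hY, Matrix.add_apply, Matrix.smul_apply,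
    Matrix.sub_apply, Matrix.sum_apply, vecMulVec_apply, smul_eq_mul, Finset.sum_sub_distrib]
  ring

end comb

theorem scale_le {δ0 : ℝ} {A a : ℕ} (h0 : 0 < δ0) (h1 : (2 ^ A + 5) * δ0 ≤ 1) (ha : a ≤ A) :
    2 ^ a * δ0 + δ0 ≤ 1 := by
  have : (2 : ℝ) ^ a ≤ 2 ^ A := pow_le_pow_right₀ one_le_two ha
  nlinarith

theorem five_le {δ0 : ℝ} {A : ℕ} (h0 : 0 < δ0) (h1 : (2 ^ A + 5) * δ0 ≤ 1) : 5 * δ0 ≤ 1 := by
  have : (0 : ℝ) < 2 ^ A * δ0 := by positivity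
  nlinarith

end TotAux

open TotAux

variable {G : Type} [Group G] [TopologicalSpace G] [DiscreteTopology G] {n : ℕ} {ℓ : Len G}
  (Γ : Gibbs ℓ) {R L0 : ℕ} {Z : ℝ} (𝓛 : Labels ℓ R L0 Z) {δ0 L : ℝ} {A : ℕ}

theorem TotAux.Wtot_eq (L : ℝ) (c : G) (x : Fin (n + 1) → G) (w : 𝓛.Λ → 𝓛.S) :
    Wtot Γ 𝓛 δ0 A L n c x w = comb L⁻¹ (Finset.range A) (fun a => WE Γ δ0 (2 ^ a * δ0) c x)
      (avgΦ Γ (kerK δ0 δ0) c x) (WY 𝓛 (kerK δ0 (2 ^ A * δ0)) c x w) := rfl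

theorem TotAux.smE (h0 : 0 < δ0) (h1 : (2 ^ A + 5) * δ0 ≤ 1) (c : G) (x : Fin (n + 1) → G) :
    ∀ a ∈ Finset.range A, Smooth2 (WE Γ δ0 (2 ^ a * δ0) c x) := fun _ ha =>
  WE_smooth Γ h0 (by positivity) (scale_le h0 h1 (Finset.mem_range.1 ha).le) c x

theorem TotAux.smA (h0 : 0 < δ0) (h1 : (2 ^ A + 5) * δ0 ≤ 1) (c : G) (x : Fin (n + 1) → G) :
    ContDiff ℝ ∞ (avgΦ Γ (kerK δ0 δ0) c x) :=
  avg_smooth Γ h0 h0 (by linarith [five_le h0 h1]) c x

theorem TotAux.stepA (h0 : 0 < δ0) (h1 : (2 ^ A + 5) * δ0 ≤ 1) : Step (kerK δ0 (2 ^ A * δ0)) :=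
  kerK_step h0 (by positivity) (scale_le h0 h1 le_rfl)

theorem TotAux.step0 (h0 : 0 < δ0) (h1 : (2 ^ A + 5) * δ0 ≤ 1) : Step (kerK δ0 δ0) :=
  kerK_step h0 h0 (by linarith [five_le h0 h1])

theorem TotAux.smY (h0 : 0 < δ0) (h1 : (2 ^ A + 5) * δ0 ≤ 1) (c : G) (x : Fin (n + 1) → G)
    (w : 𝓛.Λ → 𝓛.S) : Smooth2 (WY 𝓛 (kerK δ0 (2 ^ A * δ0)) c x w) :=
  WY_smooth 𝓛 (stepA h0 h1) (kerK_smooth _ _) c x w

theorem Wtot_fam (h0 : 0 < δ0) (h1 : (2 ^ A + 5) * δ0 ≤ 1) (L : ℝ) (C : Set G) (n : ℕ) :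
    Fam C n (Wtot Γ 𝓛 δ0 A L n) := by
  have hp : ∀ a : ℕ, 0 < 2 ^ a * δ0 := fun a => by positivity
  have hs : ∀ a ∈ Finset.range A, 2 ^ a * δ0 + δ0 ≤ 1 := fun a ha =>
    scale_le h0 h1 (Finset.mem_range.1 ha).le
  refine ⟨fun c _ x w => ?_, fun c _ x w θ θ' t => ?_, fun c _ x w h => ?_,
    fun c _ x w θ θ' => ?_, fun c _ x => ?_⟩
  · rw [Wtot_eq]
    exact comb_smooth _ (smE Γ h0 h1 c x) (smA Γ h0 h1 c x) (smY 𝓛 h0 h1 c x w)
  · unfold Wtot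
    rw [Finset.sum_congr rfl fun a ha => WE_rotInv Γ h0 (hp a) (hs a ha) c x θ θ' t,
      avg_rot Γ (step0 h0 h1), stdW_rotInv n θ θ' t, WY_rotInv 𝓛 (stepA h0 h1) c x w θ θ' t]
  · funext θ θ'
    unfold Wtot
    rw [Finset.sum_congr rfl fun a ha => by rw [WE_conj Γ h0 (hp a) (hs a ha) c h x],
      avg_conj Γ (step0 h0 h1), WY_conj 𝓛 (stepA h0 h1)]
  · unfold Wtot
    rw [Finset.sum_congr rfl fun a ha => WE_cyc Γ h0 (hp a) (hs a ha) c x θ θ',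
      avg_cyc Γ (step0 h0 h1), stdW_cyc, WY_cyc 𝓛 (stepA h0 h1)]
  · obtain ⟨F, hF⟩ := WY_fin 𝓛 (stepA h0 h1) c x
    refine ⟨F, fun w w' hw θ θ' hθ hθ' => ?_⟩
    unfold Wtot
    rw [hF w w' hw θ θ' hθ hθ']

theorem Wtot_face (L : ℝ) (c : G) (x : Fin (n + 2) → G) (w : 𝓛.Λ → 𝓛.S) (p : Fin (n + 2))
    (θ θ' : V (n + 1)) : Wtot Γ 𝓛 δ0 A L (n + 1) c x w (faceθ p θ) (faceθ p θ') =
      Wtot Γ 𝓛 δ0 A L n c (fun i => x (p.succAbove i)) w θ θ' := by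
  unfold Wtot
  rw [Finset.sum_congr rfl fun a _ => WE_face Γ c x p θ θ', avg_face, stdW_face, WY_face]

theorem TotAux.UU_eq (h0 : 0 < δ0) (h1 : (2 ^ A + 5) * δ0 ≤ 1) (L : ℝ) (c : G)
    (x : Fin (n + 1) → G) (w : 𝓛.Λ → 𝓛.S) (θ : V (n + 1)) :
    UU (Wtot Γ 𝓛 δ0 A L n c x w) θ = L⁻¹ * avgΦ Γ (kerK δ0 (2 ^ A * δ0)) c x θ +
      9 * UU (WY 𝓛 (kerK δ0 (2 ^ A * δ0)) c x w) θ := by
  have e1 := comb_beta L⁻¹ (smE Γ h0 h1 c x) (smA Γ h0 h1 c x) (smY 𝓛 h0 h1 c x w) θ 1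
  have e2 : ∑ a ∈ Finset.range A, beta (WE Γ δ0 (2 ^ a * δ0) c x) θ 1 =
      avgΦ Γ (kerK δ0 (2 ^ A * δ0)) c x θ - avgΦ Γ (kerK δ0 δ0) c x θ := by
    have := Finset.sum_range_sub (fun a : ℕ => avgΦ Γ (kerK δ0 (2 ^ a * δ0)) c x θ) A
    rw [pow_zero, one_mul] at this
    rw [← this]
    refine Finset.sum_congr rfl fun a ha => ?_
    have h2 : 2 * (2 ^ a * δ0) = 2 ^ (a + 1) * δ0 := by ring
    have h3 := WE_UU Γ h0 (show 0 < 2 ^ a * δ0 by positivity)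
      (by rw [h2]; exact scale_le h0 h1 (Finset.mem_range.1 ha)) c x θ
    rw [h2] at h3
    exact h3
  have e3 : beta (stdW n) θ 1 = 1 := UU_stdW θ
  rw [e2, e3, mul_one, sub_add_cancel] at e1
  exact e1

theorem TotAux.one_le (h0 : 0 < δ0) (h1 : (2 ^ A + 5) * δ0 ≤ 1) (hL : 1 ≤ L) (hR : 20 * L ≤ R)
    {c : G} (hc : Adm ℓ L0 c) (x : Fin (n + 1) → G) (w : 𝓛.Λ → 𝓛.S)
    (hw : ∀ μ, IsProb μ → ∀ z, 9 / 10 ≤ feat ℓ R μ z →
      ∃ l, 𝓛.cls l = c ∧ 1 / 3 ≤ ‖𝓛.Y w l (feat ℓ R μ)‖)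
    {θ : V (n + 1)} (hθ : θ ∈ cell n) : 1 ≤ UU (Wtot Γ 𝓛 δ0 A L n c x w) θ := by
  have hK := stepA h0 h1
  obtain ⟨g, hg, hU, hg'⟩ := WY_UU 𝓛 hK (kerK_smooth _ _) hc x w θ
  have hΦ : Continuous fun φ : ℝ => Γ.Φ (fld (kerK δ0 (2 ^ A * δ0)) c x (xiD ℓ) (θ, φ)) :=
    Γ.smooth.continuous.comp ((fld_smooth hK (kerK_smooth _ _) c x _).continuous.comp
      (continuous_const.prodMk continuous_id))
  have hL0 : 0 < L := by linarith
  rw [UU_eq Γ 𝓛 h0 h1, hU, avgΦ, ← intervalIntegral.integral_const_mul,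
    ← intervalIntegral.integral_const_mul, ← intervalIntegral.integral_add
      ((hΦ.const_mul _).intervalIntegrable _ _) ((hg.const_mul _).intervalIntegrable _ _)]
  have h2 : (1 : ℝ) = ∫ _φ in (0 : ℝ)..1, (1 : ℝ) := by simp
  conv_lhs => rw [h2]
  refine intervalIntegral.integral_mono_on zero_le_one (continuous_const.intervalIntegrable _ _)
    (((hΦ.const_mul _).add (hg.const_mul _)).intervalIntegrable _ _) fun φ _ => ?_
  have hμ := isProb_occ hK c x hθ φ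
  have h3 := Γ.nonneg _ hμ
  have h4 := (hg' φ).1
  change 1 ≤ L⁻¹ * Γ.Φ (pr (xiD ℓ) (occ (kerK δ0 (2 ^ A * δ0)) c x θ φ)) + 9 * g φ
  rcases le_or_gt L (Γ.Φ (pr (xiD ℓ) (occ (kerK δ0 (2 ^ A * δ0)) c x θ φ))) with h5 | h5
  · have := mul_le_mul_of_nonneg_left h5 (inv_nonneg.2 hL0.le)
    rw [inv_mul_cancel₀ hL0.ne'] at this
    linarith
  · obtain ⟨z, hz⟩ := Γ.exists_mdist _ hμ L h5
    have h6 := one_sub_mdist_le_feat ℓ R _ hμ z
    have hR0 : (0 : ℝ) < R := by linarith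
    have h7 : mdist ℓ z (occ (kerK δ0 (2 ^ A * δ0)) c x θ φ) / R ≤ 1 / 10 := by
      rw [div_le_iff₀ hR0]; linarith
    obtain ⟨l, hl, hY⟩ := hw _ hμ z (by linarith)
    have h8 : ‖𝓛.Y w l (feat ℓ R (occ (kerK δ0 (2 ^ A * δ0)) c x θ φ))‖ ^ 2 ≤ g φ :=
      (hg' φ).2 l hl
    have h9 := mul_nonneg (inv_nonneg.2 hL0.le) h3
    nlinarith

theorem Wtot_ent (h0 : 0 < δ0) (h1 : (2 ^ A + 5) * δ0 ≤ 1) (hL : 1 ≤ L) (hR : 20 * L ≤ R)
    (hZ : 1 ≤ Z) {c : G} (hc : Adm ℓ L0 c) (x : Fin (n + 1) → G) (w : 𝓛.Λ → 𝓛.S)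
    (hw : ∀ μ, IsProb μ → ∀ z, 9 / 10 ≤ feat ℓ R μ z →
      ∃ l, 𝓛.cls l = c ∧ 1 / 3 ≤ ‖𝓛.Y w l (feat ℓ R μ)‖)
    {θ : V (n + 1)} (hθ : θ ∈ cell n) :
    Ent (Wtot Γ 𝓛 δ0 A L n c x w) θ (fun i => slen ℓ c x i) (δ0 * tlen ℓ c x)
      (A * (Γ.lam + 1) + 2 * Γ.C0 + 10 + 9 * (Real.exp Z * Z ^ 3)) := by
  have hp : ∀ a : ℕ, 0 < 2 ^ a * δ0 := fun a => by positivity
  have hs : ∀ a ∈ Finset.range A, 2 ^ a * δ0 + δ0 ≤ 1 := fun a ha =>
    scale_le h0 h1 (Finset.mem_range.1 ha).le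
  have h5 := five_le h0 h1
  have hR0 : 0 < R := by
    have : (0 : ℝ) < R := by linarith
    exact_mod_cast this
  have ht0 : 0 ≤ L⁻¹ := inv_nonneg.2 (by linarith)
  have ht1 : L⁻¹ ≤ 1 := inv_le_one_of_one_le₀ hL
  have hlam := Γ.lam_pos
  have hC0 := Γ.C0_nonneg
  have hf0 := avg_nonneg Γ (step0 h0 h1) c x hθ
  have hf1 := avg_le Γ h0 h5 c x hθ
  set T : ℝ := δ0 * tlen ℓ c x with hT
  have hT0 : 0 ≤ T := by positivity
  set Ez : ℝ := Real.exp Z * Z ^ 3 with hEz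
  have hEz0 : 0 ≤ Ez := by positivity
  have hA0 : (0 : ℝ) ≤ A := Nat.cast_nonneg A
  have hP : ∀ i, (slen ℓ c x i : ℝ) ≤ (1 + T) * (1 + slen ℓ c x i) ∧
      1 + T ≤ (1 + T) * (1 + slen ℓ c x i) := fun i => by
    have : (0 : ℝ) ≤ slen ℓ c x i := Nat.cast_nonneg _
    constructor <;> nlinarith
  have shrink : ∀ a b : ℝ, |L⁻¹ * a + 9 * b| ≤ |a| + 9 * |b| := fun a b => by
    refine (abs_add_le _ _).trans ?_
    rw [abs_mul, abs_mul, abs_of_nonneg ht0, abs_of_pos (by norm_num : (0 : ℝ) < 9)]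
    nlinarith [abs_nonneg a]
  refine ⟨one_le Γ 𝓛 h0 h1 hL hR hc x w hw hθ, fun i => ?_, fun i j => ?_⟩
  · rw [Wtot_eq, comb_beta _ (smE Γ h0 h1 c x) (smA Γ h0 h1 c x) (smY 𝓛 h0 h1 c x w)]
    refine (shrink _ _).trans ?_
    have e1 : |∑ a ∈ Finset.range A, beta (WE Γ δ0 (2 ^ a * δ0) c x) θ (ev i)| ≤
        A * slen ℓ c x i := by
      refine (Finset.abs_sum_le_sum_abs _ _).trans ?_
      refine (Finset.sum_le_card_nsmul _ _ _ fun a ha =>
        WE_beta_le Γ h0 (hp a) (hs a ha) c x θ i).trans ?_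
      rw [Finset.card_range, nsmul_eq_mul]
    have e2 : |avgΦ Γ (kerK δ0 δ0) c x θ * beta (stdW n) θ (ev i)| ≤ Γ.C0 + 4 * T := by
      rw [abs_mul, abs_of_nonneg hf0]
      exact (mul_le_of_le_one_right hf0 (abs_beta_stdW_le hθ i)).trans hf1
    have e3 := WY_beta_le 𝓛 hR0 hZ h0 (hp A) (scale_le h0 h1 le_rfl) hc x w hθ i
    rw [← hEz] at e3
    have e4 := abs_add_le (∑ a ∈ Finset.range A, beta (WE Γ δ0 (2 ^ a * δ0) c x) θ (ev i))
      (avgΦ Γ (kerK δ0 δ0) c x θ * beta (stdW n) θ (ev i))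
    obtain ⟨p1, p2⟩ := hP i
    set P := (1 + T) * (1 + (slen ℓ c x i : ℝ))
    have q1 := mul_le_mul_of_nonneg_left p1 hA0
    have q2 := mul_le_mul_of_nonneg_left p1 hEz0
    have q3 := mul_le_mul_of_nonneg_left (show 1 ≤ P by linarith) hC0
    have q4 : 0 ≤ A * Γ.lam * P := mul_nonneg (by positivity) (by linarith)
    nlinarith
  · rw [Wtot_eq, comb_hess _ (smE Γ h0 h1 c x) (smA Γ h0 h1 c x) (smY 𝓛 h0 h1 c x w)]
    refine (shrink _ _).trans ?_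
    have e1 : |∑ a ∈ Finset.range A, hess (WE Γ δ0 (2 ^ a * δ0) c x) θ (ev i) (ev j)| ≤
        A * (Γ.lam * slen ℓ c x i * slen ℓ c x j) := by
      refine (Finset.abs_sum_le_sum_abs _ _).trans ?_
      refine (Finset.sum_le_card_nsmul _ _ _ fun a ha =>
        WE_hess_le Γ h0 (hp a) (hs a ha) c x θ i j).trans ?_
      rw [Finset.card_range, nsmul_eq_mul]
    have e2 : |avgΦ Γ (kerK δ0 δ0) c x θ * hess (stdW n) θ (ev i) (ev j)| ≤
        (Γ.C0 + 4 * T) * 2 := by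
      rw [abs_mul, abs_of_nonneg hf0]
      exact mul_le_mul hf1 (abs_hess_stdW_le θ i j) (abs_nonneg _) (by positivity)
    have e2' : |fderiv ℝ (avgΦ Γ (kerK δ0 δ0) c x) θ (ev i) * beta (stdW n) θ (ev j)| ≤
        slen ℓ c x i := by
      rw [abs_mul]
      exact (mul_le_of_le_one_right (abs_nonneg _) (abs_beta_stdW_le hθ j)).trans
        (avg_fderiv_le Γ h0 h0 (by linarith) c x θ i)
    have e3 := WY_hess_le 𝓛 hR0 hZ h0 (hp A) (scale_le h0 h1 le_rfl) hc x w hθ i j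
    rw [← hEz] at e3
    have e4 := abs_add_le
      (∑ a ∈ Finset.range A, hess (WE Γ δ0 (2 ^ a * δ0) c x) θ (ev i) (ev j))
      (fderiv ℝ (avgΦ Γ (kerK δ0 δ0) c x) θ (ev i) * beta (stdW n) θ (ev j) +
        avgΦ Γ (kerK δ0 δ0) c x θ * hess (stdW n) θ (ev i) (ev j))
    have e5 := abs_add_le
      (fderiv ℝ (avgΦ Γ (kerK δ0 δ0) c x) θ (ev i) * beta (stdW n) θ (ev j))
      (avgΦ Γ (kerK δ0 δ0) c x θ * hess (stdW n) θ (ev i) (ev j))
    obtain ⟨p1, p2⟩ := hP i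
    obtain ⟨p3, p4⟩ := hP j
    rw [mul_assoc _ ((1 + T) * _)]
    have hsi : (0 : ℝ) ≤ slen ℓ c x i := Nat.cast_nonneg _
    have hsj : (0 : ℝ) ≤ slen ℓ c x j := Nat.cast_nonneg _
    set P := (1 + T) * (1 + (slen ℓ c x i : ℝ))
    set P' := (1 + T) * (1 + (slen ℓ c x j : ℝ))
    have r1 : (slen ℓ c x i : ℝ) * slen ℓ c x j ≤ P * P' := mul_le_mul p1 p3 hsj (by linarith)
    have r2 : P ≤ P * P' := le_mul_of_one_le_right (by linarith) (by linarith)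
    set Q := P * P'
    have q1 := mul_le_mul_of_nonneg_left r1 (show 0 ≤ A * Γ.lam by positivity)
    have q2 := mul_le_mul_of_nonneg_left r1 hEz0
    have q3 := mul_le_mul_of_nonneg_left (show 1 ≤ Q by linarith) hC0
    have q4 : 0 ≤ A * Q := mul_nonneg hA0 (by linarith)
    nlinarith

theorem Wtot_cost (h0 : 0 < δ0) (h1 : (2 ^ A + 5) * δ0 ≤ 1) (hL : 1 ≤ L) (hR : 0 < R)
    (hZ : 1 ≤ Z) {c : G} (hc : Adm ℓ L0 c) (x : Fin (n + 1) → G) (w : 𝓛.Λ → 𝓛.S)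
    {θ : V (n + 1)} (hθ : θ ∈ cell n) {ε : ℝ} (hε : 0 < ε) (B : ℕ)
    (hB : 2 * Z ≤ B * (2 ^ A * δ0)) (hB' : 27 * Z ^ 3 ≤ ε * (B * (2 ^ A * δ0)))
    (hA : A * Γ.lam ≤ ε * L) (hC : 2 * (Γ.C0 + 4) ≤ ε * L) :
    Cost (Mb (Wtot Γ 𝓛 δ0 A L n c x w) θ)
      (fun i => 4 * ε * (1 + δ0 * tlen ℓ c x) * (1 + slen ℓ c x i.succ) ^ 2)
      ((1 + n / ε) ^ 2 * (10 * (1 + Real.exp Z)) ^ (4 * (⌊Z⌋₊ * B))) := by
  have hp : ∀ a : ℕ, 0 < 2 ^ a * δ0 := fun a => by positivity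
  have hs : ∀ a ∈ Finset.range A, 2 ^ a * δ0 + δ0 ≤ 1 := fun a ha =>
    scale_le h0 h1 (Finset.mem_range.1 ha).le
  have h5 := five_le h0 h1
  have hL0 : 0 < L := by linarith
  have ht0 : 0 < L⁻¹ := inv_pos.2 hL0
  have ht1 : L⁻¹ ≤ 1 := inv_le_one_of_one_le₀ hL
  have hC0 := Γ.C0_nonneg
  have hf0 := avg_nonneg Γ (step0 h0 h1) c x hθ
  have hf1 := avg_le Γ h0 h5 c x hθ
  set T : ℝ := δ0 * tlen ℓ c x with hT
  have hT0 : 0 ≤ T := by positivity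
  have hs0 : ∀ i, (0 : ℝ) ≤ slen ℓ c x i := fun i => Nat.cast_nonneg _
  have c1 := (Cost.sum (Finset.range A) _ _ fun a ha =>
    WE_cost Γ h0 (hp a) (hs a ha) c x θ).smul ht0
  have c2 := Cost.smul_omega n (mul_nonneg ht0.le hf0)
  have c3 := Cost.rank2 (fun i : Fin n => L⁻¹ * fderiv ℝ (avgΦ Γ (kerK δ0 δ0) c x) θ (ev i.succ))
    (fun i => beta (stdW n) θ (ev i.succ)) (fun i => ε * (1 + slen ℓ c x i.succ) ^ 2)
    (A := ε⁻¹) (by positivity) (fun i => by have := hs0 i.succ; positivity) (fun i => by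
      rw [inv_mul_cancel_left₀ hε.ne']
      refine sq_le_sq' ?_ ?_ <;>
      · have h := abs_le.1 (avg_fderiv_le Γ h0 h0 (by linarith) c x θ i.succ)
        nlinarith [hs0 i.succ, h.1, h.2]) (fun i => by
      rw [inv_mul_cancel_left₀ hε.ne']
      have h := abs_le.1 (abs_beta_stdW_le hθ i.succ)
      exact sq_le_sq' (by linarith [hs0 i.succ]) (by linarith [hs0 i.succ]))
  have c4 := (WY_cost 𝓛 hR hZ h0 (hp A) (scale_le h0 h1 le_rfl) hc x w hθ B hB).smul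
    (t := 9) (by norm_num)
  rw [Wtot_eq, comb_Mb _ (smE Γ h0 h1 c x) (smA Γ h0 h1 c x) (smY 𝓛 h0 h1 c x w)]
  refine (((c1.add c2).add c3).add c4).mono (fun i => ?_) (le_of_eq ?_)
  · have hB0 : 0 < B * (2 ^ A * δ0) := by linarith
    have hsi := hs0 i.succ
    set s : ℝ := (slen ℓ c x i.succ : ℝ) with hsdef
    have b1 : L⁻¹ * ∑ _a ∈ Finset.range A, Γ.lam * s ^ 2 ≤ ε * s ^ 2 := by
      rw [Finset.sum_const, Finset.card_range, nsmul_eq_mul, ← mul_assoc (A : ℝ), ← mul_assoc]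
      refine mul_le_mul_of_nonneg_right ?_ (sq_nonneg s)
      rw [inv_mul_le_iff₀ hL0]
      linarith
    have b2 : 2 * (L⁻¹ * avgΦ Γ (kerK δ0 δ0) c x θ) ≤ ε * (1 + T) := by
      rw [mul_left_comm, inv_mul_le_iff₀ hL0]
      nlinarith [mul_le_mul_of_nonneg_right hC (show 0 ≤ 1 + T by linarith),
        mul_nonneg hC0 hT0]
    have b4 : 9 * (3 * Z ^ 3 / (B * (2 ^ A * δ0)) * s ^ 2) ≤ ε * s ^ 2 := by
      rw [← mul_assoc]
      refine mul_le_mul_of_nonneg_right ?_ (sq_nonneg s)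
      rw [← mul_div_assoc, div_le_iff₀ hB0]
      linarith
    have k1 : s ^ 2 ≤ (1 + T) * (1 + s) ^ 2 := by nlinarith [sq_nonneg (1 + s)]
    have k2 : 1 + T ≤ (1 + T) * (1 + s) ^ 2 := by nlinarith [sq_nonneg s]
    have k3 : (1 + s) ^ 2 ≤ (1 + T) * (1 + s) ^ 2 := by nlinarith [sq_nonneg (1 + s)]
    have m1 := mul_le_mul_of_nonneg_left k1 hε.le
    have m2 := mul_le_mul_of_nonneg_left k2 hε.le
    have m3 := mul_le_mul_of_nonneg_left k3 hε.le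
    nlinarith
  · rw [Fintype.card_fin, one_mul, one_mul, div_eq_mul_inv]

end Crest.Agent.R192
end

-- ▼ part PVc/R192/Gibbs

/-! Row 192: the soft minimum of mean distances. -/

set_option autoImplicit false
set_option linter.unusedSectionVars false

namespace Crest.Agent.R192

open Crest.AlgebraR.L1 MeasureTheory Matrix
open scoped ContDiff BoundedContinuousFunction

namespace GibbsAux

variable {G : Type} [Group G] [TopologicalSpace G] [DiscreteTopology G] (ℓ : Len G)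

theorem summable_half : Summable fun z => Real.exp (-((ℓ.D + 1 : ℝ) * ℓ.len z)) := by
  classical
  have h1 : Real.exp (-1) < 1 := Real.exp_lt_one_iff.2 (by norm_num)
  have hg := summable_geometric_of_lt_one (Real.exp_pos (-1)).le h1
  refine summable_of_sum_le (c := ∑' r : ℕ, Real.exp (-1) ^ r) (fun _ => (Real.exp_pos _).le)
    fun s => ?_
  rw [Finset.sum_comp (fun r : ℕ => Real.exp (-((ℓ.D + 1 : ℝ) * r))) ℓ.len]
  refine le_trans (Finset.sum_le_sum fun r _ => ?_)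
    (hg.sum_le_tsum _ fun _ _ => by positivity)
  have h2 : (s.filter fun a => ℓ.len a = r).card ≤ 2 ^ (ℓ.D * r) :=
    (Finset.card_le_card fun a ha =>
      (ℓ.mem_ball r a).2 (Finset.mem_filter.1 ha).2.le).trans (ℓ.card_ball r)
  have h3 : ((s.filter fun a => ℓ.len a = r).card : ℝ) ≤ Real.exp 1 ^ (ℓ.D * r) := by
    refine le_trans (by exact_mod_cast h2) (pow_le_pow_left₀ (a := (2 : ℝ)) zero_le_two ?_ _)
    linarith [Real.add_one_le_exp 1]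
  rw [nsmul_eq_mul]
  refine (mul_le_mul_of_nonneg_right h3 (Real.exp_pos _).le).trans (le_of_eq ?_)
  rw [← Real.exp_nat_mul, ← Real.exp_nat_mul, ← Real.exp_add]
  congr 1
  push_cast
  ring

/-- the inverse temperature -/
noncomputable def lam : ℝ := 2 * (ℓ.D + 1)

theorem lam_pos : 0 < lam ℓ := by unfold lam; positivity

/-- the weights -/
noncomputable def w (z : G) : ℝ := Real.exp (-(lam ℓ * ℓ.len z))

theorem w_pos (z : G) : 0 < w ℓ z := Real.exp_pos _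

theorem summable_w : Summable (w ℓ) := by
  refine Summable.of_nonneg_of_le (fun z => (w_pos ℓ z).le) (fun z => ?_) (summable_half ℓ)
  refine Real.exp_le_exp.2 (neg_le_neg (mul_le_mul_of_nonneg_right ?_ (Nat.cast_nonneg _)))
  have : (0 : ℝ) ≤ ℓ.D := Nat.cast_nonneg _
  unfold lam
  linarith

theorem norm_wf (f : G →ᵇ ℝ) (z : G) : ‖w ℓ z * f z‖ ≤ w ℓ z * ‖f‖ := by
  rw [norm_mul, Real.norm_of_nonneg (w_pos ℓ z).le]
  exact mul_le_mul_of_nonneg_left (f.norm_coe_le_norm z) (w_pos ℓ z).le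

theorem summable_wf (f : G →ᵇ ℝ) : Summable fun z => w ℓ z * f z :=
  Summable.of_norm_bounded ((summable_w ℓ).mul_right ‖f‖) (norm_wf ℓ f)

/-- integration against the weights -/
noncomputable def I : (G →ᵇ ℝ) →L[ℝ] ℝ :=
  LinearMap.mkContinuous
    { toFun := fun f => ∑' z, w ℓ z * f z
      map_add' := fun f g => by
        rw [← (summable_wf ℓ f).tsum_add (summable_wf ℓ g)]
        simp only [BoundedContinuousFunction.add_apply, mul_add]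
      map_smul' := fun c f => by
        simp only [BoundedContinuousFunction.smul_apply, smul_eq_mul, RingHom.id_apply,
          ← tsum_mul_left, mul_left_comm] }
    (∑' z, w ℓ z) fun f => tsum_of_norm_bounded ((summable_w ℓ).hasSum.mul_right ‖f‖) (norm_wf ℓ f)

theorem I_apply (f : G →ᵇ ℝ) : I ℓ f = ∑' z, w ℓ z * f z := rfl

theorem exp_apply (f : G →ᵇ ℝ) (z : G) : NormedSpace.exp f z = Real.exp (f z) := by
  let φ : (G →ᵇ ℝ) →+* ℝ :=
    { toFun := fun f => f z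
      map_one' := rfl
      map_mul' := fun _ _ => rfl
      map_zero' := rfl
      map_add' := fun _ _ => rfl }
  rw [Real.exp_eq_exp_ℝ]
  exact NormedSpace.map_exp_of_mem_ball (𝕂 := ℝ) φ
    (BoundedContinuousFunction.evalCLM ℝ z).continuous f
    ((NormedSpace.expSeries_radius_eq_top ℝ (G →ᵇ ℝ)).symm ▸ edist_lt_top _ _)

/-- the Boltzmann factor -/
noncomputable def bo (h : G →ᵇ ℝ) : G →ᵇ ℝ := NormedSpace.exp ((-lam ℓ) • h)

theorem bo_apply (h : G →ᵇ ℝ) (z : G) : bo ℓ h z = Real.exp (-(lam ℓ * h z)) := by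
  rw [bo, exp_apply, BoundedContinuousFunction.smul_apply, smul_eq_mul, neg_mul]

theorem contDiff_bo : ContDiff ℝ ∞ (bo ℓ) := by
  have h : ContDiff ℝ ∞ (NormedSpace.exp : (G →ᵇ ℝ) → G →ᵇ ℝ) :=
    contDiff_iff_contDiffAt.2 fun x => (NormedSpace.exp_analytic x).contDiffAt
  exact h.comp (contDiff_id.const_smul _)

/-- unnormalised Gibbs mean -/
noncomputable def T (a h : G →ᵇ ℝ) : ℝ := I ℓ (a * bo ℓ h)

theorem contDiff_T (a : G →ᵇ ℝ) : ContDiff ℝ ∞ (T ℓ a) :=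
  (I ℓ).contDiff.comp (contDiff_const.mul (contDiff_bo ℓ))

theorem hasFDerivAt_T (a h : G →ᵇ ℝ) : ∃ D : (G →ᵇ ℝ) →L[ℝ] ℝ, HasFDerivAt (T ℓ a) D h ∧
    ∀ ν, D ν = -lam ℓ * T ℓ (a * ν) h := by
  have h1 := (hasFDerivAt_exp (𝕂 := ℝ) (x := (-lam ℓ) • h)).comp h
    ((hasFDerivAt_id h).const_smul (-lam ℓ))
  refine ⟨_, (I ℓ).hasFDerivAt.comp h (h1.const_mul a), fun ν => ?_⟩
  rw [T, ← smul_eq_mul, ← map_smul, ContinuousLinearMap.comp_apply]
  congr 1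
  ext z
  simp [bo]
  ring

theorem T_mono {a b : G →ᵇ ℝ} (hab : ∀ z, a z ≤ b z) (h : G →ᵇ ℝ) : T ℓ a h ≤ T ℓ b h := by
  refine (summable_wf ℓ _).tsum_le_tsum (fun z => ?_) (summable_wf ℓ _)
  refine mul_le_mul_of_nonneg_left ?_ (w_pos ℓ z).le
  simp only [BoundedContinuousFunction.mul_apply, bo_apply]
  exact mul_le_mul_of_nonneg_right (hab z) (Real.exp_pos _).le

theorem T_smul (c : ℝ) (a h : G →ᵇ ℝ) : T ℓ (c • a) h = c * T ℓ a h := by
  rw [T, smul_mul_assoc, map_smul, smul_eq_mul, T]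

theorem T_add (a b h : G →ᵇ ℝ) : T ℓ (a + b) h = T ℓ a h + T ℓ b h := by
  rw [T, add_mul, map_add, T, T]

theorem T_one (h : G →ᵇ ℝ) : T ℓ 1 h = ∑' z, Real.exp (-(lam ℓ * (ℓ.len z + h z))) := by
  rw [T, one_mul, I_apply]
  simp only [bo_apply, w, ← Real.exp_add, mul_add, neg_add]

theorem summable_one (h : G →ᵇ ℝ) :
    Summable fun z => Real.exp (-(lam ℓ * (ℓ.len z + h z))) := by
  have := summable_wf ℓ (bo ℓ h)
  simpa only [bo_apply, w, ← Real.exp_add, mul_add, neg_add] using this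

theorem T_pos (h : G →ᵇ ℝ) : 0 < T ℓ 1 h := by
  rw [T_one]
  exact (summable_one ℓ h).tsum_pos (fun _ => (Real.exp_pos _).le) 1 (Real.exp_pos _)

theorem abs_T_le (a h : G →ᵇ ℝ) : |T ℓ a h| ≤ ‖a‖ * T ℓ 1 h := by
  rw [abs_le, ← neg_mul, ← T_smul, ← T_smul]
  constructor <;> refine T_mono ℓ (fun z => ?_) h
  · simpa using (abs_le.1 (a.norm_coe_le_norm z)).1
  · simpa using (abs_le.1 (a.norm_coe_le_norm z)).2

theorem T_sq_le (a h : G →ᵇ ℝ) : T ℓ a h ^ 2 ≤ T ℓ (a * a) h * T ℓ 1 h := by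
  have hp := T_pos ℓ h
  set c := T ℓ a h / T ℓ 1 h with hc
  have h1 : T ℓ ((2 * c) • a) h ≤ T ℓ (a * a + c ^ 2 • (1 : G →ᵇ ℝ)) h := by
    refine T_mono ℓ (fun z => ?_) h
    simp only [BoundedContinuousFunction.smul_apply, BoundedContinuousFunction.add_apply,
      BoundedContinuousFunction.mul_apply, BoundedContinuousFunction.coe_one, Pi.one_apply,
      smul_eq_mul]
    nlinarith [sq_nonneg (a z - c)]
  rw [T_add, T_smul, T_smul] at h1
  have h2 : T ℓ a h = c * T ℓ 1 h := by rw [hc]; field_simp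
  rw [h2] at h1 ⊢
  nlinarith

/-- the normalising constant -/
noncomputable def Cl : ℝ := ∑' z, Real.exp (-((ℓ.D + 1 : ℝ) * ℓ.len z))

noncomputable def C0 : ℝ := max 0 (Real.log (Cl ℓ) / lam ℓ)

/-- the soft minimum -/
noncomputable def Φ (h : G →ᵇ ℝ) : ℝ := C0 ℓ - (lam ℓ)⁻¹ * Real.log (T ℓ 1 h)

theorem contDiff_Φ : ContDiff ℝ ∞ (Φ ℓ) :=
  contDiff_const.sub (contDiff_const.mul ((contDiff_T ℓ 1).log fun h => (T_pos ℓ h).ne'))

theorem fderiv_Φ (h ν : G →ᵇ ℝ) : fderiv ℝ (Φ ℓ) h ν = T ℓ ν h * (T ℓ 1 h)⁻¹ := by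
  obtain ⟨D, hD, hD'⟩ := hasFDerivAt_T ℓ 1 h
  have := ((hD.log (T_pos ℓ h).ne').const_mul (lam ℓ)⁻¹).const_sub (C0 ℓ)
  refine (congrArg (fun S => S ν) this.fderiv).trans ?_
  have hl := (lam_pos ℓ).ne'
  simp only [_root_.neg_apply, _root_.smul_apply, hD', one_mul,
    smul_eq_mul]
  field_simp

theorem fderiv2_Φ (h ν : G →ᵇ ℝ) : fderiv ℝ (fderiv ℝ (Φ ℓ)) h ν ν =
    -lam ℓ * ((T ℓ (ν * ν) h * T ℓ 1 h - T ℓ ν h ^ 2) / T ℓ 1 h ^ 2) := by
  have hd : DifferentiableAt ℝ (fderiv ℝ (Φ ℓ)) h :=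
    ((contDiff_Φ ℓ).fderiv_right (m := 1) (by norm_cast)).differentiable one_ne_zero h
  have e1 : fderiv ℝ (fun h' => fderiv ℝ (Φ ℓ) h' ν) h ν = fderiv ℝ (fderiv ℝ (Φ ℓ)) h ν ν := by
    rw [fderiv_clm_apply hd (differentiableAt_const _)]
    simp
  obtain ⟨D, hD, hD'⟩ := hasFDerivAt_T ℓ 1 h
  obtain ⟨E, hE, hE'⟩ := hasFDerivAt_T ℓ ν h
  have hp := (T_pos ℓ h).ne'
  have := hE.mul ((hasDerivAt_inv hp).comp_hasFDerivAt h hD)
  rw [← e1]
  simp only [fderiv_Φ]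
  refine (congrArg (fun S => S ν) this.fderiv).trans ?_
  simp only [_root_.add_apply, _root_.smul_apply, hD', hE', one_mul,
    smul_eq_mul, Function.comp]
  field_simp
  ring

theorem pr_eq {E : Type} [AddCommGroup E] [Module ℝ E] (ξ : G → E) (μ : G →₀ ℝ) :
    pr ξ μ = ∑ x ∈ μ.support, μ x • ξ x := rfl

theorem mass_eq (μ : G →₀ ℝ) : mass μ = ∑ x ∈ μ.support, μ x := by
  simp only [mass, pr_eq, smul_eq_mul, mul_one]

theorem len_add_pr {μ : G →₀ ℝ} (hμ : mass μ = 1) (z : G) :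
    ℓ.len z + pr (xiD ℓ) μ z = mdist ℓ z μ := by
  rw [mass_eq] at hμ
  simp only [mdist, pr_eq,
    BoundedContinuousFunction.sum_apply, BoundedContinuousFunction.smul_apply, xiD_apply,
    smul_eq_mul, mul_sub, Finset.sum_sub_distrib, ← Finset.sum_mul]
  rw [hμ]
  ring

theorem T_pr {μ : G →₀ ℝ} (hμ : mass μ = 1) :
    T ℓ 1 (pr (xiD ℓ) μ) = ∑' z, Real.exp (-(lam ℓ * mdist ℓ z μ)) := by
  simp only [T_one, len_add_pr ℓ hμ]

theorem summable_pr {μ : G →₀ ℝ} (hμ : mass μ = 1) :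
    Summable fun z => Real.exp (-(lam ℓ * mdist ℓ z μ)) := by
  simpa only [len_add_pr ℓ hμ] using summable_one ℓ (pr (xiD ℓ) μ)

theorem mdist_tr (g z : G) (μ : G →₀ ℝ) : mdist ℓ (g * z) (tr g μ) = mdist ℓ z μ := by
  refine (Finsupp.linearCombination_mapDomain ℝ _ _).trans ?_
  rw [mdist]
  congr 2
  funext x
  simp [mul_assoc]

theorem mass_tr (g : G) (μ : G →₀ ℝ) : mass (tr g μ) = mass μ :=
  Finsupp.linearCombination_mapDomain ℝ _ _

theorem jensen {μ : G →₀ ℝ} (hμ : IsProb μ) (a : ℝ) (z : G) :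
    Real.exp (-(a * mdist ℓ z μ)) ≤
      ∑ x ∈ μ.support, μ x * Real.exp (-(a * ℓ.len (x⁻¹ * z))) := by
  have h1 := hμ.2
  rw [mass_eq] at h1
  have := convexOn_exp.map_sum_le (t := μ.support) (w := μ)
    (p := fun x => -(a * ℓ.len (x⁻¹ * z))) (fun x _ => hμ.1 x) h1 fun _ _ => Set.mem_univ _
  refine le_trans (le_of_eq ?_) this
  simp only [mdist, pr_eq, smul_eq_mul, Finset.mul_sum, ← Finset.sum_neg_distrib]
  congr 1
  exact Finset.sum_congr rfl fun x _ => by ring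

theorem le_Φ {μ : G →₀ ℝ} (hμ : IsProb μ) {L : ℝ} (hL : ∀ z, 2 * L ≤ mdist ℓ z μ) :
    L ≤ Φ ℓ (pr (xiD ℓ) μ) := by
  have h1 := hμ.2
  rw [mass_eq] at h1
  have hs : HasSum (fun z => ∑ x ∈ μ.support, μ x * Real.exp (-((ℓ.D + 1 : ℝ) * ℓ.len (x⁻¹ * z))))
      (∑ x ∈ μ.support, μ x * Cl ℓ) :=
    hasSum_sum fun x _ => ((Equiv.mulLeft x⁻¹).hasSum_iff.2 (summable_half ℓ).hasSum).mul_left _
  rw [← Finset.sum_mul, h1, one_mul] at hs
  have hl := lam_pos ℓ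
  have h2 : T ℓ 1 (pr (xiD ℓ) μ) ≤ Real.exp (-(lam ℓ * L)) * Cl ℓ := by
    rw [T_pr ℓ hμ.2]
    refine hasSum_le (fun z => ?_) (summable_pr ℓ hμ.2).hasSum (hs.mul_left _)
    refine le_trans ?_ (mul_le_mul_of_nonneg_left (jensen ℓ hμ _ z) (Real.exp_pos _).le)
    rw [← Real.exp_add]
    refine Real.exp_le_exp.2 ?_
    have := mul_le_mul_of_nonneg_left (hL z) (show (0 : ℝ) ≤ ℓ.D + 1 by positivity)
    unfold lam
    linarith
  have hC : 0 < Cl ℓ :=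
    (summable_half ℓ).tsum_pos (fun _ => (Real.exp_pos _).le) 1 (Real.exp_pos _)
  have h3 := Real.log_le_log (T_pos ℓ _) h2
  rw [Real.log_mul (Real.exp_pos _).ne' hC.ne', Real.log_exp] at h3
  have h4 := mul_le_mul_of_nonneg_left h3 (inv_pos.2 hl).le
  have h5 : (lam ℓ)⁻¹ * (-(lam ℓ * L) + Real.log (Cl ℓ)) = -L + Real.log (Cl ℓ) / lam ℓ := by
    field_simp
  have h6 : Real.log (Cl ℓ) / lam ℓ ≤ C0 ℓ := le_max_right _ _
  unfold Φ
  linarith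

end GibbsAux

open GibbsAux in
theorem exists_gibbs {G : Type} [Group G] [TopologicalSpace G] [DiscreteTopology G] (ℓ : Len G) :
    Nonempty (Gibbs ℓ) := by
  have hl := lam_pos ℓ
  refine ⟨⟨Φ ℓ, lam ℓ, C0 ℓ, hl, le_max_left _ _, contDiff_Φ ℓ, fun h ν => ?_, fun h ν => ?_,
    fun h ν => ?_, fun g μ hμ => ?_, fun μ hμ => ?_, fun μ hμ z => ?_, fun μ hμ L hL => ?_⟩⟩
  · have hp := T_pos ℓ h
    rw [fderiv_Φ, abs_mul, abs_of_pos (inv_pos.2 hp), ← div_eq_mul_inv, div_le_iff₀ hp]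
    exact abs_T_le ℓ ν h
  · rw [fderiv2_Φ, neg_mul, neg_nonpos]
    exact mul_nonneg hl.le (div_nonneg (sub_nonneg.2 (T_sq_le ℓ ν h)) (sq_nonneg _))
  · have hp := T_pos ℓ h
    rw [fderiv2_Φ, neg_mul, neg_neg]
    refine mul_le_mul_of_nonneg_left ?_ hl.le
    rw [div_le_iff₀ (by positivity)]
    have h1 : T ℓ (ν * ν) h ≤ ‖ν‖ ^ 2 * T ℓ 1 h := by
      refine (le_abs_self _).trans ((abs_T_le ℓ _ h).trans (mul_le_mul_of_nonneg_right ?_ hp.le))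
      rw [sq]
      exact norm_mul_le _ _
    have h2 := mul_le_mul_of_nonneg_right h1 hp.le
    nlinarith [sq_nonneg (T ℓ ν h)]
  · unfold Φ
    rw [T_pr ℓ hμ, T_pr ℓ ((mass_tr g μ).trans hμ), ← (Equiv.mulLeft g).tsum_eq]
    simp only [Equiv.coe_mulLeft, mdist_tr]
  · refine le_Φ ℓ hμ fun z => ?_
    rw [mul_zero, mdist, pr_eq]
    exact Finset.sum_nonneg fun x _ => mul_nonneg (hμ.1 x) (Nat.cast_nonneg _)
  · have h1 : Real.exp (-(lam ℓ * mdist ℓ z μ)) ≤ T ℓ 1 (pr (xiD ℓ) μ) := by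
      rw [T_pr ℓ hμ.2]
      exact (summable_pr ℓ hμ.2).le_tsum z fun _ _ => (Real.exp_pos _).le
    have h2 := Real.log_le_log (Real.exp_pos _) h1
    rw [Real.log_exp] at h2
    have h3 := mul_le_mul_of_nonneg_left h2 (inv_pos.2 hl).le
    have h4 : (lam ℓ)⁻¹ * -(lam ℓ * mdist ℓ z μ) = -mdist ℓ z μ := by field_simp
    unfold Φ
    linarith
  · by_contra hne
    push Not at hne
    exact absurd (le_Φ ℓ hμ hne) (not_le.2 hL)

end Crest.Agent.R192
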