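import Crest.Agent.PVc.R192.Defs

-- ▼ part PVc/R192/Kernel
section

/-! Row 192: the window kernels. -/

set_option autoImplicit false

namespace Crest.Agent.R192

open Crest.AlgebraR.L1 MeasureTheory Matrix
open scoped ContDiff BoundedContinuousFunction

/-- Heaviside step -/
noncomputable def heav (x : ℝ) : ℝ := if 0 < x then 1 else 0

namespace KernelAux

theorem sigP_deriv (x : ℝ) : HasDerivAt sigP (Real.smoothTransition x) x :=
  (Real.smoothTransition.continuous.integral_hasStrictDerivAt 0 x).hasDerivAt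

theorem sigP_smooth : ContDiff ℝ ∞ sigP := by
  refine contDiff_infty_iff_deriv.2 ⟨fun x => (sigP_deriv x).differentiableAt, ?_⟩
  have : deriv sigP = Real.smoothTransition := funext fun x => (sigP_deriv x).deriv
  rw [this]
  exact Real.smoothTransition.contDiff

theorem sigP_nonpos {x : ℝ} (h : x ≤ 0) : sigP x = 0 := by
  rw [sigP, intervalIntegral.integral_congr (g := fun _ => 0)]
  · simp
  · intro t ht
    rw [Set.uIcc_of_ge h] at ht
    exact Real.smoothTransition.zero_of_nonpos ht.2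

theorem sigP_sub {a b : ℝ} (ha : 1 ≤ a) (hb : 1 ≤ b) : sigP a - sigP b = a - b := by
  rw [sigP, sigP, intervalIntegral.integral_interval_sub_left
    (Real.smoothTransition.continuous.intervalIntegrable _ _)
    (Real.smoothTransition.continuous.intervalIntegrable _ _),
    intervalIntegral.integral_congr (g := fun _ => 1)]
  · simp
  · intro t ht
    exact Real.smoothTransition.one_of_one_le ((le_min hb ha).trans ht.1)

theorem kerK_one {δ0 δ x : ℝ} (h0 : 0 < δ0) (h : 0 < δ) (h1 : δ + δ0 ≤ x) : kerK δ0 δ x = 1 := by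
  rw [kerK, sigP_sub (by rw [le_div_iff₀ h0]; linarith) (by rw [le_div_iff₀ h0]; linarith)]
  field_simp
  ring

theorem kerK_hasDeriv {δ0 : ℝ} (h0 : 0 < δ0) (δ x : ℝ) : HasDerivAt (kerK δ0 δ)
    ((Real.smoothTransition (x / δ0) - Real.smoothTransition ((x - δ) / δ0)) / δ) x := by
  have h1 := (sigP_deriv (x / δ0)).comp x ((hasDerivAt_id x).div_const δ0)
  have h2 := (sigP_deriv ((x - δ) / δ0)).comp x (((hasDerivAt_id x).sub_const δ).div_const δ0)
  refine HasDerivAt.congr_deriv ((h1.sub h2).const_mul (δ0 / δ)) ?_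
  rw [← sub_mul, mul_comm, mul_assoc, div_mul_div_comm, one_mul, div_mul_cancel_left₀ h0.ne',
    ← div_eq_mul_inv]

theorem sig_sub_mem {δ0 δ : ℝ} (h0 : 0 < δ0) (h : 0 < δ) (x : ℝ) :
    0 ≤ Real.smoothTransition (x / δ0) - Real.smoothTransition ((x - δ) / δ0) ∧
      Real.smoothTransition (x / δ0) - Real.smoothTransition ((x - δ) / δ0) ≤ 1 := by
  have h1 := Real.smoothTransition.monotone
    (show (x - δ) / δ0 ≤ x / δ0 from div_le_div_of_nonneg_right (by linarith) h0.le)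
  have h2 := Real.smoothTransition.le_one (x / δ0)
  have h3 := Real.smoothTransition.nonneg ((x - δ) / δ0)
  constructor <;> linarith

/-- at most one term of the periodisation does not vanish -/
theorem per_eq {f : ℝ → ℝ} (hf : ∀ t, t ≤ 0 ∨ 1 ≤ t → f t = 0) {x : ℝ} (m : ℤ) (h0 : 0 ≤ x - m)
    (h1 : x - m ≤ 1) : per f x = |f (x - m)| := by
  refine finsum_eq_single _ m fun m' hm => abs_eq_zero.2 (hf _ ?_)
  rcases lt_or_gt_of_ne hm with h | h
  · have : (m' : ℝ) + 1 ≤ m := by exact_mod_cast h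
    right; linarith
  · have : (m : ℝ) + 1 ≤ m' := by exact_mod_cast h
    left; linarith

theorem per_fract {f : ℝ → ℝ} (hf : ∀ t, t ≤ 0 ∨ 1 ≤ t → f t = 0) (x : ℝ) :
    per f x = |f (Int.fract x)| :=
  per_eq hf ⌊x⌋ (Int.fract_nonneg x) (Int.fract_lt_one x).le

end KernelAux

open KernelAux

theorem Step.deriv_eq_zero {K : ℝ → ℝ} (hK : Step K) (t : ℝ) (ht : t ≤ 0 ∨ 1 ≤ t) :
    deriv K t = 0 := by
  rcases ht with ht | ht
  · refine IsLocalMin.deriv_eq_zero (Filter.Eventually.of_forall fun y => ?_)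
    rw [hK.zero t ht, ← hK.zero _ (min_le_right y 0)]
    exact hK.mono (min_le_left _ _)
  · refine IsLocalMax.deriv_eq_zero (Filter.Eventually.of_forall fun y => ?_)
    rw [hK.one t ht, ← hK.one _ (le_max_right y 1)]
    exact hK.mono (le_max_left _ _)

theorem Step.mem {K : ℝ → ℝ} (hK : Step K) (t : ℝ) : 0 ≤ K t ∧ K t ≤ 1 :=
  ⟨(hK.zero _ (min_le_right t 0)).symm.le.trans (hK.mono (min_le_left t 0)),
    (hK.mono (le_max_left t 1)).trans (hK.one _ (le_max_right t 1)).le⟩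

theorem heav_step : Step heav := by
  refine ⟨fun x hx => if_neg (not_lt.2 hx), fun x hx => if_pos (by linarith), fun x y hxy => ?_⟩
  unfold heav
  split_ifs with h1 h2 h2
  · exact le_rfl
  · exact absurd (h1.trans_le hxy) h2
  · exact zero_le_one
  · exact le_rfl

theorem sig_step {δ0 : ℝ} (h0 : 0 < δ0) (h1 : δ0 ≤ 1) :
    Step fun x => Real.smoothTransition (x / δ0) := by
  refine ⟨fun x hx => Real.smoothTransition.zero_of_nonpos (div_nonpos_of_nonpos_of_nonneg hx h0.le),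
    fun x hx => Real.smoothTransition.one_of_one_le (by rw [le_div_iff₀ h0]; linarith),
    fun x y hxy => Real.smoothTransition.monotone (div_le_div_of_nonneg_right hxy h0.le)⟩

theorem kerK_smooth (δ0 δ : ℝ) : ContDiff ℝ ∞ (kerK δ0 δ) := by
  exact contDiff_const.mul ((sigP_smooth.comp (contDiff_id.div_const δ0)).sub
    (sigP_smooth.comp ((contDiff_id.sub contDiff_const).div_const δ0)))

theorem kerK_step {δ0 δ : ℝ} (h0 : 0 < δ0) (h : 0 < δ) (h1 : δ + δ0 ≤ 1) : Step (kerK δ0 δ) := by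
  refine ⟨fun x hx => ?_, fun x hx => kerK_one h0 h (h1.trans hx), ?_⟩
  · rw [kerK, sigP_nonpos (div_nonpos_of_nonpos_of_nonneg hx h0.le),
      sigP_nonpos (div_nonpos_of_nonpos_of_nonneg (by linarith) h0.le), sub_self, mul_zero]
  · refine monotone_of_deriv_nonneg (fun x => (kerK_hasDeriv h0 δ x).differentiableAt) fun x => ?_
    rw [(kerK_hasDeriv h0 δ x).deriv]
    exact div_nonneg (sig_sub_mem h0 h x).1 h.le

theorem kerK_two_mul (δ0 δ x : ℝ) :
    kerK δ0 (2 * δ) x = (kerK δ0 δ x + kerK δ0 δ (x - δ)) / 2 := by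
  unfold kerK
  rw [show x - δ - δ = x - 2 * δ by ring]
  ring

theorem deriv_kerK {δ0 : ℝ} (h0 : 0 < δ0) (δ x : ℝ) : deriv (kerK δ0 δ) x =
    (Real.smoothTransition (x / δ0) - Real.smoothTransition ((x - δ) / δ0)) / δ := by
  exact (kerK_hasDeriv h0 δ x).deriv

theorem per_nonneg (f : ℝ → ℝ) (x : ℝ) : 0 ≤ per f x := by
  exact finsum_nonneg fun _ => abs_nonneg _

theorem per_deriv_continuous {δ0 δ : ℝ} (h0 : 0 < δ0) (h : 0 < δ) (h1 : δ + δ0 ≤ 1) :
    Continuous (per (deriv (kerK δ0 δ))) := by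
  have hz := (kerK_step h0 h h1).deriv_eq_zero
  have : per (deriv (kerK δ0 δ)) = (fun t => |deriv (kerK δ0 δ) t|) ∘ Int.fract :=
    funext (per_fract hz)
  rw [this]
  refine ContinuousOn.comp_fract'' ((kerK_smooth δ0 δ).continuous_deriv (by simp)).abs.continuousOn ?_
  rw [hz 0 (Or.inl le_rfl), hz 1 (Or.inr le_rfl)]

theorem per_deriv_le {δ0 δ : ℝ} (h0 : 0 < δ0) (h : 0 < δ) (h1 : δ + δ0 ≤ 1) (x : ℝ) :
    per (deriv (kerK δ0 δ)) x ≤ 1 / δ := by
  rw [per_fract (kerK_step h0 h h1).deriv_eq_zero, deriv_kerK h0,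
    abs_of_nonneg (div_nonneg (sig_sub_mem h0 h _).1 h.le)]
  exact div_le_div_of_nonneg_right (sig_sub_mem h0 h _).2 h.le

theorem integral_per_deriv {δ0 δ : ℝ} (h0 : 0 < δ0) (h : 0 < δ) (h1 : δ + δ0 ≤ 1) (a : ℝ) :
    ∫ φ in (0 : ℝ)..1, per (deriv (kerK δ0 δ)) (φ + a) = 1 := by
  have hs := kerK_step h0 h h1
  have hp : Function.Periodic (per (deriv (kerK δ0 δ))) 1 := fun x => by
    rw [per_fract hs.deriv_eq_zero, per_fract hs.deriv_eq_zero, Int.fract_add_one]
  rw [intervalIntegral.integral_comp_add_right, zero_add, add_comm, hp.intervalIntegral_add_eq a 0,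
    zero_add, intervalIntegral.integral_congr (g := deriv (kerK δ0 δ)),
    intervalIntegral.integral_deriv_eq_sub (fun x _ => (kerK_hasDeriv h0 δ x).differentiableAt)
      (((kerK_smooth δ0 δ).continuous_deriv (by simp)).intervalIntegrable _ _),
    hs.one 1 le_rfl, hs.zero 0 le_rfl, sub_zero]
  intro t ht
  rw [Set.uIcc_of_le zero_le_one] at ht
  rw [per_eq hs.deriv_eq_zero 0 (by simpa using ht.1) (by simpa using ht.2), Int.cast_zero, sub_zero,
    abs_of_nonneg]
  rw [deriv_kerK h0]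
  exact div_nonneg (sig_sub_mem h0 h _).1 h.le

theorem per_sub_heav_le {δ0 : ℝ} (h0 : 0 < δ0) (h1 : 5 * δ0 ≤ 1) (x : ℝ) :
    per (fun t => kerK δ0 δ0 t - heav t) x ≤
      4 * δ0 * per (deriv (kerK δ0 (4 * δ0))) (x + δ0) := by
  have hs := kerK_step h0 h0 (by linarith)
  have hs4 := kerK_step h0 (show 0 < 4 * δ0 by linarith) (by linarith)
  have hz : ∀ t, t ≤ 0 ∨ 1 ≤ t → kerK δ0 δ0 t - heav t = 0 := by
    rintro t (ht | ht)
    · rw [hs.zero t ht, heav_step.zero t ht, sub_self]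
    · rw [hs.one t ht, heav_step.one t ht, sub_self]
  rw [per_fract hz]
  have hf0 := Int.fract_nonneg x
  by_cases hx : δ0 + δ0 ≤ Int.fract x
  · rw [kerK_one h0 h0 hx, heav, if_pos (by linarith), sub_self, abs_zero]
    exact mul_nonneg (by linarith) (per_nonneg _ _)
  · have e : x + δ0 - (⌊x⌋ : ℤ) = Int.fract x + δ0 := by rw [Int.fract]; ring
    rw [per_eq hs4.deriv_eq_zero ⌊x⌋ (by rw [e]; linarith) (by rw [e]; linarith), e, deriv_kerK h0,
      Real.smoothTransition.one_of_one_le (by rw [le_div_iff₀ h0]; linarith),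
      Real.smoothTransition.zero_of_nonpos (div_nonpos_of_nonpos_of_nonneg (by linarith) h0.le),
      sub_zero, abs_of_nonneg (show 0 ≤ 1 / (4 * δ0) by positivity), mul_one_div_cancel (by positivity)]
    have h2 := hs.mem (Int.fract x)
    have h3 := heav_step.mem (Int.fract x)
    rw [abs_le]
    constructor <;> linarith

end Crest.Agent.R192
end

-- ▼ part PVc/R192/Occ

/-! Row 192: algebraic properties of occupation measures. -/

set_option autoImplicit false

namespace Crest.Agent.R192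

open Crest.AlgebraR.L1 MeasureTheory Matrix
open scoped ContDiff BoundedContinuousFunction

variable {G : Type} [Group G] {n : ℕ} {K : ℝ → ℝ}

theorem Occ_ext_castSucc (θ : V (n + 1)) (i : Fin (n + 1)) : ext θ i.castSucc = θ i := by
  simp [ext]

theorem Occ_ext_last (θ : V (n + 1)) : ext θ (Fin.last _) = θ 0 + 1 := by
  simp [ext]

theorem Occ_ext_zero (θ : V (n + 1)) : ext θ 0 = θ 0 := Occ_ext_castSucc θ 0

theorem Occ_abs_ext (θ : V (n + 1)) (j : Fin (n + 2)) : |ext θ j| ≤ ‖θ‖ + 1 := by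
  refine Fin.lastCases ?_ (fun i => ?_) j
  · rw [Occ_ext_last]
    have := norm_le_pi_norm θ 0
    rw [Real.norm_eq_abs] at this
    have h2 := abs_add_le (θ 0) 1
    rw [abs_one] at h2
    linarith
  · rw [Occ_ext_castSucc]
    have := norm_le_pi_norm θ i
    rw [Real.norm_eq_abs] at this
    linarith

theorem Occ_hi (hK : Step K) {θ : V (n + 1)} {φ : ℝ} {r : ℕ} (hr : ‖θ‖ + |φ| + 2 ≤ r) {m : ℤ}
    (hm : (r : ℤ) ≤ m) (j : Fin (n + 2)) : K (φ - m - ext θ j) = 0 := by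
  have h1 : (r : ℝ) ≤ m := by exact_mod_cast hm
  have h2 := abs_le.1 (Occ_abs_ext θ j)
  exact hK.zero _ (by linarith [le_abs_self φ])

theorem Occ_lo (hK : Step K) {θ : V (n + 1)} {φ : ℝ} {r : ℕ} (hr : ‖θ‖ + |φ| + 2 ≤ r) {m : ℤ}
    (hm : m ≤ -(r : ℤ)) (j : Fin (n + 2)) : K (φ - m - ext θ j) = 1 := by
  have h1 : (m : ℝ) ≤ -r := by exact_mod_cast hm
  have h2 := abs_le.1 (Occ_abs_ext θ j)
  exact hK.one _ (by linarith [neg_abs_le φ])

theorem Occ_out (hK : Step K) {K' : ℝ → ℝ} (hK' : Step K') {θ : V (n + 1)} {φ : ℝ} {r : ℕ}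
    (hr : ‖θ‖ + |φ| + 2 ≤ r) {m : ℤ} (hm : m ∉ Finset.Icc (-r : ℤ) r) (j j' : Fin (n + 2)) :
    K (φ - m - ext θ j) - K' (φ - m - ext θ j') = 0 := by
  rw [Finset.mem_Icc, not_and_or, not_le, not_le] at hm
  rcases hm with hm | hm
  · rw [Occ_lo hK hr hm.le, Occ_lo hK' hr hm.le, sub_self]
  · rw [Occ_hi hK hr hm.le, Occ_hi hK' hr hm.le, sub_self]

theorem Occ_exists_r (θ : V (n + 1)) (φ : ℝ) : ∃ r : ℕ, ‖θ‖ + |φ| + 2 ≤ r := exists_nat_ge _

theorem Occ_fin1 (hK : Step K) (g : ℤ → G) (θ : V (n + 1)) (φ : ℝ) (j j' : Fin (n + 2)) :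
    Function.HasFiniteSupport fun m : ℤ =>
      Finsupp.single (g m) (K (φ - m - ext θ j) - K (φ - m - ext θ j')) := by
  obtain ⟨r, hr⟩ := Occ_exists_r θ φ
  refine (Finset.Icc (-r : ℤ) r).finite_toSet.subset fun m hm => ?_
  by_contra h
  exact hm (by simp only [Occ_out hK hK hr h, Finsupp.single_zero])

theorem Occ_fin (hK : Step K) (c : G) (x : Fin (n + 1) → G) (θ : V (n + 1)) (φ : ℝ) :
    Function.HasFiniteSupport fun m : ℤ => ∑ i : Fin (n + 1),
      Finsupp.single (c ^ m * x i) (K (φ - m - ext θ i.castSucc) - K (φ - m - ext θ i.succ)) := by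
  obtain ⟨r, hr⟩ := Occ_exists_r θ φ
  refine (Finset.Icc (-r : ℤ) r).finite_toSet.subset fun m hm => ?_
  by_contra h
  exact hm (by simp only [Occ_out hK hK hr h, Finsupp.single_zero, Finset.sum_const_zero])

theorem Occ_tr_occ (hK : Step K) (h c : G) (x : Fin (n + 1) → G) (θ : V (n + 1)) (φ : ℝ) :
    tr h (occ K c x θ φ) = ∑ᶠ m : ℤ, ∑ i : Fin (n + 1), Finsupp.single (h * (c ^ m * x i))
      (K (φ - m - ext θ i.castSucc) - K (φ - m - ext θ i.succ)) := by
  have := (Finsupp.mapDomain.addMonoidHom (M := ℝ) fun g : G => h * g).map_finsum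
    (Occ_fin hK c x θ φ)
  simp only [map_sum, Finsupp.mapDomain.addMonoidHom_apply, Finsupp.mapDomain_single] at this
  exact this

theorem Occ_tele_fin {E : Type} [AddCommGroup E] (g : Fin (n + 2) → E) :
    ∑ i : Fin (n + 1), (g i.castSucc - g i.succ) = g 0 - g (Fin.last _) := by
  have h1 := Fin.sum_univ_succ g
  have h2 := Fin.sum_univ_castSucc g
  rw [Finset.sum_sub_distrib, eq_sub_of_add_eq h2.symm, eq_sub_of_add_eq' h1.symm]
  abel

theorem Occ_tele_int {E : Type} [AddCommGroup E] (f : ℤ → E) (r : ℕ) :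
    ∑ m ∈ Finset.Icc (-r : ℤ) r, (f m - f (m + 1)) = f (-r) - f (r + 1) := by
  induction r with
  | zero => simp
  | succ r ih =>
    have : Finset.Icc (-(r + 1 : ℕ) : ℤ) (r + 1 : ℕ) =
        insert (-(r + 1 : ℤ)) (insert (r + 1 : ℤ) (Finset.Icc (-r : ℤ) r)) := by
      ext m
      simp only [Finset.mem_Icc, Finset.mem_insert]
      omega
    rw [this, Finset.sum_insert (by simp only [Finset.mem_Icc, Finset.mem_insert]; omega),
      Finset.sum_insert (by simp only [Finset.mem_Icc]; omega), ih,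
      show -(r + 1 : ℤ) + 1 = -r by ring]
    push_cast
    abel


theorem Occ_total (hK : Step K) {θ : V (n + 1)} {φ : ℝ} {r : ℕ} (hr : ‖θ‖ + |φ| + 2 ≤ r) :
    ∑ m ∈ Finset.Icc (-r : ℤ) r, ∑ i : Fin (n + 1),
      (K (φ - m - ext θ i.castSucc) - K (φ - m - ext θ i.succ)) = 1 := by
  have h1 : ∀ m : ℤ, ∑ i : Fin (n + 1),
      (K (φ - m - ext θ i.castSucc) - K (φ - m - ext θ i.succ)) =
      K (φ - m - ext θ 0) - K (φ - (m + 1 : ℤ) - ext θ 0) := by
    intro m
    rw [Occ_tele_fin (fun j => K (φ - m - ext θ j)), Occ_ext_last, Occ_ext_zero]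
    congr 2
    push_cast
    ring
  simp only [h1]
  rw [Occ_tele_int (fun m : ℤ => K (φ - m - ext θ 0)), Occ_lo hK hr le_rfl,
    Occ_hi hK hr (by omega), sub_zero]

theorem Occ_coef_nonneg (hK : Step K) {θ : V (n + 1)} (hθ : θ ∈ cell n) (t : ℝ) (i : Fin (n + 1)) :
    0 ≤ K (t - ext θ i.castSucc) - K (t - ext θ i.succ) :=
  sub_nonneg.2 (hK.mono (sub_le_sub_left (hθ i.castSucc_le_succ) t))

theorem Occ_ext_face (p : Fin (n + 2)) (θ : V (n + 1)) (j : Fin (n + 3)) :
    ext (faceθ p θ) j = ext θ (p.predAbove j) := by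
  refine Fin.lastCases ?_ (fun i => ?_) j
  · rw [Occ_ext_last, Fin.predAbove_right_last, Occ_ext_last, faceθ, Fin.castSucc_zero,
      Fin.predAbove_right_zero, Occ_ext_zero]
  · rw [Occ_ext_castSucc, faceθ]

theorem Occ_one_of_sum {ι : Type} (s : Finset ι) (a : ι → ℝ) (h : ∀ i ∈ s, a i = 0 ∨ a i = 1)
    (hs : ∑ i ∈ s, a i = 1) : ∃ j ∈ s, a j = 1 ∧ ∀ k ∈ s, k ≠ j → a k = 0 := by
  classical
  obtain ⟨j, hj, hj0⟩ := Finset.exists_ne_zero_of_sum_ne_zero (hs ▸ one_ne_zero)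
  have hj1 := (h j hj).resolve_left hj0
  refine ⟨j, hj, hj1, fun k hk hkj => ?_⟩
  rw [← Finset.add_sum_erase s a hj, hj1, add_eq_left] at hs
  refine (Finset.sum_eq_zero_iff_of_nonneg fun i hi => ?_).1 hs k (Finset.mem_erase.2 ⟨hkj, hk⟩)
  rcases h i (Finset.mem_of_mem_erase hi) with h0 | h0 <;> rw [h0] <;> norm_num

theorem occ_eq_sum (hK : Step K) (c : G) (x : Fin (n + 1) → G) (θ : V (n + 1)) (φ : ℝ) (r : ℕ)
    (hr : ‖θ‖ + |φ| + 2 ≤ r) : occ K c x θ φ = ∑ m ∈ Finset.Icc (-r : ℤ) r, ∑ i : Fin (n + 1),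
      Finsupp.single (c ^ m * x i)
        (K (φ - m - ext θ i.castSucc) - K (φ - m - ext θ i.succ)) := by
  refine finsum_eq_sum_of_support_subset _ fun m hm => ?_
  by_contra h
  exact hm (by simp only [Occ_out hK hK hr h, Finsupp.single_zero, Finset.sum_const_zero])

theorem occ_add_one (hK : Step K) (c : G) (x : Fin (n + 1) → G) (θ : V (n + 1)) (φ : ℝ) :
    occ K c x θ (φ + 1) = tr c (occ K c x θ φ) := by
  rw [Occ_tr_occ hK, occ, ← finsum_comp_equiv (Equiv.addRight (1 : ℤ))]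
  refine finsum_congr fun m => Finset.sum_congr rfl fun i _ => ?_
  simp only [Equiv.coe_addRight, Int.cast_add, Int.cast_one, add_sub_add_right_eq_sub]
  rw [add_comm, _root_.zpow_one_add, mul_assoc]

theorem occ_rot (c : G) (x : Fin (n + 1) → G) (θ : V (n + 1)) (φ t : ℝ) :
    occ K c x (fun i => θ i + t) (φ + t) = occ K c x θ φ := by
  have h : ∀ j, ext (fun i => θ i + t) j = ext θ j + t := fun j => by
    refine Fin.lastCases ?_ (fun i => ?_) j
    · rw [Occ_ext_last, Occ_ext_last]; ring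
    · rw [Occ_ext_castSucc, Occ_ext_castSucc]
  have h2 : ∀ a b : ℝ, φ + t - a - (b + t) = φ - a - b := fun a b => by ring
  simp only [occ, h, h2]

theorem occ_conj (hK : Step K) (c h : G) (x : Fin (n + 1) → G) (θ : V (n + 1)) (φ : ℝ) :
    occ K (h * c * h⁻¹) (fun i => h * x i) θ φ = tr h (occ K c x θ φ) := by
  rw [Occ_tr_occ hK, occ]
  refine finsum_congr fun m => Finset.sum_congr rfl fun i _ => ?_
  rw [conj_zpow]
  congr 1
  group

theorem occ_face (c : G) (x : Fin (n + 2) → G) (p : Fin (n + 2)) (θ : V (n + 1)) (φ : ℝ) :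
    occ K c x (faceθ p θ) φ = occ K c (fun i => x (p.succAbove i)) θ φ := by
  refine finsum_congr fun m => ?_
  rw [Fin.sum_univ_succAbove _ p]
  simp only [Occ_ext_face]
  rw [Fin.predAbove_castSucc_self, Fin.predAbove_succ_self, sub_self, Finsupp.single_zero, zero_add]
  refine Finset.sum_congr rfl fun i _ => ?_
  have hv : ∀ j : Fin (n + 3), ((p.predAbove j : Fin (n + 2)) : ℕ) =
      if (p : ℕ) < j then (j : ℕ) - 1 else j := fun j => by
    unfold Fin.predAbove
    by_cases hj : p.castSucc < j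
    · rw [dif_pos hj, if_pos (by simpa [Fin.lt_def] using hj)]; simp
    · rw [dif_neg hj, if_neg (by simpa [Fin.lt_def] using hj)]; simp
  have hs : ((p.succAbove i : Fin (n + 2)) : ℕ) = if (i : ℕ) < p then (i : ℕ) else i + 1 := by
    unfold Fin.succAbove
    by_cases hj : i.castSucc < p
    · rw [if_pos hj, if_pos (by simpa [Fin.lt_def] using hj)]; simp
    · rw [if_neg hj, if_neg (by simpa [Fin.lt_def] using hj)]; simp
  have h1 : p.predAbove (p.succAbove i).castSucc = i.castSucc := by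
    ext
    rw [hv, Fin.val_castSucc, Fin.val_castSucc, hs]
    split_ifs <;> omega
  have h2 : p.predAbove (p.succAbove i).succ = i.succ := by
    ext
    rw [hv, Fin.val_succ, Fin.val_succ, hs]
    split_ifs <;> omega
  rw [h1, h2]

theorem occ_cyc (hK : Step K) (c : G) (x : Fin (n + 1) → G) (θ : V (n + 1)) (φ : ℝ) :
    occ K c (rotx c x) (rotθ θ) φ = occ K c x θ φ := by
  have hx1 : ∀ j : Fin n, rotx c x j.castSucc = x j.succ := fun j => by
    rw [rotx, Fin.succ_castSucc, Fin.snoc_castSucc]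
  have hx2 : rotx c x (Fin.last n) = c * x 0 := by
    rw [rotx, Fin.succ_last, Fin.snoc_last]
  have h1 : ∀ i : Fin (n + 1), ext (rotθ θ) i.castSucc = ext θ i.succ := fun i => by
    rw [Occ_ext_castSucc, rotθ]
  have h2 : ext (rotθ θ) (Fin.last n).succ = ext θ (0 : Fin (n + 1)).succ + 1 := by
    rw [Fin.succ_last, Occ_ext_last, rotθ]
  have h3 : ext θ (Fin.last n).succ = ext θ (0 : Fin (n + 1)).castSucc + 1 := by
    rw [Fin.succ_last, Occ_ext_last, Occ_ext_castSucc]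
  rw [occ, occ, finsum_sum_comm _ _ fun i _ => Occ_fin1 hK _ _ _ _ _,
    finsum_sum_comm _ _ fun i _ => Occ_fin1 hK _ _ _ _ _, Fin.sum_univ_castSucc,
    Fin.sum_univ_succ, add_comm]
  congr 1
  · rw [← finsum_comp_equiv (Equiv.addRight (1 : ℤ)) (f := fun m : ℤ => Finsupp.single (c ^ m * x 0)
      (K (φ - m - ext θ (0 : Fin (n + 1)).castSucc) - K (φ - m - ext θ (0 : Fin (n + 1)).succ)))]
    refine finsum_congr fun m => ?_
    rw [hx2, h1, h2, h3]
    simp only [Equiv.coe_addRight, Int.cast_add, Int.cast_one]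
    rw [_root_.zpow_add_one, mul_assoc]
    congr 3 <;> ring
  · refine Finset.sum_congr rfl fun j _ => finsum_congr fun m => ?_
    rw [hx1, h1, Fin.succ_castSucc, h1]

theorem mass_occ (hK : Step K) (c : G) (x : Fin (n + 1) → G) (θ : V (n + 1)) (φ : ℝ) :
    mass (occ K c x θ φ) = 1 := by
  obtain ⟨r, hr⟩ := Occ_exists_r θ φ
  rw [occ_eq_sum hK c x θ φ r hr]
  simp only [mass, pr, map_sum, Finsupp.linearCombination_single, smul_eq_mul, mul_one]
  exact Occ_total hK hr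

theorem isProb_occ (hK : Step K) (c : G) (x : Fin (n + 1) → G) {θ : V (n + 1)} (hθ : θ ∈ cell n)
    (φ : ℝ) : IsProb (occ K c x θ φ) := by
  classical
  refine ⟨fun g => ?_, mass_occ hK c x θ φ⟩
  obtain ⟨r, hr⟩ := Occ_exists_r θ φ
  rw [occ_eq_sum hK c x θ φ r hr, Finsupp.finsetSum_apply]
  refine Finset.sum_nonneg fun m _ => ?_
  rw [Finsupp.finsetSum_apply]
  refine Finset.sum_nonneg fun i _ => ?_
  rw [Finsupp.single_apply]
  split_ifs
  · exact Occ_coef_nonneg hK hθ _ i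
  · exact le_rfl

theorem occ_support (hK : Step K) (c : G) (x : Fin (n + 1) → G) (r : ℝ) :
    ∃ X : Finset G, ∀ θ φ, ‖θ‖ ≤ r → |φ| ≤ r → (occ K c x θ φ).support ⊆ X := by
  classical
  obtain ⟨R, hR⟩ := exists_nat_ge (2 * r + 2)
  refine ⟨(Finset.Icc (-R : ℤ) R).biUnion fun m => Finset.univ.image fun i => c ^ m * x i,
    fun θ φ h1 h2 => ?_⟩
  rw [occ_eq_sum hK c x θ φ R (by linarith)]
  refine Finsupp.support_finsetSum.trans (Finset.biUnion_mono fun m _ => ?_)
  refine Finsupp.support_finsetSum.trans (Finset.biUnion_subset.2 fun i _ => ?_)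
  exact Finsupp.support_single_subset.trans
    (Finset.singleton_subset_iff.2 (Finset.mem_image_of_mem _ (Finset.mem_univ i)))

theorem occ_two_mul {δ0 δ : ℝ} (h0 : 0 < δ0) (h : 0 < δ) (h1 : 2 * δ + δ0 ≤ 1) (c : G)
    (x : Fin (n + 1) → G) (θ : V (n + 1)) (φ : ℝ) :
    occ (kerK δ0 (2 * δ)) c x θ (φ + δ) =
      (1 / 2 : ℝ) • occ (kerK δ0 δ) c x θ φ + (1 / 2 : ℝ) • occ (kerK δ0 δ) c x θ (φ + δ) := by
  obtain ⟨r, hr⟩ := exists_nat_ge (‖θ‖ + |φ| + |φ + δ| + 2)
  have s1 := kerK_step h0 h (by linarith)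
  have s2 := kerK_step h0 (by linarith : 0 < 2 * δ) h1
  rw [occ_eq_sum s2 c x θ _ r (by linarith [abs_nonneg φ]),
    occ_eq_sum s1 c x θ φ r (by linarith [abs_nonneg (φ + δ)]),
    occ_eq_sum s1 c x θ (φ + δ) r (by linarith [abs_nonneg φ])]
  simp only [Finset.smul_sum, ← Finset.sum_add_distrib, Finsupp.smul_single, ← Finsupp.single_add]
  refine Finset.sum_congr rfl fun m _ => Finset.sum_congr rfl fun i _ => ?_
  have e : ∀ a : ℝ, φ + δ - m - a - δ = φ - m - a := fun a => by ring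
  rw [kerK_two_mul, kerK_two_mul, e, e]
  congr 1
  simp only [smul_eq_mul]
  ring

theorem occ_heav (c : G) (x : Fin (n + 1) → G) {θ : V (n + 1)} (hθ : θ ∈ cell n) (φ : ℝ) :
    ∃ z, occ heav c x θ φ = Finsupp.single z 1 := by
  obtain ⟨r, hr⟩ := Occ_exists_r θ φ
  have ht := Occ_total heav_step hr
  rw [← Finset.sum_product'] at ht
  obtain ⟨j, hj, hj1, hj0⟩ := Occ_one_of_sum _ _ (fun p _ => by
    have := Occ_coef_nonneg heav_step hθ (φ - p.1) p.2
    unfold heav at this ⊢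
    split_ifs at this ⊢ <;> first | (norm_num; done) | norm_num at this) ht
  refine ⟨c ^ j.1 * x j.2, ?_⟩
  rw [occ_eq_sum heav_step c x θ φ r hr, ← Finset.sum_product',
    Finset.sum_eq_single_of_mem j hj fun k hk hkj => by rw [hj0 k hk hkj, Finsupp.single_zero], hj1]

/-- Abel summation: an array `a m i` (the weight of the jump at `θ i + m`) with finite support -/
theorem norm_abel_le {E : Type} [NormedAddCommGroup E] [NormedSpace ℝ E] (ℓ : Len G) (ξ : G → E)
    (hξ : ∀ a b, ‖ξ a - ξ b‖ ≤ ℓ.len (a⁻¹ * b)) (c : G) (x : Fin (n + 1) → G) (r : ℕ)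
    (a : ℤ → Fin (n + 2) → ℝ) (hl : ∀ m, a m (Fin.last _) = a (m + 1) 0)
    (h0 : a (-r) 0 = 0) (h1 : a (r + 1) 0 = 0) :
    ‖∑ m ∈ Finset.Icc (-r : ℤ) r, ∑ i : Fin (n + 1),
        (a m i.castSucc - a m i.succ) • ξ (c ^ m * x i)‖ ≤
      ∑ i : Fin (n + 1), slen ℓ c x i * ∑ m ∈ Finset.Icc (-r : ℤ) r, |a m i.castSucc| := by
  have key : ∀ m : ℤ, ∑ i : Fin (n + 1), (a m i.castSucc - a m i.succ) • ξ (c ^ m * x i) =
      ∑ i : Fin (n + 1), a m i.castSucc • (ξ (c ^ m * x i) - ξ (c ^ m * prev c x i)) +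
        (a m 0 • ξ (c ^ m * (c⁻¹ * x (Fin.last n))) -
          a (m + 1) 0 • ξ (c ^ (m + 1) * (c⁻¹ * x (Fin.last n)))) := by
    intro m
    have h := Occ_tele_fin fun j : Fin (n + 2) =>
      a m j • ξ (c ^ m * (Fin.cons (c⁻¹ * x (Fin.last n)) x : Fin (n + 2) → G) j)
    rw [← Fin.succ_last] at h
    simp only [Fin.cons_succ, Fin.cons_zero] at h
    rw [Fin.succ_last, hl m] at h
    rw [_root_.zpow_add_one, mul_assoc, mul_inv_cancel_left, ← h, ← Finset.sum_add_distrib]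
    refine Finset.sum_congr rfl fun i _ => ?_
    rw [sub_smul, smul_sub, prev]
    abel
  simp only [key]
  rw [Finset.sum_add_distrib,
    Occ_tele_int fun m => a m 0 • ξ (c ^ m * (c⁻¹ * x (Fin.last n))), h0, h1, zero_smul, zero_smul,
    sub_self, add_zero, Finset.sum_comm]
  refine (norm_sum_le _ _).trans (Finset.sum_le_sum fun i _ => ?_)
  rw [Finset.mul_sum]
  refine (norm_sum_le _ _).trans (Finset.sum_le_sum fun m _ => ?_)
  rw [norm_smul, Real.norm_eq_abs, mul_comm, norm_sub_rev]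
  refine mul_le_mul_of_nonneg_right ((hξ _ _).trans (le_of_eq ?_)) (abs_nonneg _)
  rw [slen]
  congr 2
  group

theorem norm_pr_occ_sub_le {E : Type} [NormedAddCommGroup E] [NormedSpace ℝ E] (ℓ : Len G)
    (ξ : G → E) (hξ : ∀ a b, ‖ξ a - ξ b‖ ≤ ℓ.len (a⁻¹ * b)) {K' : ℝ → ℝ} (hK : Step K)
    (hK' : Step K') (c : G) (x : Fin (n + 1) → G) (θ : V (n + 1)) (φ : ℝ) :
    ‖pr ξ (occ K c x θ φ) - pr ξ (occ K' c x θ φ)‖ ≤
      ∑ i, slen ℓ c x i * per (fun t => K t - K' t) (φ - θ i) := by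
  obtain ⟨r, hr⟩ := Occ_exists_r θ φ
  have h := norm_abel_le ℓ ξ hξ c x r (fun m j => K (φ - m - ext θ j) - K' (φ - m - ext θ j))
    (fun m => by
      have : φ - m - ext θ (Fin.last _) = φ - (m + 1 : ℤ) - ext θ 0 := by
        rw [Occ_ext_last, Occ_ext_zero]; push_cast; ring
      simp only [this])
    (by rw [Occ_lo hK hr le_rfl, Occ_lo hK' hr le_rfl, sub_self])
    (by rw [Occ_hi hK hr (by omega), Occ_hi hK' hr (by omega), sub_self])
  rw [occ_eq_sum hK c x θ φ r hr, occ_eq_sum hK' c x θ φ r hr]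
  simp only [pr, map_sum, Finsupp.linearCombination_single, ← Finset.sum_sub_distrib, ← sub_smul]
  convert h using 3 with m _ i _
  · refine Finset.sum_congr rfl fun i _ => ?_
    congr 1
    ring
  · have e : ∀ m : ℤ, φ - θ i - m = φ - m - ext θ i.castSucc := fun m => by
      rw [Occ_ext_castSucc]; ring
    simp only [per, e]
    refine finsum_eq_sum_of_support_subset _ fun m hm => ?_
    by_contra h'
    exact hm (by simp only [Occ_out hK hK' hr h', abs_zero])

theorem IsProb.norm_pr_le {E : Type} [NormedAddCommGroup E] [NormedSpace ℝ E] {μ : G →₀ ℝ}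
    (hμ : IsProb μ) (ξ : G → E) {B : ℝ} (hξ : ∀ a, ‖ξ a‖ ≤ B) : ‖pr ξ μ‖ ≤ B := by
  have h := hμ.2
  simp only [mass, pr, Finsupp.linearCombination_apply, Finsupp.sum, smul_eq_mul, mul_one] at h ⊢
  calc _ ≤ ∑ a ∈ μ.support, μ a * B := (norm_sum_le _ _).trans (Finset.sum_le_sum fun a _ => by
        rw [norm_smul, Real.norm_of_nonneg (hμ.1 a)]
        exact mul_le_mul_of_nonneg_left (hξ a) (hμ.1 a))
    _ = B := by rw [← Finset.sum_mul, h, one_mul]

theorem IsProb.tr {μ : G →₀ ℝ} (hμ : IsProb μ) (h : G) : IsProb (tr h μ) := by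
  refine ⟨fun g => ?_, ?_⟩
  · have := Finsupp.mapDomain_apply (mul_right_injective h) μ (h⁻¹ * g)
    rw [mul_inv_cancel_left] at this
    exact this ▸ hμ.1 _
  · rw [mass, pr, R192.tr, Finsupp.linearCombination_mapDomain]
    exact hμ.2

theorem IsProb.convex {μ μ' : G →₀ ℝ} (hμ : IsProb μ) (hμ' : IsProb μ') {t : ℝ} (h0 : 0 ≤ t)
    (h1 : t ≤ 1) : IsProb ((1 - t) • μ + t • μ') := by
  refine ⟨fun g => ?_, ?_⟩
  · rw [Finsupp.add_apply, Finsupp.smul_apply, Finsupp.smul_apply, smul_eq_mul, smul_eq_mul]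
    exact add_nonneg (mul_nonneg (by linarith) (hμ.1 g)) (mul_nonneg h0 (hμ'.1 g))
  · have e1 := hμ.2
    have e2 := hμ'.2
    simp only [mass, pr] at e1 e2 ⊢
    rw [map_add, map_smul, map_smul, e1, e2, smul_eq_mul, smul_eq_mul]
    ring


end Crest.Agent.R192
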