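import Crest.Agent.PVc.R192.Defs
import Crest.Agent.PVc.R192.Net
import Crest.Agent.PVc.R192.Occ

-- ▼ part PVc/R192/Char
section

/-! Row 192: characters of a cyclic group that are close to `1` on a small Bohr-type set. -/

set_option autoImplicit false

namespace Crest.Agent.R192

open Crest.AlgebraR.L1 MeasureTheory Matrix
open scoped ContDiff BoundedContinuousFunction

/-- `e(t) = exp (2 π i t)` -/
noncomputable def ee (t : ℝ) : ℂ := Complex.exp (2 * Real.pi * t * Complex.I)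

theorem ee_add (s t : ℝ) : ee (s + t) = ee s * ee t := by
  rw [ee, ee, ee, ← Complex.exp_add]
  congr 1; push_cast; ring

theorem norm_ee (t : ℝ) : ‖ee t‖ = 1 := by
  have := Complex.norm_exp_ofReal_mul_I (2 * Real.pi * t)
  rw [ee, ← this]
  congr 2; push_cast; ring

theorem ee_int (k : ℤ) : ee k = 1 := by
  rw [ee, ← Complex.exp_int_mul_two_pi_mul_I k]
  congr 1; push_cast; ring

theorem Char.ee_eq (t : ℝ) : ee t = Complex.exp (Complex.I * ((2 * Real.pi * t : ℝ) : ℂ)) := by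
  rw [ee]; congr 1; push_cast; ring

theorem Char.norm_ee_sub_le (t : ℝ) : ‖ee t - 1‖ ≤ 2 * Real.pi * |t| := by
  rw [Char.ee_eq]
  refine Real.norm_exp_I_mul_ofReal_sub_one_le.trans ?_
  rw [Real.norm_eq_abs, abs_mul, abs_of_pos (by positivity)]

theorem Char.le_norm_half {t : ℝ} (h0 : 0 ≤ t) (h1 : t ≤ 1 / 2) : 4 * t ≤ ‖1 - ee t‖ := by
  rw [norm_sub_rev, Char.ee_eq, Complex.norm_exp_I_mul_ofReal_sub_one, Real.norm_eq_abs]
  have hp := Real.pi_pos
  have h2 := Real.mul_le_sin (x := 2 * Real.pi * t / 2) (by positivity) (by nlinarith)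
  have h3 : 2 / Real.pi * (2 * Real.pi * t / 2) = 2 * t := by field_simp
  have h4 := le_abs_self (2 * Real.sin (2 * Real.pi * t / 2))
  linarith

theorem Char.le_norm {δ t : ℝ} (hδ : 0 ≤ δ) (h0 : δ ≤ t) (h1 : t ≤ 1 - δ) :
    4 * δ ≤ ‖1 - ee t‖ := by
  by_cases h : t ≤ 1 / 2
  · have := Char.le_norm_half (hδ.trans h0) h
    linarith
  · have h2 := Char.le_norm_half (t := 1 - t) (by linarith) (by linarith)
    have h3 : ee (1 - t) * ee t = 1 := by
      rw [← ee_add, sub_add_cancel]; simpa using ee_int 1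
    have h4 : ‖1 - ee (1 - t)‖ = ‖1 - ee t‖ := by
      have := norm_mul (1 - ee (1 - t)) (ee t)
      rw [norm_ee, mul_one, sub_mul, h3, one_mul, norm_sub_rev] at this
      exact this.symm
    linarith

/-- a small set of exponents spans the Bohr-type set with coefficients `0, ±1` -/
theorem Char.exists_span {G : Type} [Group G] (ℓ : Len G) (c : G) (ϱ : G → ℝ) (h : ℝ) (hh : 0 < h)
    (r b : ℕ) (hb : ℓ.D * r < b) (ϱ_one : ϱ 1 = 0)
    (ϱ_mul : ∀ g g', ϱ (g * g') ≤ ϱ g + ϱ g') (hF : ∀ g, ϱ g < h → ℓ.len g ≤ r) :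
    ∃ Λ : Finset ℤ, Λ.card ≤ b ∧ ∀ m : ℤ, b * ϱ (c ^ m) < h →
      ∃ ε : ℤ → ℤ, (∀ x, |ε x| ≤ 1) ∧ c ^ m = c ^ (∑ x ∈ Λ, ε x * x) := by
  classical
  let P : Finset ℤ → Prop := fun Λ => (∀ m ∈ Λ, b * ϱ (c ^ m) < h) ∧
    ∀ S ⊆ Λ, ∀ T ⊆ Λ, c ^ (∑ x ∈ S, x) = c ^ (∑ x ∈ T, x) → S = T
  have hb0 : (0 : ℝ) < b := by exact_mod_cast (Nat.zero_le _).trans_lt hb
  have hsum : ∀ S : Finset ℤ, ϱ (c ^ (∑ x ∈ S, x)) ≤ ∑ x ∈ S, ϱ (c ^ x) := by
    intro S
    induction S using Finset.induction_on with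
    | empty => simp [ϱ_one]
    | insert a S ha ih =>
      rw [Finset.sum_insert ha, Finset.sum_insert ha, _root_.zpow_add]
      linarith [ϱ_mul (c ^ a) (c ^ (∑ x ∈ S, x))]
  have hcard : ∀ Λ, P Λ → Λ.card < b := by
    intro Λ hΛ
    by_contra hc
    obtain ⟨Λ', h1, h2⟩ := Finset.exists_subset_card_eq (not_lt.1 hc)
    have h3 : Λ'.powerset.card ≤ (ℓ.ball r).card := by
      refine Finset.card_le_card_of_injOn (fun S => c ^ (∑ x ∈ S, x)) (fun S hS => ?_)
        fun S hS T hT e => hΛ.2 S ((Finset.mem_powerset.1 hS).trans h1) T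
          ((Finset.mem_powerset.1 hT).trans h1) e
      have hS' := Finset.mem_powerset.1 (Finset.mem_coe.1 hS)
      refine Finset.mem_coe.2 ((ℓ.mem_ball _ _).2 (hF _ ((hsum S).trans_lt ?_)))
      rcases S.eq_empty_or_nonempty with rfl | hne
      · simpa using hh
      have a1 : ∑ x ∈ S, b * ϱ (c ^ x) < ∑ x ∈ S, h :=
        Finset.sum_lt_sum_of_nonempty hne fun x hx => hΛ.1 x (h1 (hS' hx))
      have a2 : (S.card : ℝ) ≤ b := by exact_mod_cast h2 ▸ Finset.card_le_card hS'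
      rw [← Finset.mul_sum, Finset.sum_const, nsmul_eq_mul] at a1
      exact lt_of_mul_lt_mul_left (a1.trans_le (by gcongr)) hb0.le
    rw [Finset.card_powerset, h2] at h3
    exact absurd (h3.trans (ℓ.card_ball r)) (not_le.2 (Nat.pow_lt_pow_right (by norm_num) hb))
  obtain ⟨n, ⟨Λ, hΛ, rfl⟩, hmax⟩ := Int.exists_greatest_of_bdd
    (P := fun n => ∃ Λ, P Λ ∧ n = (Λ.card : ℤ))
    ⟨b, by rintro _ ⟨Λ, h1, rfl⟩; exact_mod_cast (hcard Λ h1).le⟩
    ⟨_, ∅, ⟨by simp, by simp⟩, rfl⟩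
  refine ⟨Λ, (hcard Λ hΛ).le, fun m hm => ?_⟩
  have key : ∃ S ⊆ Λ, ∃ T ⊆ Λ, c ^ m = c ^ (∑ x ∈ S, x - ∑ x ∈ T, x) := by
    by_cases hmΛ : m ∈ Λ
    · exact ⟨{m}, by simpa using hmΛ, ∅, by simp, by simp⟩
    have h1 : ¬ P (insert m Λ) := fun hP => by
      have := hmax _ ⟨_, hP, rfl⟩
      rw [Finset.card_insert_of_notMem hmΛ] at this
      omega
    have h2 : ∃ S ⊆ insert m Λ, ∃ T ⊆ insert m Λ,
        c ^ (∑ x ∈ S, x) = c ^ (∑ x ∈ T, x) ∧ S ≠ T := by
      by_contra hc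
      push Not at hc
      refine h1 ⟨fun x hx => ?_, hc⟩
      rcases Finset.mem_insert.1 hx with rfl | hx
      · exact hm
      · exact hΛ.1 x hx
    obtain ⟨S, hS, T, hT, e, hne⟩ := h2
    have aux : ∀ S T : Finset ℤ, S ⊆ insert m Λ → T ⊆ insert m Λ → m ∈ S → m ∉ T →
        c ^ (∑ x ∈ S, x) = c ^ (∑ x ∈ T, x) →
        ∃ S ⊆ Λ, ∃ T ⊆ Λ, c ^ m = c ^ (∑ x ∈ S, x - ∑ x ∈ T, x) := by
      intro S T hS hT a1 a2 e
      refine ⟨T, (Finset.subset_insert_iff_of_notMem a2).1 hT, S.erase m,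
        Finset.subset_insert_iff.1 hS, ?_⟩
      rw [_root_.zpow_sub, ← e, ← _root_.zpow_sub, ← Finset.add_sum_erase S _ a1, add_sub_cancel_right]
    by_cases a1 : m ∈ S <;> by_cases a2 : m ∈ T
    · exfalso
      rw [← Finset.add_sum_erase S _ a1, ← Finset.add_sum_erase T _ a2, _root_.zpow_add, _root_.zpow_add,
        mul_right_inj] at e
      have := hΛ.2 _ (Finset.subset_insert_iff.1 hS) _ (Finset.subset_insert_iff.1 hT) e
      exact hne (by rw [← Finset.insert_erase a1, this, Finset.insert_erase a2])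
    · exact aux S T hS hT a1 a2 e
    · exact aux T S hT hS a2 a1 e.symm
    · exact absurd (hΛ.2 _ ((Finset.subset_insert_iff_of_notMem a1).1 hS) _
        ((Finset.subset_insert_iff_of_notMem a2).1 hT) e) hne
  obtain ⟨S, hS, T, hT, e⟩ := key
  refine ⟨fun x => (if x ∈ S then 1 else 0) - if x ∈ T then 1 else 0, fun x => ?_, ?_⟩
  · beta_reduce
    split_ifs <;> simp
  · rw [e]
    simp only [sub_mul, ite_mul, one_mul, zero_mul, Finset.sum_sub_distrib, Finset.sum_ite_mem,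
      Finset.inter_eq_right.2 hS, Finset.inter_eq_right.2 hT]

/-- simultaneous approximation -/
theorem Char.exists_approx (Λ : Finset ℤ) (q : ℝ) (n M : ℕ) (hn : 0 < n) (hM : n ^ Λ.card < M) :
    ∃ d : ℕ, 0 < d ∧ d < M ∧ ∀ x ∈ Λ, ∃ k : ℤ, |d * q * x - k| ≤ 1 / n := by
  classical
  have hn' : (0 : ℝ) < n := by exact_mod_cast hn
  let f : ℕ → (Λ → ℕ) := fun j x => ⌊n * Int.fract (j * q * (x : ℤ))⌋₊
  have hlt : ∀ j x, f j x < n := fun j x => by
    refine (Nat.floor_lt (mul_nonneg hn'.le (Int.fract_nonneg _))).2 ?_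
    have := Int.fract_lt_one (j * q * (x : ℤ))
    nlinarith
  obtain ⟨j, hj, j', hj', hne, e⟩ := Finset.exists_ne_map_eq_of_card_lt_of_maps_to
    (s := Finset.range M) (t := Fintype.piFinset fun _ : Λ => Finset.range n) (f := f)
    (by simpa using hM) fun j _ => by simpa using hlt j
  have aux : ∀ j j' : ℕ, j' < j → j < M → f j = f j' →
      ∃ d : ℕ, 0 < d ∧ d < M ∧ ∀ x ∈ Λ, ∃ k : ℤ, |d * q * x - k| ≤ 1 / n := by
    intro j j' h1 h2 e
    refine ⟨j - j', by omega, by omega, fun x hx => ⟨⌊j * q * x⌋ - ⌊j' * q * x⌋, ?_⟩⟩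
    have e1 : ⌊n * Int.fract (j * q * x)⌋₊ = ⌊n * Int.fract (j' * q * x)⌋₊ := congrFun e ⟨x, hx⟩
    have a1 := Nat.floor_le (mul_nonneg hn'.le (Int.fract_nonneg (j * q * x)))
    have a2 := Nat.lt_floor_add_one (n * Int.fract (j * q * x))
    have a3 := Nat.floor_le (mul_nonneg hn'.le (Int.fract_nonneg (j' * q * x)))
    have a4 := Nat.lt_floor_add_one (n * Int.fract (j' * q * x))
    rw [e1] at a1 a2
    have e2 : ((j - j' : ℕ) : ℝ) * q * x - ((⌊j * q * x⌋ - ⌊j' * q * x⌋ : ℤ) : ℝ) =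
        Int.fract (j * q * x) - Int.fract (j' * q * x) := by
      rw [Nat.cast_sub h1.le, Int.fract, Int.fract]; push_cast; ring
    rw [e2, le_div_iff₀ hn', ← abs_of_pos hn', ← abs_mul, abs_le]
    constructor <;> nlinarith
  rcases lt_or_gt_of_ne hne with h | h
  · exact aux j' j h (Finset.mem_range.1 hj') e.symm
  · exact aux j j' h (Finset.mem_range.1 hj) e

/-- a short cyclic group with a long generator: the short elements lie in a proper subgroup -/
theorem Char.exists_dvd {G : Type} [Group G] (ℓ : Len G) (c : G) (r : ℕ) (hN : 0 < orderOf c)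
    (hc : r * orderOf c < ℓ.len c) :
    ∃ d : ℕ, 2 ≤ d ∧ d ≤ orderOf c ∧ ∀ m : ℤ, ℓ.len (c ^ m) ≤ r → (d : ℤ) ∣ m := by
  classical
  have hgap : ∃ k < orderOf c, ∀ m : ℤ, ℓ.len (c ^ m) ≤ r * (k + 1) → ℓ.len (c ^ m) ≤ r * k := by
    by_contra hcon
    push Not at hcon
    choose! g hg1 hg2 using hcon
    have hN' : (orderOf c : ℤ) ≠ 0 := by omega
    have e : ∀ k, c ^ (g k % orderOf c).toNat = c ^ g k := fun k => by
      rw [← zpow_natCast, Int.toNat_of_nonneg (Int.emod_nonneg _ hN'), zpow_mod_orderOf]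
    have h1 : (Finset.range (orderOf c)).card ≤ ((Finset.range (orderOf c)).erase 0).card := by
      refine Finset.card_le_card_of_injOn (fun k => (g k % orderOf c).toNat) (fun k hk => ?_)
        fun k hk k' hk' h => ?_
      · have hk' := Finset.mem_range.1 (Finset.mem_coe.1 hk)
        have a1 := Int.emod_lt_of_pos (g k) (show (0 : ℤ) < orderOf c by omega)
        beta_reduce
        refine Finset.mem_coe.2 (Finset.mem_erase.2 ⟨fun h0 => ?_, Finset.mem_range.2 (by omega)⟩)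
        have a2 := hg2 k hk'
        rw [← e, h0, pow_zero, ℓ.len_one] at a2
        omega
      · have a1 := hg1 k (Finset.mem_range.1 (Finset.mem_coe.1 hk))
        have a2 := hg2 k (Finset.mem_range.1 (Finset.mem_coe.1 hk))
        have a3 := hg1 k' (Finset.mem_range.1 (Finset.mem_coe.1 hk'))
        have a4 := hg2 k' (Finset.mem_range.1 (Finset.mem_coe.1 hk'))
        have a5 : c ^ g k = c ^ g k' := by rw [← e, ← e]; exact congrArg (c ^ ·) h
        rw [a5] at a1 a2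
        have b1 := Nat.lt_of_mul_lt_mul_left (a2.trans_le a3)
        have b2 := Nat.lt_of_mul_lt_mul_left (a4.trans_le a1)
        omega
    rw [Finset.card_erase_of_mem (Finset.mem_range.2 hN), Finset.card_range] at h1
    omega
  obtain ⟨k, hk, hgap⟩ := hgap
  let H : AddSubgroup ℤ :=
    { carrier := {m | ∀ x : ℤ, ℓ.len (c ^ x) ≤ r * k ↔ ℓ.len (c ^ (x + m)) ≤ r * k}
      add_mem' := fun {a b} ha hb x => by rw [← add_assoc, ← hb, ← ha]
      zero_mem' := fun x => by rw [add_zero]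
      neg_mem' := fun {a} ha x => by rw [ha (x + -a), neg_add_cancel_right] }
  have hH : ∀ m : ℤ, ℓ.len (c ^ m) ≤ r → m ∈ H := by
    intro m hm x
    constructor
    · intro hx
      refine hgap _ ?_
      have := ℓ.len_mul (c ^ x) (c ^ m)
      rw [_root_.zpow_add, mul_add]; omega
    · intro hx
      refine hgap _ ?_
      have := ℓ.len_mul (c ^ (x + m)) (c ^ m)⁻¹
      rw [ℓ.len_inv, ← _root_.zpow_sub, add_sub_cancel_right] at this
      rw [mul_add]; omega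
  have h1 : (1 : ℤ) ∉ H := fun h => by
    have := (h 0).1 (by simp [ℓ.len_one])
    rw [zero_add, zpow_one] at this
    have := Nat.mul_le_mul_left r hk.le
    omega
  obtain ⟨a, ha⟩ := Int.subgroup_cyclic H
  have hdvd : ∀ m ∈ H, (a.natAbs : ℤ) ∣ m := by
    intro m hm
    rw [ha, AddSubgroup.mem_closure_singleton] at hm
    obtain ⟨n, rfl⟩ := hm
    exact Int.natAbs_dvd.2 (Dvd.intro_left n rfl)
  have h2 : a.natAbs ∣ orderOf c := by
    have := hdvd (orderOf c) (hH _ (by simp [ℓ.len_one]))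
    exact_mod_cast this
  have h3 : a.natAbs ≠ 1 := fun h => h1 (by
    rw [ha, AddSubgroup.mem_closure_singleton]
    rcases Int.natAbs_eq_iff.1 h with rfl | rfl
    · exact ⟨1, by simp⟩
    · exact ⟨-1, by simp⟩)
  have h4 := Nat.pos_of_dvd_of_pos h2 hN
  exact ⟨a.natAbs, by omega, Nat.le_of_dvd hN h2, fun m hm => hdvd m (hH m hm)⟩

theorem exists_char {G : Type} [Group G] (ℓ : Len G) (c : G) (ϱ : G → ℝ) (h : ℝ) (hh : 0 < h)
    (r b : ℕ) (hb : ℓ.D * r < b) (ϱ_nonneg : ∀ g, 0 ≤ ϱ g) (ϱ_one : ϱ 1 = 0)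
    (ϱ_inv : ∀ g, ϱ g⁻¹ = ϱ g) (ϱ_mul : ∀ g g', ϱ (g * g') ≤ ϱ g + ϱ g')
    (hF : ∀ g, ϱ g < h → ℓ.len g ≤ r)
    (hc : ¬ IsOfFinOrder c ∨ 4 * r * ((13 * b) ^ b + 1) < ℓ.len c) :
    ∃ ϑ : ℝ, (∀ m : ℤ, c ^ m = 1 → ee (ϑ * m) = 1) ∧
      1 / ((13 * (b : ℝ)) ^ b + 1) ≤ ‖1 - ee ϑ‖ ∧
      ∀ m : ℤ, b * ϱ (c ^ m) < h → ‖ee (ϑ * m) - 1‖ ≤ 1 / 2 := by
  have hb0 : 0 < b := (Nat.zero_le _).trans_lt hb
  have hb1 : (1 : ℝ) ≤ b := by exact_mod_cast hb0
  set M : ℕ := (13 * b) ^ b + 1 with hM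
  have hM' : (13 * (b : ℝ)) ^ b + 1 = M := by rw [hM]; push_cast; ring
  have hM0 : (0 : ℝ) < M := by rw [hM]; positivity
  have hM1 : (1 : ℝ) ≤ M := by exact_mod_cast Nat.succ_le_of_lt (by exact_mod_cast hM0)
  have hδ : 1 / (M : ℝ) ≤ 4 * (1 / (2 * M)) := by
    rw [← mul_div_assoc, div_le_div_iff₀ hM0 (by positivity)]; nlinarith
  rw [hM']
  by_cases hN : 0 < orderOf c ∧ orderOf c < M
  · have h1 : r * orderOf c < ℓ.len c := by
      rcases hc with hc | hc
      · exact absurd (orderOf_pos_iff.1 hN.1) hc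
      · refine lt_of_le_of_lt ?_ hc
        exact Nat.mul_le_mul (by omega) hN.2.le
    obtain ⟨d, h2, h3, h4⟩ := Char.exists_dvd ℓ c r hN.1 h1
    have d2 : (2 : ℝ) ≤ d := by exact_mod_cast h2
    have dM : (d : ℝ) ≤ M := by exact_mod_cast h3.trans hN.2.le
    have key : ∀ m : ℤ, ℓ.len (c ^ m) ≤ r → ee (1 / d * m) = 1 := by
      intro m hm
      obtain ⟨k, rfl⟩ := h4 m hm
      rw [← ee_int k]
      congr 1
      push_cast
      field_simp
    refine ⟨1 / d, fun m hm => key m (by rw [hm, ℓ.len_one]; exact Nat.zero_le _),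
      hδ.trans (Char.le_norm (by positivity) ?_ ?_), fun m hm => ?_⟩
    · exact one_div_le_one_div_of_le (by positivity) (by linarith)
    · have a1 : 1 / (d : ℝ) ≤ 1 / 2 := one_div_le_one_div_of_le (by norm_num) d2
      have a2 : 1 / (2 * M : ℝ) ≤ 1 / 2 := one_div_le_one_div_of_le (by norm_num) (by linarith)
      linarith
    · rw [key m (hF _ (by nlinarith [ϱ_nonneg (c ^ m)]))]
      norm_num
  obtain ⟨q, hq1, hq2, hq3⟩ : ∃ q : ℝ, 1 / (2 * M) ≤ q ∧ q ≤ 1 / M ∧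
      ∀ m : ℤ, c ^ m = 1 → ∃ k : ℤ, q * m = k := by
    rcases Nat.eq_zero_or_pos (orderOf c) with h0 | h0
    · refine ⟨1 / M, one_div_le_one_div_of_le hM0 (by linarith), le_rfl, fun m hm => ⟨0, ?_⟩⟩
      have := orderOf_dvd_iff_zpow_eq_one.2 hm
      rw [h0] at this
      simp [zero_dvd_iff.1 this]
    · have h1 : M ≤ orderOf c := not_lt.1 fun h => hN ⟨h0, h⟩
      have hN0 : (0 : ℝ) < orderOf c := by exact_mod_cast h0
      have hMp : 0 < M := Nat.succ_pos _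
      have a1 : orderOf c / M * M ≤ orderOf c := Nat.div_mul_le_self _ _
      have a2 : orderOf c ≤ orderOf c / M * (2 * M) := by
        have b1 := Nat.div_add_mod (orderOf c) M
        have b2 := Nat.mod_lt (orderOf c) hMp
        have b3 : 1 ≤ orderOf c / M := (Nat.one_le_div_iff hMp).2 h1
        nlinarith
      refine ⟨(orderOf c / M : ℕ) / orderOf c, ?_, ?_, fun m hm => ?_⟩
      · rw [div_le_div_iff₀ (by positivity) hN0, one_mul]; exact_mod_cast a2
      · rw [div_le_div_iff₀ hN0 hM0, one_mul]; exact_mod_cast a1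
      · obtain ⟨k, rfl⟩ := orderOf_dvd_iff_zpow_eq_one.2 hm
        refine ⟨(orderOf c / M : ℕ) * k, ?_⟩
        rw [Int.cast_mul, Int.cast_mul, Int.cast_natCast, Int.cast_natCast]
        field_simp
  obtain ⟨Λ, hΛ, hspan⟩ := Char.exists_span ℓ c ϱ h hh r b hb ϱ_one ϱ_mul hF
  obtain ⟨d, d0, dM, hd⟩ := Char.exists_approx Λ q (13 * b) M (by omega)
    (Nat.lt_succ_of_le (Nat.pow_le_pow_right (by omega) hΛ))
  have d1 : (1 : ℝ) ≤ d := by exact_mod_cast d0
  have d2 : (d : ℝ) + 1 ≤ M := by exact_mod_cast dM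
  have hq0 : 0 ≤ q := le_trans (by positivity) hq1
  have hchar : ∀ m : ℤ, c ^ m = 1 → ee (d * q * m) = 1 := by
    intro m hm
    obtain ⟨k, hk⟩ := hq3 m hm
    rw [mul_assoc, hk, ← ee_int (d * k)]
    congr 1; push_cast; ring
  refine ⟨d * q, hchar, hδ.trans (Char.le_norm (by positivity) (by nlinarith) ?_), fun m hm => ?_⟩
  · have a1 : (d : ℝ) * q ≤ (M - 1) * (1 / M) := by gcongr; linarith
    have a2 : ((M : ℝ) - 1) * (1 / M) = 1 - 1 / M := by field_simp
    have a3 : 1 / (2 * M : ℝ) ≤ 1 / M := one_div_le_one_div_of_le hM0 (by linarith)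
    linarith
  · obtain ⟨ε, hε, e⟩ := hspan m hm
    choose! k hk using hd
    have e1 := hchar (m - ∑ x ∈ Λ, ε x * x) (by rw [_root_.zpow_sub, e, mul_inv_cancel])
    have e2 : (d : ℝ) * q * m = d * q * ((m - ∑ x ∈ Λ, ε x * x : ℤ) : ℝ) +
        (((∑ x ∈ Λ, ε x * k x : ℤ) : ℝ) + ∑ x ∈ Λ, (ε x : ℝ) * (d * q * x - k x)) := by
      push_cast
      rw [← Finset.sum_add_distrib, mul_sub, Finset.mul_sum, sub_add, ← Finset.sum_sub_distrib,
        Finset.sum_eq_zero fun x _ => by ring, sub_zero]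
    rw [e2, ee_add, ee_add, e1, ee_int, one_mul, one_mul]
    refine (Char.norm_ee_sub_le _).trans ?_
    have a1 : |∑ x ∈ Λ, (ε x : ℝ) * (d * q * x - k x)| ≤ ∑ x ∈ Λ, 1 / ((13 * b : ℕ) : ℝ) := by
      refine (Finset.abs_sum_le_sum_abs _ _).trans (Finset.sum_le_sum fun x hx => ?_)
      have b1 : |(ε x : ℝ)| ≤ 1 := by exact_mod_cast hε x
      rw [abs_mul]
      exact (mul_le_of_le_one_left (abs_nonneg _) b1).trans (hk x hx)
    have a2 : (Λ.card : ℝ) ≤ b := by exact_mod_cast hΛ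
    have a3 : ∑ x ∈ Λ, 1 / ((13 * b : ℕ) : ℝ) ≤ 1 / 13 := by
      rw [Finset.sum_const, nsmul_eq_mul, mul_one_div, div_le_div_iff₀ (by positivity) (by norm_num)]
      push_cast; linarith
    have a4 := Real.pi_lt_d2
    have a5 := Real.pi_pos
    nlinarith [abs_nonneg (∑ x ∈ Λ, (ε x : ℝ) * (d * q * x - k x))]

end Crest.Agent.R192
end

-- ▼ part PVc/R192/Pareto
section

/-! Row 192: Pareto weights isolate a winner with constant probability. -/

set_option autoImplicit false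

namespace Crest.Agent.R192

open Crest.AlgebraR.L1 MeasureTheory Matrix
open scoped ContDiff BoundedContinuousFunction

/-- Pareto weight -/
noncomputable def pw (Q P : ℕ) (r : Fin Q) : ℝ := ((Q : ℝ) / ((r : ℕ) + 1)) ^ P

theorem one_le_pw (Q P : ℕ) (r : Fin Q) : 1 ≤ pw Q P r := by
  refine one_le_pow₀ ?_
  rw [le_div_iff₀ (by positivity), one_mul]
  exact_mod_cast r.2

theorem pw_le (Q P : ℕ) (r : Fin Q) : pw Q P r ≤ (Q : ℝ) ^ P := by
  refine pow_le_pow_left₀ (by positivity) ?_ P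
  refine div_le_self (by positivity) ?_
  have : (0 : ℝ) ≤ (r : ℕ) := by positivity
  linarith

namespace ParetoAux

open Finset

open Classical in
/-- the values of `r` for which the weighted size reaches `x` -/
noncomputable def hi (Q P : ℕ) (a x : ℝ) : Finset (Fin Q) := univ.filter fun r => x ≤ a * pw Q P r

theorem mem_hi {Q P : ℕ} {a x : ℝ} {r : Fin Q} : r ∈ hi Q P a x ↔ x ≤ a * pw Q P r := by
  simp [hi]

theorem card_hi_le (Q P : ℕ) {a : ℝ} (ha : 0 ≤ a) (x : ℝ) :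
    (hi Q P a x).card ≤ 2 * (hi Q P a (2 ^ P * x)).card + 1 := by
  classical
  let f : Fin Q → Fin Q := fun r => ⟨((r : ℕ) - 1) / 2, by have := r.2; omega⟩
  have h1 : ((hi Q P a x).filter fun r : Fin Q => (r : ℕ) ≠ 0).card
      ≤ 2 * (hi Q P a (2 ^ P * x)).card := by
    refine card_le_mul_card_image_of_maps_to (f := f) (fun r hr => ?_) 2 (fun b _ => ?_)
    · rw [mem_filter, mem_hi] at hr
      rw [mem_hi]
      have h2 : 2 ^ P * pw Q P r ≤ pw Q P (f r) := by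
        unfold pw
        rw [← mul_pow]
        refine pow_le_pow_left₀ (by positivity) ?_ P
        rw [← mul_div_assoc, div_le_div_iff₀ (by positivity) (by positivity)]
        have h3 : 2 * (((f r : Fin Q) : ℕ) + 1) ≤ (r : ℕ) + 1 := by
          have := hr.2
          simp only [f]
          omega
        have h4 : (2 : ℝ) * ((((f r : Fin Q) : ℕ) : ℝ) + 1) ≤ ((r : ℕ) : ℝ) + 1 := by
          exact_mod_cast h3
        have h5 : (0 : ℝ) ≤ Q := by positivity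
        nlinarith
      calc 2 ^ P * x ≤ 2 ^ P * (a * pw Q P r) := by gcongr; exact hr.1
        _ = a * (2 ^ P * pw Q P r) := by ring
        _ ≤ a * pw Q P (f r) := by gcongr
    · have h2 : (((hi Q P a x).filter fun r : Fin Q => (r : ℕ) ≠ 0).filter fun r => f r = b).card
          ≤ ({2 * (b : ℕ) + 1, 2 * (b : ℕ) + 2} : Finset ℕ).card := by
        refine card_le_card_of_injOn (fun r : Fin Q => (r : ℕ)) (fun r hr => ?_)
          (fun r _ r' _ h => Fin.ext h)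
        simp only [coe_filter, mem_filter, Set.mem_ofPred_eq] at hr
        have h3 := congrArg Fin.val hr.2
        have h4 := hr.1.2
        simp only [f] at h3
        simp only [coe_insert, coe_singleton, Set.mem_insert_iff, Set.mem_singleton_iff]
        omega
      exact h2.trans card_le_two
  have h2 : ((hi Q P a x).filter fun r : Fin Q => ¬ (r : ℕ) ≠ 0).card ≤ 1 := by
    refine card_le_one.2 fun r hr r' hr' => ?_
    rw [mem_filter] at hr hr'
    exact Fin.ext (by omega)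
  have h3 := card_filter_add_card_filter_not (s := hi Q P a x) fun r : Fin Q => (r : ℕ) ≠ 0
  omega

theorem one_sub_sum_le_prod {ι : Type*} (t : Finset ι) (a : ι → ℝ) (h0 : ∀ i, 0 ≤ a i)
    (h1 : ∀ i, a i ≤ 1) : 1 - ∑ i ∈ t, a i ≤ ∏ i ∈ t, (1 - a i) := by
  classical
  induction t using Finset.induction_on with
  | empty => simp
  | insert i t hi ih =>
    rw [sum_insert hi, prod_insert hi]
    have h2 : 0 ≤ ∑ j ∈ t, a j := sum_nonneg fun j _ => h0 j
    have h3 := mul_le_mul_of_nonneg_left ih (sub_nonneg.2 (h1 i))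
    nlinarith [mul_nonneg (h0 i) h2]

/-- the choice of the level -/
theorem exists_level {L : Type} [Fintype L] (Q P : ℕ) (hQ : 32 * Fintype.card L ≤ Q) (hP : 0 < P)
    (s : L → ℝ) (hs : ∀ l, 0 ≤ s l) (l0 : L) (hl0 : 0 < s l0) :
    ∃ x, s l0 ≤ x ∧ 2 * ∑ l, (hi Q P (s l) x).card ≤ Q ∧
      Q ≤ 16 * ∑ l, (hi Q P (s l) (2 ^ P * x)).card := by
  classical
  have hm : 1 ≤ Fintype.card L := Fintype.card_pos_iff.2 ⟨l0⟩
  have hK : (1 : ℝ) < 2 ^ P := one_lt_pow₀ (by norm_num) hP.ne'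
  let N : ℝ → ℕ := fun x => ∑ l, (hi Q P (s l) x).card
  have hN : ∀ x, N x ≤ 2 * N (2 ^ P * x) + Fintype.card L := by
    intro x
    calc N x ≤ ∑ l, (2 * (hi Q P (s l) (2 ^ P * x)).card + 1) :=
          sum_le_sum fun l _ => card_hi_le Q P (hs l) x
      _ = 2 * N (2 ^ P * x) + Fintype.card L := by
          simp [N, sum_add_distrib, mul_sum]
  have hex : ∃ t : ℕ, 2 * N ((2 ^ P) ^ t * s l0) ≤ Q := by
    obtain ⟨t, ht⟩ := pow_unbounded_of_one_lt ((∑ l, s l) * (Q : ℝ) ^ P / s l0) hK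
    rw [div_lt_iff₀ hl0] at ht
    refine ⟨t, ?_⟩
    have : N ((2 ^ P) ^ t * s l0) = 0 := by
      refine sum_eq_zero fun l _ => card_eq_zero.2 (eq_empty_of_forall_notMem fun r hr => ?_)
      rw [mem_hi] at hr
      have h1 : s l ≤ ∑ l, s l := single_le_sum (fun j _ => hs j) (mem_univ l)
      have h2 : s l * pw Q P r ≤ (∑ l, s l) * (Q : ℝ) ^ P :=
        mul_le_mul h1 (pw_le Q P r) (zero_le_one.trans (one_le_pw Q P r)) ((hs l).trans h1)
      linarith
    omega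
  have h0 : ¬ 2 * N ((2 ^ P) ^ 0 * s l0) ≤ Q := by
    have h1 : hi Q P (s l0) ((2 ^ P) ^ 0 * s l0) = univ := by
      refine eq_univ_of_forall fun r => mem_hi.2 ?_
      rw [pow_zero, one_mul]
      exact le_mul_of_one_le_right hl0.le (one_le_pw Q P r)
    have h2 : (hi Q P (s l0) ((2 ^ P) ^ 0 * s l0)).card ≤ N ((2 ^ P) ^ 0 * s l0) :=
      single_le_sum (f := fun l => (hi Q P (s l) ((2 ^ P) ^ 0 * s l0)).card)
        (fun j _ => Nat.zero_le _) (mem_univ l0)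
    rw [h1, card_univ, Fintype.card_fin] at h2
    omega
  have ht0 : Nat.find hex ≠ 0 := fun h => h0 (by have := Nat.find_spec hex; rwa [h] at this)
  obtain ⟨u, hu⟩ := Nat.exists_eq_succ_of_ne_zero ht0
  have h1 := Nat.find_spec hex
  have h2 := Nat.find_min hex (m := u) (by omega)
  rw [hu] at h1
  have h3 := hN ((2 ^ P) ^ u * s l0)
  have h4 : (2 : ℝ) ^ P * ((2 ^ P) ^ u * s l0) = (2 ^ P) ^ u.succ * s l0 := by
    rw [pow_succ]; ring
  rw [h4] at h3
  have h5 := hN ((2 ^ P) ^ u.succ * s l0)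
  refine ⟨(2 ^ P) ^ u.succ * s l0, le_mul_of_one_le_left hl0.le (one_le_pow₀ hK.le), h1, ?_⟩
  change Q ≤ 16 * N _
  omega

end ParetoAux

open ParetoAux Finset in
open Classical in
theorem pareto {L : Type} [Fintype L] (Q P : ℕ) (hQ : 32 * Fintype.card L ≤ Q) (hP : 0 < P)
    (s : L → ℝ) (hs : ∀ l, 0 ≤ s l) (l0 : L) (hl0 : 0 < s l0) :
    Q ^ Fintype.card L ≤ 32 * (Finset.univ.filter fun r : L → Fin Q =>
      ∃ (l : L) (x : ℝ), s l0 ≤ x ∧ 2 ^ P * x ≤ s l * pw Q P (r l) ∧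
        ∀ l', l' ≠ l → s l' * pw Q P (r l') < x).card := by
  obtain ⟨x, hx, h1, h2⟩ := exists_level Q P hQ hP s hs l0 hl0
  have hm : 1 ≤ Fintype.card L := Fintype.card_pos_iff.2 ⟨l0⟩
  have hQ0 : (0 : ℝ) < Q := by exact_mod_cast (by omega : 0 < Q)
  have hx0 : 0 < x := hl0.trans_le hx
  have hK : (1 : ℝ) ≤ 2 ^ P := one_le_pow₀ (by norm_num)
  let T : L → L → Finset (Fin Q) := fun l l' =>
    if l' = l then hi Q P (s l) (2 ^ P * x) else (hi Q P (s l') x)ᶜ
  let E : L → Finset (L → Fin Q) := fun l => Fintype.piFinset (T l)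
  have hmem : ∀ l r, r ∈ E l → 2 ^ P * x ≤ s l * pw Q P (r l) ∧
      ∀ l', l' ≠ l → s l' * pw Q P (r l') < x := by
    intro l r hr
    rw [Fintype.mem_piFinset] at hr
    refine ⟨?_, fun l' hl' => ?_⟩
    · have := hr l
      simp only [T, if_true] at this
      exact mem_hi.1 this
    · have := hr l'
      simp only [T, if_neg hl', mem_compl, mem_hi, not_le] at this
      exact this
  have hdisj : ((univ : Finset L) : Set L).PairwiseDisjoint E := by
    intro l _ l' _ hll'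
    refine disjoint_left.2 fun r hr hr' => ?_
    have h3 := (hmem l r hr).1
    have h4 := (hmem l' r hr').2 l hll'
    have h5 : x ≤ 2 ^ P * x := le_mul_of_one_le_left hx0.le hK
    linarith
  have hsub : univ.biUnion E ⊆ Finset.univ.filter fun r : L → Fin Q =>
      ∃ (l : L) (x : ℝ), s l0 ≤ x ∧ 2 ^ P * x ≤ s l * pw Q P (r l) ∧
        ∀ l', l' ≠ l → s l' * pw Q P (r l') < x := by
    intro r hr
    obtain ⟨l, _, hl⟩ := mem_biUnion.1 hr
    exact mem_filter.2 ⟨mem_univ _, l, x, hx, hmem l r hl⟩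
  have hcard : ∀ l, ((hi Q P (s l) (2 ^ P * x)).card : ℝ) * ((Q : ℝ) ^ (Fintype.card L - 1) / 2)
      ≤ (E l).card := by
    intro l
    have hle : ∀ l', (hi Q P (s l') x).card ≤ Q := fun l' => by
      simpa using card_le_univ (hi Q P (s l') x)
    have h3 : ((E l).card : ℝ) = (hi Q P (s l) (2 ^ P * x)).card
        * ∏ l' ∈ univ.erase l, (Q * (1 - ((hi Q P (s l') x).card : ℝ) / Q)) := by
      rw [Fintype.card_piFinset, ← mul_prod_erase univ _ (mem_univ l)]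
      push_cast
      congr 1
      · simp [T]
      · refine prod_congr rfl fun l' hl' => ?_
        simp only [T, if_neg (ne_of_mem_erase hl'), card_compl, Fintype.card_fin]
        rw [Nat.cast_sub (hle l')]
        field_simp
    rw [h3, prod_mul_distrib, prod_const, card_erase_of_mem (mem_univ l), card_univ]
    have h4 := one_sub_sum_le_prod (univ.erase l) (fun l' => ((hi Q P (s l') x).card : ℝ) / Q)
      (fun l' => by positivity)
      (fun l' => by rw [div_le_one hQ0]; exact_mod_cast hle l')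
    have h5 : ∑ l' ∈ univ.erase l, ((hi Q P (s l') x).card : ℝ) / Q ≤ 1 / 2 := by
      rw [← sum_div, div_le_iff₀ hQ0]
      have h6 : ∑ l' ∈ univ.erase l, ((hi Q P (s l') x).card : ℝ)
          ≤ ∑ l', ((hi Q P (s l') x).card : ℝ) :=
        sum_le_sum_of_subset_of_nonneg (erase_subset _ _) fun _ _ _ => by positivity
      have h7 : (2 : ℝ) * ∑ l', ((hi Q P (s l') x).card : ℝ) ≤ Q := by exact_mod_cast h1
      linarith
    refine mul_le_mul_of_nonneg_left ?_ (by positivity)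
    rw [div_eq_mul_one_div]
    exact mul_le_mul_of_nonneg_left (by linarith) (by positivity)
  have h3 : (Q : ℝ) ^ Fintype.card L ≤ 32 * ((univ.biUnion E).card : ℝ) := by
    rw [card_biUnion hdisj]
    push_cast
    have h4 := sum_le_sum fun l (_ : l ∈ (univ : Finset L)) => hcard l
    rw [← sum_mul] at h4
    have h5 : (Q : ℝ) ≤ 16 * ∑ l, ((hi Q P (s l) (2 ^ P * x)).card : ℝ) := by exact_mod_cast h2
    have h6 : (Q : ℝ) ^ Fintype.card L = Q * (Q : ℝ) ^ (Fintype.card L - 1) := by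
      rw [← pow_succ']
      congr 1
      omega
    have h7 := mul_le_mul_of_nonneg_right h5
      (by positivity : (0 : ℝ) ≤ (Q : ℝ) ^ (Fintype.card L - 1))
    rw [h6]
    linarith
  have h4 : Q ^ Fintype.card L ≤ 32 * (univ.biUnion E).card := by exact_mod_cast h3
  exact h4.trans (Nat.mul_le_mul_left _ (card_le_card hsub))

end Crest.Agent.R192
end

-- ▼ part PVc/R192/LabDefs
section

/-! Row 192: definition of the random labels. -/

set_option autoImplicit false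

namespace Crest.Agent.R192

open Crest.AlgebraR.L1 MeasureTheory Matrix
open scoped ContDiff BoundedContinuousFunction

theorem exists_Ksig : ∃ K : ℝ, 1 ≤ K ∧ ∀ x, |deriv Real.smoothTransition x| ≤ K := by
  have hc : Continuous (deriv Real.smoothTransition) :=
    (Real.smoothTransition.contDiff (n := 1)).continuous_deriv le_rfl
  obtain ⟨C, hC⟩ := (isCompact_Icc (a := (-1 : ℝ)) (b := 2)).exists_bound_of_continuousOn
    hc.continuousOn
  refine ⟨max 1 C, le_max_left _ _, fun x => ?_⟩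
  by_cases hx : x ∈ Set.Icc (-1 : ℝ) 2
  · exact (hC x hx).trans (le_max_right _ _)
  · have : deriv Real.smoothTransition x = 0 := by
      rw [Set.mem_Icc, not_and_or, not_le, not_le] at hx
      rcases hx with hx | hx
      · have : Real.smoothTransition =ᶠ[nhds x] fun _ => 0 := by
          filter_upwards [Iio_mem_nhds (show x < 0 by linarith)] with y hy
          exact Real.smoothTransition.zero_of_nonpos (le_of_lt hy)
        rw [this.deriv_eq, deriv_const]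
      · have : Real.smoothTransition =ᶠ[nhds x] fun _ => 1 := by
          filter_upwards [Ioi_mem_nhds (show 1 < x by linarith)] with y hy
          exact Real.smoothTransition.one_of_one_le (le_of_lt hy)
        rw [this.deriv_eq, deriv_const]
    rw [this, abs_zero]
    exact zero_le_one.trans (le_max_left _ _)

/-- a bound for the derivative of the smooth transition -/
noncomputable def Ksig : ℝ := exists_Ksig.choose

theorem one_le_Ksig : 1 ≤ Ksig := exists_Ksig.choose_spec.1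

theorem abs_deriv_le_Ksig (x : ℝ) : |deriv Real.smoothTransition x| ≤ Ksig :=
  exists_Ksig.choose_spec.2 x

section orbits
variable {G : Type} [Group G]

/-- the orbit `{c ^ m * x}` -/
def orbS (c x : G) : Set G := Set.range fun m : ℤ => c ^ m * x

/-- an element `c`, an orbit of `⟨c⟩` on `G`, and a tag -/
@[ext] structure OT (G : Type) [Group G] (T : Type) where
  c : G
  s : Set G
  tag : T
  ex : ∃ x, s = orbS c x

def OT.mk' {T : Type} (c x : G) (t : T) : OT G T := ⟨c, orbS c x, t, x, rfl⟩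

theorem orbS_conj (h c x : G) : (fun g => h * g) '' orbS c x = orbS (h * c * h⁻¹) (h * x) := by
  ext g
  simp only [orbS, Set.mem_image, Set.mem_range, conj_zpow]
  constructor
  · rintro ⟨_, ⟨m, rfl⟩, rfl⟩
    exact ⟨m, by group⟩
  · rintro ⟨m, rfl⟩
    exact ⟨_, ⟨m, rfl⟩, by group⟩

instance {T : Type} : MulAction G (OT G T) where
  smul h o := ⟨h * o.c * h⁻¹, (fun g => h * g) '' o.s, o.tag, by
    obtain ⟨x, hx⟩ := o.ex
    exact ⟨h * x, by rw [hx, orbS_conj]⟩⟩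
  one_smul o := by
    refine OT.ext ?_ ?_ rfl
    · change 1 * o.c * 1⁻¹ = o.c
      simp
    · change (fun g => 1 * g) '' o.s = o.s
      simp
  mul_smul a b o := by
    refine OT.ext ?_ ?_ rfl
    · change a * b * o.c * (a * b)⁻¹ = a * (b * o.c * b⁻¹) * a⁻¹
      group
    · change (fun g => a * b * g) '' o.s = (fun g => a * g) '' ((fun g => b * g) '' o.s)
      simp only [Set.image_image, mul_assoc]

theorem OT.smul_c {T : Type} (h : G) (o : OT G T) : (h • o).c = h * o.c * h⁻¹ := rfl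
theorem OT.smul_s {T : Type} (h : G) (o : OT G T) : (h • o).s = (fun g => h * g) '' o.s := rfl
theorem OT.smul_tag {T : Type} (h : G) (o : OT G T) : (h • o).tag = o.tag := rfl

theorem OT.smul_mk' {T : Type} (h c x : G) (t : T) :
    h • OT.mk' c x t = OT.mk' (h * c * h⁻¹) (h * x) t :=
  OT.ext rfl (orbS_conj h c x) rfl

/-- a base point of the orbit -/
noncomputable def OT.base {T : Type} (o : OT G T) : G := o.ex.choose

theorem OT.s_eq {T : Type} (o : OT G T) : o.s = orbS o.c o.base := o.ex.choose_spec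

open Classical in
/-- position of `x` in the orbit relative to the base point -/
noncomputable def OT.idx {T : Type} (o : OT G T) (x : G) : ℤ :=
  if h : ∃ m : ℤ, o.c ^ m * o.base = x then h.choose else 0

end orbits

/-- parameters of the labels -/
structure LP (G : Type) where
  /-- the valid shapes -/
  Sh : Finset (G → ℝ)
  β : ℝ
  t : ℝ
  N1 : ℕ
  Q : ℕ
  P : ℕ
  /-- angle of the character, as a function of the conjugate `x⁻¹ c x` and the shape -/
  ϑ : G → (G → ℝ) → ℝ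

section labels
variable {G : Type} [Group G] [TopologicalSpace G] [DiscreteTopology G] (ℓ : Len G) (R : ℕ)
  (p : LP G)

/-- labels -/
abbrev Lab := OT G p.Sh

/-- soft version of `exp (-β * dist (a, template (x, η)))` -/
noncomputable def uu (β : ℝ) (x : G) (η : G → ℝ) (a : G →ᵇ ℝ) : ℝ :=
  (∑ z ∈ ℓ.ball (2 * R),
    (Real.exp (β * (a (x * z) - η z)) + Real.exp (-(β * (a (x * z) - η z)))))⁻¹

noncomputable def LP.u0 : ℝ := Real.exp (-(p.β * p.t))

noncomputable def LP.T0 : ℝ := p.N1 * p.u0 * (p.Q : ℝ) ^ p.P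

/-- cut-off version of `uu` -/
noncomputable def rr (x : G) (η : G → ℝ) (a : G →ᵇ ℝ) : ℝ :=
  uu ℓ R p.β x η a * Real.smoothTransition (uu ℓ R p.β x η a / p.u0 - 1)

/-- total weight -/
noncomputable def Xi (v : Lab p → Fin p.Q) (c : G) (a : G →ᵇ ℝ) : ℝ :=
  p.T0 + ∑ᶠ x : G, ∑ η : p.Sh, rr ℓ R p x η a * pw p.Q p.P (v (OT.mk' c x η))

noncomputable def Sl (l : Lab p) (a : G →ᵇ ℝ) : ℝ := ∑ᶠ x ∈ l.s, rr ℓ R p x l.tag a

noncomputable def ang (l : Lab p) : ℝ := p.ϑ (l.base⁻¹ * l.c * l.base) l.tag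

noncomputable def Zl (l : Lab p) (a : G →ᵇ ℝ) : ℂ :=
  ∑ᶠ x ∈ l.s, (rr ℓ R p x l.tag a : ℂ) * ee (ang p l * l.idx x)

/-- share of the label `l` in the total weight -/
noncomputable def share (v : Lab p → Fin p.Q) (l : Lab p) (a : G →ᵇ ℝ) : ℝ :=
  pw p.Q p.P (v l) * Sl ℓ R p l a / Xi ℓ R p v l.c a

/-- amplitude of the label `l` -/
noncomputable def Y1 (v : Lab p → Fin p.Q) (l : Lab p) (a : G →ᵇ ℝ) : ℂ :=
  (Real.smoothTransition (10 * share ℓ R p v l a - 6) * (pw p.Q p.P (v l) / Xi ℓ R p v l.c a) : ℝ) *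
    Zl ℓ R p l a

open Classical in
/-- thresholded shape -/
noncomputable def fη (η : G → ℝ) (z : G) : ℝ :=
  if z ∈ ℓ.ball (2 * R) then max 0 (η z - 1 / 2) else 0

/-- standing assumptions on the parameters -/
structure LP.Ok : Prop where
  R_pos : 0 < R
  β_pos : 0 < p.β
  t_pos : 0 < p.t
  t_le : p.t ≤ 1 / 8
  valid : ∀ η ∈ p.Sh, 4 / 5 ≤ η 1
  N1_pos : 0 < p.N1
  N1_ge : (ℓ.ball (2 * R)).card * p.Sh.card ≤ p.N1
  Q_pos : 0 < p.Q
  ϑ_int : ∀ c η (m : ℤ), c ^ m = 1 → ee (p.ϑ c η * m) = 1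

/-- support of the event attached to a fine template -/
noncomputable def esupp {T : Type} (i : OT G T) : Finset (Lab p) := by
  classical
  exact (ℓ.ball (2 * R) ×ˢ (Finset.univ : Finset p.Sh)).image
    fun q => OT.mk' i.c (i.base * q.1) q.2

/-- the event attached to a fine template: every nearby measure has a dominant label -/
def GoodEv (Sh' : Finset (G → ℝ)) (w' : ℝ) (i : OT G Sh') (v : Lab p → Fin p.Q) : Prop :=
  ∀ x ∈ i.s, ∀ μ : G →₀ ℝ, IsProb μ → 9 / 10 ≤ feat ℓ R μ x →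
    (∀ z ∈ ℓ.ball (4 * R), |feat ℓ R μ (x * z) - (i.tag : G → ℝ) z| ≤ w') →
    ∃ l : Lab p, l.c = i.c ∧ 7 / 10 ≤ share ℓ R p v l (feat ℓ R μ)

end labels

end Crest.Agent.R192
end

-- ▼ part PVc/R192/Lab1
section

/-! Row 192: labels: local finiteness, smoothness, symmetries. -/

set_option autoImplicit false
set_option linter.unusedSectionVars false

namespace Crest.Agent.R192

open Crest.AlgebraR.L1 MeasureTheory Matrix
open scoped ContDiff BoundedContinuousFunction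

variable {G : Type} [Group G] [TopologicalSpace G] [DiscreteTopology G] {ℓ : Len G} {R : ℕ}
  {p : LP G}

theorem OT.countable [Countable G] {T : Type} [Countable T] : Countable (OT G T) := by
  refine Function.Surjective.countable (f := fun q : G × G × T => OT.mk' q.1 q.2.1 q.2.2) ?_
  rintro ⟨c, s, t, x, rfl⟩
  exact ⟨(c, x, t), rfl⟩

theorem Len.countable (ℓ : Len G) : Countable G := by
  refine Set.countable_univ_iff.1 ((Set.countable_iUnion fun r : ℕ =>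
    (ℓ.ball r).countable_toSet).mono fun g _ => ?_)
  exact Set.mem_iUnion.2 ⟨ℓ.len g, (ℓ.mem_ball _ _).2 le_rfl⟩

theorem Lab1.one_mem_ball (ℓ : Len G) (r : ℕ) : (1 : G) ∈ ℓ.ball r := by
  rw [ℓ.mem_ball, ℓ.len_one]
  exact Nat.zero_le r

theorem Lab1.sum_pos (β : ℝ) (x : G) (η : G → ℝ) (a : G →ᵇ ℝ) : 0 < ∑ z ∈ ℓ.ball (2 * R),
    (Real.exp (β * (a (x * z) - η z)) + Real.exp (-(β * (a (x * z) - η z)))) :=
  Finset.sum_pos (fun _ _ => by positivity) ⟨1, Lab1.one_mem_ball ℓ _⟩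

theorem Lab1.u0_pos (p : LP G) : 0 < p.u0 := Real.exp_pos _

theorem uu_pos (β : ℝ) (x : G) (η : G → ℝ) (a : G →ᵇ ℝ) : 0 < uu ℓ R β x η a :=
  inv_pos.2 (Lab1.sum_pos β x η a)

theorem rr_nonneg (x : G) (η : G → ℝ) (a : G →ᵇ ℝ) : 0 ≤ rr ℓ R p x η a :=
  mul_nonneg (uu_pos _ _ _ _).le (Real.smoothTransition.nonneg _)

theorem uu_smooth (β : ℝ) (x : G) (η : G → ℝ) : ContDiff ℝ ∞ (uu ℓ R β x η) := by
  refine ContDiff.inv (ContDiff.sum fun z _ => ?_) fun a => (Lab1.sum_pos β x η a).ne'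
  have h : ContDiff ℝ ∞ fun a : G →ᵇ ℝ => β * (a (x * z) - η z) :=
    contDiff_const.mul
      ((BoundedContinuousFunction.evalCLM ℝ (x * z) : (G →ᵇ ℝ) →L[ℝ] ℝ).contDiff.sub contDiff_const)
  exact h.exp.add h.neg.exp

theorem rr_smooth (x : G) (η : G → ℝ) : ContDiff ℝ ∞ (rr ℓ R p x η) :=
  (uu_smooth p.β x η).mul (Real.smoothTransition.contDiff.comp
    (((uu_smooth p.β x η).div_const _).sub contDiff_const))

/-- a template above the cut-off is uniformly `t`-close -/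
theorem abs_sub_lt_of_uu (h : p.Ok ℓ R) {x : G} {η : G → ℝ} {a : G →ᵇ ℝ}
    (hu : p.u0 < uu ℓ R p.β x η a) {z : G} (hz : z ∈ ℓ.ball (2 * R)) :
    |a (x * z) - η z| < p.t := by
  rw [uu, LP.u0, Real.exp_neg, inv_lt_inv₀ (Real.exp_pos _) (Lab1.sum_pos _ _ _ _)] at hu
  have h1 := (Finset.single_le_sum (f := fun z => Real.exp (p.β * (a (x * z) - η z)) +
    Real.exp (-(p.β * (a (x * z) - η z)))) (fun _ _ => by positivity) hz).trans_lt hu
  have h2 := Real.exp_pos (p.β * (a (x * z) - η z))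
  have h3 := Real.exp_pos (-(p.β * (a (x * z) - η z)))
  have h4 : p.β * (a (x * z) - η z) < p.β * p.t := Real.exp_lt_exp.1 (by linarith)
  have h5 : -(p.β * (a (x * z) - η z)) < p.β * p.t := Real.exp_lt_exp.1 (by linarith)
  rw [← mul_neg] at h5
  exact abs_lt.2 ⟨neg_lt.1 (lt_of_mul_lt_mul_left h5 h.β_pos.le),
    lt_of_mul_lt_mul_left h4 h.β_pos.le⟩

theorem uu_gt_of_rr_ne_zero {x : G} {η : G → ℝ} {a : G →ᵇ ℝ} (h : rr ℓ R p x η a ≠ 0) :
    p.u0 < uu ℓ R p.β x η a := by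
  by_contra hle
  refine h ?_
  rw [rr, Real.smoothTransition.zero_of_nonpos, mul_zero]
  rw [sub_nonpos, div_le_one (Lab1.u0_pos p)]
  exact not_lt.1 hle

/-- a valid template whose anchor is not a majority point does not contribute -/
theorem rr_eq_zero (h : p.Ok ℓ R) {x : G} (η : p.Sh) {a : G →ᵇ ℝ} (ha : a x ≤ 1 / 2) :
    rr ℓ R p x η a = 0 := by
  by_contra h0
  have h1 := abs_lt.1 (abs_sub_lt_of_uu h (uu_gt_of_rr_ne_zero h0) (Lab1.one_mem_ball ℓ _))
  rw [mul_one] at h1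
  linarith [h.valid η η.2, h.t_le, h1.1]

theorem T0_pos (h : p.Ok ℓ R) : 0 < p.T0 := by
  have h1 : (0 : ℝ) < p.N1 := by exact_mod_cast h.N1_pos
  have h2 : (0 : ℝ) < p.Q := by exact_mod_cast h.Q_pos
  exact mul_pos (mul_pos h1 (Lab1.u0_pos p)) (pow_pos h2 _)

theorem T0_le_Xi (v : Lab p → Fin p.Q) (c : G) (a : G →ᵇ ℝ) : p.T0 ≤ Xi ℓ R p v c a :=
  le_add_of_nonneg_right (finsum_nonneg fun _ => Finset.sum_nonneg fun _ _ =>
    mul_nonneg (rr_nonneg _ _ _) (zero_le_one.trans (one_le_pw _ _ _)))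

/-! finite formulas: `X` contains all majority points of `a` -/

theorem Xi_eq (h : p.Ok ℓ R) (v : Lab p → Fin p.Q) (c : G) {a : G →ᵇ ℝ} (X : Finset G)
    (hX : ∀ x, x ∉ X → a x ≤ 1 / 2) : Xi ℓ R p v c a =
      p.T0 + ∑ x ∈ X, ∑ η : p.Sh, rr ℓ R p x η a * pw p.Q p.P (v (OT.mk' c x η)) := by
  rw [Xi, finsum_eq_sum_of_support_subset (s := X)]
  intro x hx
  by_contra h0
  exact hx (Finset.sum_eq_zero fun η _ => by rw [rr_eq_zero h η (hX x h0), zero_mul])

open Classical in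
theorem Sl_eq (h : p.Ok ℓ R) (l : Lab p) {a : G →ᵇ ℝ} (X : Finset G)
    (hX : ∀ x, x ∉ X → a x ≤ 1 / 2) :
    Sl ℓ R p l a = ∑ x ∈ X.filter (· ∈ l.s), rr ℓ R p x l.tag a := by
  refine finsum_mem_eq_sum_of_inter_support_eq _ (Set.ext fun x => ?_)
  simp only [Set.mem_inter_iff, Function.mem_support, Finset.coe_filter, Set.mem_ofPred_eq]
  refine ⟨fun hx => ⟨⟨?_, hx.1⟩, hx.2⟩, fun hx => ⟨hx.1.2, hx.2⟩⟩
  by_contra h0
  exact hx.2 (rr_eq_zero h _ (hX x h0))

open Classical in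
theorem Zl_eq (h : p.Ok ℓ R) (l : Lab p) {a : G →ᵇ ℝ} (X : Finset G)
    (hX : ∀ x, x ∉ X → a x ≤ 1 / 2) : Zl ℓ R p l a =
      ∑ x ∈ X.filter (· ∈ l.s), (rr ℓ R p x l.tag a : ℂ) * ee (ang p l * l.idx x) := by
  refine finsum_mem_eq_sum_of_inter_support_eq _ (Set.ext fun x => ?_)
  simp only [Set.mem_inter_iff, Function.mem_support, Finset.coe_filter, Set.mem_ofPred_eq]
  refine ⟨fun hx => ⟨⟨?_, hx.1⟩, hx.2⟩, fun hx => ⟨hx.1.2, hx.2⟩⟩
  by_contra h0
  exact hx.2 (by rw [rr_eq_zero h _ (hX x h0), Complex.ofReal_zero, zero_mul])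

open Classical in
theorem Lab1.feat_eq_zero (hR : 0 < R) {μ : G →₀ ℝ} {X : Finset G} (hμ : μ.support ⊆ X) {x : G}
    (hx : x ∉ X.biUnion fun g => (ℓ.ball R).image fun z => g * z) : feat ℓ R μ x = 0 := by
  have hR' : (0 : ℝ) < R := by exact_mod_cast hR
  rw [feat, pr, Finsupp.linearCombination_apply, Finsupp.sum, BoundedContinuousFunction.sum_apply]
  refine Finset.sum_eq_zero fun g hg => ?_
  have h1 : R ≤ ℓ.len (g⁻¹ * x) := by
    by_contra h0
    exact hx (Finset.mem_biUnion.2 ⟨g, hμ hg, Finset.mem_image.2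
      ⟨g⁻¹ * x, (ℓ.mem_ball _ _).2 (not_le.1 h0).le, mul_inv_cancel_left g x⟩⟩)
  have h2 : (1 : ℝ) ≤ (ℓ.len (g⁻¹ * x) : ℝ) / R := by
    rw [one_le_div hR']
    exact_mod_cast h1
  rw [BoundedContinuousFunction.smul_apply, bump_apply, max_eq_left (by linarith), smul_zero]

/-- near the feature vector of a finitely supported measure, majority points stay in a finite set -/
theorem exists_finset_nhds (hR : 0 < R) (μ : G →₀ ℝ) :
    ∃ X : Finset G, ∀ᶠ a in nhds (feat ℓ R μ), ∀ x, x ∉ X → a x ≤ 1 / 2 := by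
  classical
  refine ⟨μ.support.biUnion fun g => (ℓ.ball R).image fun z => g * z, ?_⟩
  filter_upwards [Metric.ball_mem_nhds (feat ℓ R μ) (show (0 : ℝ) < 1 / 2 by norm_num)]
    with a ha x hx
  have h1 := BoundedContinuousFunction.dist_coe_le_dist (f := a) (g := feat ℓ R μ) x
  rw [Lab1.feat_eq_zero hR subset_rfl (by convert hx), Real.dist_eq, sub_zero] at h1
  exact (le_abs_self _).trans (h1.trans (le_of_lt ha))

theorem mk'_eq_iff_mem {T : Type} (l : OT G T) (x : G) : OT.mk' l.c x l.tag = l ↔ x ∈ l.s := by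
  constructor
  · intro h
    rw [← h]
    exact ⟨0, by simp⟩
  · intro h
    refine OT.ext rfl ?_ rfl
    change orbS l.c x = l.s
    rw [l.s_eq] at h ⊢
    obtain ⟨m, rfl⟩ := h
    ext g
    constructor
    · rintro ⟨k, rfl⟩
      exact ⟨k + m, by simp only [_root_.zpow_add, mul_assoc]⟩
    · rintro ⟨k, rfl⟩
      exact ⟨k - m, by simp only [← mul_assoc, ← _root_.zpow_add, sub_add_cancel]⟩

theorem Lab1.Xi_smooth (h : p.Ok ℓ R) (v : Lab p → Fin p.Q) (c : G) (μ : G →₀ ℝ) :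
    ContDiffAt ℝ ∞ (Xi ℓ R p v c) (feat ℓ R μ) := by
  obtain ⟨X, hX⟩ := exists_finset_nhds (ℓ := ℓ) h.R_pos μ
  refine ContDiffAt.congr_of_eventuallyEq ?_ (hX.mono fun a ha => Xi_eq h v c X ha)
  exact (contDiff_const.add (ContDiff.sum fun x _ => ContDiff.sum fun η _ =>
    (rr_smooth x _).mul contDiff_const)).contDiffAt

theorem Lab1.Sl_smooth (h : p.Ok ℓ R) (l : Lab p) (μ : G →₀ ℝ) :
    ContDiffAt ℝ ∞ (Sl ℓ R p l) (feat ℓ R μ) := by
  obtain ⟨X, hX⟩ := exists_finset_nhds (ℓ := ℓ) h.R_pos μ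
  refine ContDiffAt.congr_of_eventuallyEq ?_ (hX.mono fun a ha => Sl_eq h l X ha)
  exact (ContDiff.sum fun x _ => rr_smooth x _).contDiffAt

theorem Lab1.Zl_smooth (h : p.Ok ℓ R) (l : Lab p) (μ : G →₀ ℝ) :
    ContDiffAt ℝ ∞ (Zl ℓ R p l) (feat ℓ R μ) := by
  obtain ⟨X, hX⟩ := exists_finset_nhds (ℓ := ℓ) h.R_pos μ
  refine ContDiffAt.congr_of_eventuallyEq ?_ (hX.mono fun a ha => Zl_eq h l X ha)
  exact (ContDiff.sum fun x _ =>
    (Complex.ofRealCLM.contDiff.comp (rr_smooth x _)).mul contDiff_const).contDiffAt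

theorem share_smooth (h : p.Ok ℓ R) (v : Lab p → Fin p.Q) (l : Lab p) (μ : G →₀ ℝ) :
    ContDiffAt ℝ ∞ (share ℓ R p v l) (feat ℓ R μ) :=
  (contDiffAt_const.mul (Lab1.Sl_smooth h l μ)).div (Lab1.Xi_smooth h v l.c μ)
    ((T0_pos h).trans_le (T0_le_Xi _ _ _)).ne'

theorem Y1_smooth (h : p.Ok ℓ R) (v : Lab p → Fin p.Q) (l : Lab p) (μ : G →₀ ℝ) :
    ContDiffAt ℝ ∞ (Y1 ℓ R p v l) (feat ℓ R μ) := by
  refine ContDiffAt.mul (Complex.ofRealCLM.contDiff.contDiffAt.comp _ (ContDiffAt.mul ?_ ?_))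
    (Lab1.Zl_smooth h l μ)
  · exact Real.smoothTransition.contDiff.contDiffAt.comp _
      ((contDiffAt_const.mul (share_smooth h v l μ)).sub contDiffAt_const)
  · exact contDiffAt_const.div (Lab1.Xi_smooth h v l.c μ)
      ((T0_pos h).trans_le (T0_le_Xi _ _ _)).ne'

theorem Y1_fin (h : p.Ok ℓ R) (c : G) (X : Finset G) :
    ∃ F : Finset (Lab p), (∀ l ∈ F, l.c = c) ∧ ∀ μ : G →₀ ℝ, μ.support ⊆ X →
      (∀ v l, l.c = c → l ∉ F → Y1 ℓ R p v l (feat ℓ R μ) = 0) ∧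
      ∀ v v', (∀ a ∈ F, v a = v' a) → ∀ l ∈ F,
        Y1 ℓ R p v l (feat ℓ R μ) = Y1 ℓ R p v' l (feat ℓ R μ) := by
  classical
  let X' : Finset G := X.biUnion fun g => (ℓ.ball R).image fun z => g * z
  let F : Finset (Lab p) := (X' ×ˢ (Finset.univ : Finset p.Sh)).image fun q => OT.mk' c q.1 q.2
  have hF : ∀ x ∈ X', ∀ η : p.Sh, OT.mk' c x η ∈ F := fun x hx η =>
    Finset.mem_image.2 ⟨(x, η), Finset.mem_product.2 ⟨hx, Finset.mem_univ _⟩, rfl⟩
  have hFc : ∀ l ∈ F, l.c = c := fun l hl => by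
    obtain ⟨q, -, rfl⟩ := Finset.mem_image.1 hl
    rfl
  refine ⟨F, hFc, fun μ hμ => ?_⟩
  have hX : ∀ x, x ∉ X' → feat ℓ R μ x ≤ 1 / 2 := fun x hx => by
    rw [Lab1.feat_eq_zero h.R_pos hμ (by convert hx)]
    norm_num
  refine ⟨fun v l hl hlF => ?_, fun v v' hv l hl => ?_⟩
  · rw [Y1, Zl_eq h l X' hX, Finset.sum_eq_zero, mul_zero]
    intro x hx
    obtain ⟨h1, h2⟩ := Finset.mem_filter.1 hx
    have := hF x h1 l.tag
    rw [← hl, (mk'_eq_iff_mem l x).2 h2] at this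
    exact absurd this hlF
  · have h1 : Xi ℓ R p v l.c (feat ℓ R μ) = Xi ℓ R p v' l.c (feat ℓ R μ) := by
      rw [Xi_eq h v _ X' hX, Xi_eq h v' _ X' hX, hFc l hl]
      congr 1
      exact Finset.sum_congr rfl fun x hx => Finset.sum_congr rfl fun η _ => by
        rw [hv _ (hF x hx η)]
    rw [Y1, Y1, share, share, h1, hv l hl]

end Crest.Agent.R192
end

-- ▼ part PVc/R192/Lab2
section

/-! Row 192: labels: equivariance and the combinatorics of the events. -/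

set_option autoImplicit false
set_option linter.unusedSectionVars false

namespace Crest.Agent.R192

open Crest.AlgebraR.L1 MeasureTheory Matrix
open scoped ContDiff BoundedContinuousFunction

variable {G : Type} [Group G] [TopologicalSpace G] [DiscreteTopology G] {ℓ : Len G} {R : ℕ}
  {p : LP G}

namespace Lab2

omit [TopologicalSpace G] [DiscreteTopology G]

theorem mem_s {T : Type} (l : OT G T) {x : G} : x ∈ l.s ↔ ∃ m : ℤ, l.c ^ m * l.base = x := by
  rw [l.s_eq]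
  rfl

theorem base_mem {T : Type} (l : OT G T) : l.base ∈ l.s := (mem_s l).2 ⟨0, by simp⟩

theorem zpow_mul_mem {T : Type} (l : OT G T) {x : G} (hx : x ∈ l.s) (m : ℤ) :
    l.c ^ m * x ∈ l.s := by
  obtain ⟨k, rfl⟩ := (mem_s l).1 hx
  exact (mem_s l).2 ⟨m + k, by rw [_root_.zpow_add, mul_assoc]⟩

theorem exists_zpow {T : Type} (l : OT G T) {x y : G} (hx : x ∈ l.s) (hy : y ∈ l.s) :
    ∃ m : ℤ, l.c ^ m * x = y := by
  obtain ⟨k, rfl⟩ := (mem_s l).1 hx
  obtain ⟨j, rfl⟩ := (mem_s l).1 hy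
  exact ⟨j - k, by rw [← mul_assoc, ← _root_.zpow_add, sub_add_cancel]⟩

theorem image_zpow {T : Type} (l : OT G T) (m : ℤ) : (fun g => l.c ^ m * g) '' l.s = l.s := by
  ext y
  constructor
  · rintro ⟨x, hx, rfl⟩
    exact zpow_mul_mem l hx m
  · intro hy
    exact ⟨_, zpow_mul_mem l hy (-m), by simp⟩

theorem zpow_smul {T : Type} (l : OT G T) (m : ℤ) : l.c ^ m • l = l :=
  OT.ext (by rw [OT.smul_c]; group) (image_zpow l m) rfl

theorem mem_mk' {T : Type} (c x : G) (t : T) : x ∈ (OT.mk' c x t).s := ⟨0, by simp⟩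

theorem act_smul {Λ S : Type} [MulAction G Λ] (g : G) (v : Λ → S) (l : Λ) :
    act g v (g • l) = v l := by
  rw [act, inv_smul_smul]

theorem act_inv_act {Λ S : Type} [MulAction G Λ] (g : G) (v : Λ → S) :
    act g⁻¹ (act g v) = v := by
  funext l
  rw [act, inv_inv, act_smul]

theorem tr_tr_inv (g : G) (μ : G →₀ ℝ) : tr g (tr g⁻¹ μ) = μ := by
  rw [tr, tr, ← Finsupp.mapDomain_comp]
  have : ((fun x => g * x) ∘ fun x => g⁻¹ * x) = id := by
    funext x
    simp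
  rw [this, Finsupp.mapDomain_id]

theorem ee_zero : ee 0 = 1 := by simpa using ee_int 0

end Lab2

open Lab2

theorem OT.conj_eq {T : Type} (l : OT G T) {x : G} (hx : x ∈ l.s) :
    x⁻¹ * l.c * x = l.base⁻¹ * l.c * l.base := by
  obtain ⟨m, rfl⟩ := (mem_s l).1 hx
  group

theorem OT.idx_spec {T : Type} (l : OT G T) {x : G} (hx : x ∈ l.s) :
    l.c ^ l.idx x * l.base = x := by
  have h := (mem_s l).1 hx
  rw [OT.idx, dif_pos h]
  exact h.choose_spec


theorem ang_smul (g : G) (l : Lab p) : ang p (g • l) = ang p l := by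
  have h : g * l.base ∈ (g • l).s := ⟨l.base, base_mem l, rfl⟩
  rw [ang, ang, ← OT.conj_eq _ h, OT.smul_c, OT.smul_tag]
  congr 1
  group

/-- the phase along an orbit is a character -/
theorem ee_idx (h : p.Ok ℓ R) (l : Lab p) {x : G} (hx : x ∈ l.s) (m : ℤ) :
    ee (ang p l * l.idx (l.c ^ m * x)) = ee (ang p l * m) * ee (ang p l * l.idx x) := by
  have h1 := l.idx_spec (zpow_mul_mem l hx m)
  have h2 := l.idx_spec hx
  generalize l.idx (l.c ^ m * x) = a at h1 ⊢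
  generalize l.idx x = b at h2 ⊢
  rw [← h2, ← mul_assoc, ← _root_.zpow_add, mul_left_inj] at h1
  have h3 : (l.base⁻¹ * l.c * l.base) ^ (a - (m + b)) = 1 := by
    have := conj_zpow (a := l.base⁻¹) (b := l.c) (i := a - (m + b))
    rw [inv_inv] at this
    rw [this, _root_.zpow_sub, h1]
    simp
  have h4 : ee (ang p l * (a - (m + b) : ℤ)) = 1 := h.ϑ_int _ _ _ h3
  rw [← ee_add, ← mul_one (ee (_ + _)), ← h4, ← ee_add]
  congr 1
  push_cast
  ring

theorem rr_tr (g x : G) (η : G → ℝ) (μ : G →₀ ℝ) :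
    rr ℓ R p (g * x) η (feat ℓ R (tr g μ)) = rr ℓ R p x η (feat ℓ R μ) := by
  simp only [rr, uu, mul_assoc g x, feat_tr]

namespace Lab2

theorem Sl_equiv (g : G) (l : Lab p) (μ : G →₀ ℝ) :
    Sl ℓ R p (g • l) (feat ℓ R (tr g μ)) = Sl ℓ R p l (feat ℓ R μ) := by
  rw [Sl, Sl, OT.smul_s, finsum_mem_image (mul_right_injective g).injOn]
  simp only [rr_tr, OT.smul_tag]

theorem Xi_equiv (g : G) (v : Lab p → Fin p.Q) (c : G) (μ : G →₀ ℝ) :
    Xi ℓ R p (act g v) (g * c * g⁻¹) (feat ℓ R (tr g μ)) = Xi ℓ R p v c (feat ℓ R μ) := by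
  rw [Xi, Xi, ← finsum_comp_equiv (Equiv.mulLeft g)]
  simp only [Equiv.coe_mulLeft, rr_tr, ← OT.smul_mk', act_smul]

theorem Xi_congr {v v' : Lab p → Fin p.Q} {c : G} {a : G →ᵇ ℝ}
    (h : ∀ x (η : p.Sh), rr ℓ R p x η a ≠ 0 → v (OT.mk' c x η) = v' (OT.mk' c x η)) :
    Xi ℓ R p v c a = Xi ℓ R p v' c a := by
  rw [Xi, Xi]
  congr 1
  refine finsum_congr fun x => Finset.sum_congr rfl fun η _ => ?_
  by_cases h0 : rr ℓ R p x η a = 0
  · rw [h0, zero_mul, zero_mul]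
  · rw [h x η h0]

theorem Xi_quasi (v : Lab p → Fin p.Q) (c : G) (μ : G →₀ ℝ) (m : ℤ) :
    Xi ℓ R p v c (feat ℓ R (tr (c ^ m) μ)) = Xi ℓ R p v c (feat ℓ R μ) := by
  rw [← Xi_equiv (c ^ m) v c μ, show c ^ m * c * (c ^ m)⁻¹ = c by group]
  refine Xi_congr fun x η _ => ?_
  conv_rhs => rw [← zpow_smul (OT.mk' c x η) m]
  exact (act_smul _ _ _).symm

theorem Sl_quasi (l : Lab p) (μ : G →₀ ℝ) (m : ℤ) :
    Sl ℓ R p l (feat ℓ R (tr (l.c ^ m) μ)) = Sl ℓ R p l (feat ℓ R μ) := by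
  rw [← Sl_equiv (l.c ^ m) l μ, zpow_smul]

theorem Zl_quasi (h : p.Ok ℓ R) (l : Lab p) (μ : G →₀ ℝ) (m : ℤ) :
    Zl ℓ R p l (feat ℓ R (tr (l.c ^ m) μ)) = ee (ang p l * m) * Zl ℓ R p l (feat ℓ R μ) := by
  rw [Zl, Zl, mul_finsum_mem]
  conv_lhs => rw [← image_zpow l m, finsum_mem_image (mul_right_injective _).injOn]
  refine finsum_mem_congr rfl fun x hx => ?_
  rw [rr_tr, ee_idx h l hx]
  ring

theorem Zl_equiv (h : p.Ok ℓ R) (g : G) (l : Lab p) : ∃ u : ℂ, ‖u‖ = 1 ∧ ∀ μ,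
    Zl ℓ R p (g • l) (feat ℓ R (tr g μ)) = u * Zl ℓ R p l (feat ℓ R μ) := by
  obtain ⟨y, hy, hy'⟩ := base_mem (g • l)
  refine ⟨ee (-(ang p l * l.idx y)), norm_ee _, fun μ => ?_⟩
  rw [Zl, Zl, mul_finsum_mem, OT.smul_s, finsum_mem_image (mul_right_injective g).injOn]
  refine finsum_mem_congr rfl fun x hx => ?_
  have h1 := (g • l).idx_spec (x := g * x) ⟨x, hx, rfl⟩
  rw [← hy', OT.smul_c, conj_zpow] at h1
  have h2 : l.c ^ (g • l).idx (g * x) * y = x := by
    apply mul_left_cancel (a := g)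
    refine Eq.trans ?_ h1
    simp only [mul_assoc, inv_mul_cancel_left]
  have h3 := ee_idx h l hy ((g • l).idx (g * x))
  rw [h2] at h3
  rw [rr_tr, ang_smul, OT.smul_tag, h3, mul_left_comm, mul_left_comm (ee _), ← ee_add,
    neg_add_cancel, ee_zero, mul_one]

end Lab2

theorem share_equiv (g : G) (v : Lab p → Fin p.Q) (l : Lab p) (μ : G →₀ ℝ) :
    share ℓ R p (act g v) (g • l) (feat ℓ R (tr g μ)) = share ℓ R p v l (feat ℓ R μ) := by
  rw [share, share, act_smul, Sl_equiv, OT.smul_c, Xi_equiv]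

theorem share_quasi (v : Lab p → Fin p.Q) (l : Lab p) (μ : G →₀ ℝ) (m : ℤ) :
    share ℓ R p v l (feat ℓ R (tr (l.c ^ m) μ)) = share ℓ R p v l (feat ℓ R μ) := by
  rw [share, share, Sl_quasi, Xi_quasi]

theorem Y1_quasi (h : p.Ok ℓ R) (v : Lab p → Fin p.Q) (l : Lab p) (μ : G →₀ ℝ) :
    Y1 ℓ R p v l (feat ℓ R (tr l.c μ)) = ee (ang p l) * Y1 ℓ R p v l (feat ℓ R μ) := by
  have h1 := share_quasi (ℓ := ℓ) (R := R) v l μ 1
  have h2 := Xi_quasi (ℓ := ℓ) (R := R) v l.c μ 1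
  have h3 := Zl_quasi h l μ 1
  rw [zpow_one] at h1 h2 h3
  rw [Int.cast_one, mul_one] at h3
  rw [Y1, Y1, h1, h2, h3, mul_left_comm]

theorem Y1_equiv (h : p.Ok ℓ R) (g : G) (l : Lab p) : ∃ u : ℂ, ‖u‖ = 1 ∧ ∀ v μ,
    Y1 ℓ R p (act g v) (g • l) (feat ℓ R (tr g μ)) = u * Y1 ℓ R p v l (feat ℓ R μ) := by
  obtain ⟨u, hu, hZ⟩ := Zl_equiv h g l
  refine ⟨u, hu, fun v μ => ?_⟩
  rw [Y1, Y1, share_equiv, act_smul, OT.smul_c, Xi_equiv, hZ, mul_left_comm]

theorem mem_esupp {T : Type} (i : OT G T) (l : Lab p) :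
    l ∈ esupp ℓ R p i ↔ l.c = i.c ∧ ∃ x ∈ i.s, ∃ z ∈ ℓ.ball (2 * R), x * z ∈ l.s := by
  classical
  simp only [esupp, Finset.mem_image, Finset.mem_product, Finset.mem_univ, and_true, Prod.exists]
  constructor
  · rintro ⟨z, η, hz, rfl⟩
    exact ⟨rfl, i.base, base_mem i, z, hz, mem_mk' _ _ _⟩
  · rintro ⟨hc, x, hx, z, hz, hxz⟩
    obtain ⟨m, hm⟩ := exists_zpow i hx (base_mem i)
    refine ⟨z, l.tag, hz, ?_⟩
    rw [← hc, mk'_eq_iff_mem, ← hm, mul_assoc, ← hc]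
    exact zpow_mul_mem l hxz m

theorem esupp_smul {T : Type} (g : G) (i : OT G T) (l : Lab p) :
    g • l ∈ esupp ℓ R p (g • i) ↔ l ∈ esupp ℓ R p i := by
  rw [mem_esupp, mem_esupp, OT.smul_c, OT.smul_c, mul_left_inj, mul_right_inj, OT.smul_s,
    OT.smul_s]
  refine and_congr_right fun _ => ⟨?_, ?_⟩
  · rintro ⟨_, ⟨x, hx, rfl⟩, z, hz, y, hy, e⟩
    refine ⟨x, hx, z, hz, ?_⟩
    have : y = x * z := mul_left_cancel (a := g) (by simpa only [mul_assoc] using e)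
    exact this ▸ hy
  · rintro ⟨x, hx, z, hz, e⟩
    exact ⟨_, ⟨x, hx, rfl⟩, z, hz, _, e, (mul_assoc _ _ _).symm⟩

theorem card_esupp (h : p.Ok ℓ R) {T : Type} (i : OT G T) : (esupp ℓ R p i).card ≤ p.N1 := by
  classical
  refine Finset.card_image_le.trans ?_
  rw [Finset.card_product, Finset.card_univ, Fintype.card_coe]
  exact h.N1_ge

theorem esupp_deg {T : Type} [Fintype T] (i : OT G T) :
    ∃ t : Finset (OT G T), t.card ≤ (ℓ.ball (4 * R)).card * Fintype.card T ∧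
      ∀ i', ¬ Disjoint (esupp ℓ R p i) (esupp ℓ R p i') → i' ∈ t := by
  classical
  refine ⟨(ℓ.ball (4 * R) ×ˢ (Finset.univ : Finset T)).image
    fun q => OT.mk' i.c (i.base * q.1) q.2, Finset.card_image_le.trans ?_, fun i' hi' => ?_⟩
  · rw [Finset.card_product, Finset.card_univ]
  obtain ⟨l, hl, hl'⟩ := Finset.not_disjoint_iff.1 hi'
  obtain ⟨hc, x, hx, z, hz, hxz⟩ := (mem_esupp i l).1 hl
  obtain ⟨hc', x', hx', z', hz', hxz'⟩ := (mem_esupp i' l).1 hl'
  obtain ⟨m, hm⟩ := exists_zpow i hx (base_mem i)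
  obtain ⟨k, hk⟩ := exists_zpow l hxz' hxz
  refine Finset.mem_image.2 ⟨(z * z'⁻¹, i'.tag), Finset.mem_product.2 ⟨?_, Finset.mem_univ _⟩, ?_⟩
  · rw [ℓ.mem_ball] at hz hz' ⊢
    have := ℓ.len_mul z z'⁻¹
    rw [ℓ.len_inv] at this
    change ℓ.len (z * z'⁻¹) ≤ _
    omega
  · have e : i.base * (z * z'⁻¹) = i'.c ^ m * (i'.c ^ k * x') := by
      rw [← hm, ← hc, ← hc', mul_assoc, ← mul_assoc x, ← hk]
      group
    change OT.mk' i.c (i.base * (z * z'⁻¹)) i'.tag = i'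
    rw [e, ← hc, hc', mk'_eq_iff_mem]
    exact zpow_mul_mem i' (zpow_mul_mem i' hx' k) m

theorem Lab2.goodEv_smul' {Sh' : Finset (G → ℝ)} {w' : ℝ} (g : G) {i : OT G Sh'}
    {v : Lab p → Fin p.Q} (h : GoodEv ℓ R p Sh' w' i v) :
    GoodEv ℓ R p Sh' w' (g • i) (act g v) := by
  rintro _ ⟨x, hx, rfl⟩ μ hμ h1 h2
  rw [← tr_tr_inv g μ] at h1 h2 ⊢
  simp only [mul_assoc g x, feat_tr] at h1 h2
  obtain ⟨l, hl, hs⟩ := h x hx _ (NetAux.isProb_tr hμ g⁻¹) h1 h2
  exact ⟨g • l, by rw [OT.smul_c, OT.smul_c, hl], by rwa [share_equiv]⟩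

theorem goodEv_smul (Sh' : Finset (G → ℝ)) (w' : ℝ) (g : G) (i : OT G Sh')
    (v : Lab p → Fin p.Q) :
    GoodEv ℓ R p Sh' w' (g • i) (act g v) ↔ GoodEv ℓ R p Sh' w' i v := by
  refine ⟨fun h => ?_, goodEv_smul' g⟩
  have := goodEv_smul' g⁻¹ h
  rwa [inv_smul_smul, act_inv_act] at this

theorem goodEv_dep (h : p.Ok ℓ R) (Sh' : Finset (G → ℝ)) (w' : ℝ) (i : OT G Sh')
    (v v' : Lab p → Fin p.Q) (hv : ∀ a ∈ esupp ℓ R p i, v a = v' a)
    (hg : GoodEv ℓ R p Sh' w' i v) : GoodEv ℓ R p Sh' w' i v' := by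
  intro x hx μ hμ h1 h2
  obtain ⟨l, hl, hs⟩ := hg x hx μ hμ h1 h2
  have key : ∀ (l' : Lab p), l'.c = i.c → ∀ y ∈ l'.s, rr ℓ R p y l'.tag (feat ℓ R μ) ≠ 0 →
      v l' = v' l' := by
    intro l' hl' y hy h0
    refine hv l' ((mem_esupp i l').2 ⟨hl', x, hx, x⁻¹ * y, ?_, by simpa using hy⟩)
    rw [ℓ.mem_ball]
    refine majority ℓ R h.R_pos μ hμ x y (by linarith) ?_
    by_contra h3
    exact h0 (rr_eq_zero h _ (not_lt.1 h3))
  refine ⟨l, hl, ?_⟩
  have hS : Sl ℓ R p l (feat ℓ R μ) ≠ 0 := by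
    intro h0
    rw [share, h0, mul_zero, zero_div] at hs
    norm_num at hs
  have hvl : v l = v' l := by
    by_contra hne
    refine hS (finsum_mem_eq_zero_of_forall_eq_zero fun y hy => ?_)
    by_contra h0
    exact hne (key l hl y hy h0)
  have hX : Xi ℓ R p v l.c (feat ℓ R μ) = Xi ℓ R p v' l.c (feat ℓ R μ) :=
    Xi_congr fun y η h0 => key (OT.mk' l.c y η) hl y (mem_mk' _ _ _) h0
  rwa [share, hvl, hX] at hs

end Crest.Agent.R192
end

-- ▼ part PVc/R192/Lab3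

/-! Row 192: labels: derivative bounds and multiplicity. -/

set_option autoImplicit false
set_option linter.unusedSectionVars false

namespace Crest.Agent.R192

open Crest.AlgebraR.L1 MeasureTheory Matrix
open scoped ContDiff BoundedContinuousFunction

namespace Lab3

section HB
variable {E F : Type} [NormedAddCommGroup E] [NormedSpace ℝ E] [NormedAddCommGroup F]
  [NormedSpace ℝ F] {f g : E → F} {s : E → ℝ} {a : E} {C C' : ℝ}

/-- `f` is differentiable at `a` with derivative of norm at most `C` -/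
def HB (f : E → F) (a : E) (C : ℝ) : Prop := ∃ L : E →L[ℝ] F, HasFDerivAt f L a ∧ ‖L‖ ≤ C

theorem HB.mono (h : HB f a C) (hC : C ≤ C') : HB f a C' :=
  let ⟨L, h1, h2⟩ := h
  ⟨L, h1, h2.trans hC⟩

theorem HB.nonneg (h : HB f a C) : 0 ≤ C :=
  let ⟨_, _, h2⟩ := h
  (norm_nonneg _).trans h2

theorem HB.fderiv_le (h : HB f a C) : ‖fderiv ℝ f a‖ ≤ C := by
  obtain ⟨L, h1, h2⟩ := h
  rwa [h1.fderiv]

theorem HB.congr (h : HB f a C) (e : g =ᶠ[nhds a] f) : HB g a C :=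
  let ⟨L, h1, h2⟩ := h
  ⟨L, h1.congr_of_eventuallyEq e, h2⟩

theorem HB.const (c : F) (a : E) : HB (fun _ => c) a 0 := ⟨0, hasFDerivAt_const c a, norm_zero.le⟩

theorem HB.const_add (h : HB f a C) (c : F) : HB (fun x => c + f x) a C :=
  let ⟨L, h1, h2⟩ := h
  ⟨L, h1.const_add c, h2⟩

theorem HB.sum {ι : Type} (t : Finset ι) {f : ι → E → F} {C : ι → ℝ}
    (h : ∀ i, HB (f i) a (C i)) : HB (fun x => ∑ i ∈ t, f i x) a (∑ i ∈ t, C i) := by
  choose L h1 h2 using h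
  exact ⟨∑ i ∈ t, L i, HasFDerivAt.fun_sum fun i _ => h1 i, norm_sum_le_of_le t fun i _ => h2 i⟩

theorem HB.smul (h : HB s a C) (h' : HB f a C') :
    HB (fun x => s x • f x) a (|s a| * C' + C * ‖f a‖) := by
  obtain ⟨L, h1, h2⟩ := h
  obtain ⟨L', h1', h2'⟩ := h'
  refine ⟨_, h1.fun_smul h1', (norm_add_le _ _).trans ?_⟩
  rw [norm_smul, ContinuousLinearMap.norm_smulRight_apply, Real.norm_eq_abs]
  gcongr

theorem HB.comp (h : HB s a C) {φ : ℝ → ℝ} {φ' : ℝ} (hφ : HasDerivAt φ φ' (s a)) :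
    HB (fun x => φ (s x)) a (|φ'| * C) := by
  obtain ⟨L, h1, h2⟩ := h
  refine ⟨_, hφ.comp_hasFDerivAt a h1, ?_⟩
  rw [norm_smul, Real.norm_eq_abs]
  gcongr

end HB

local notation "σ" => Real.smoothTransition

theorem hasDerivAt_sig (y : ℝ) : HasDerivAt σ (deriv σ y) y :=
  ((Real.smoothTransition.contDiff (n := 1)).differentiable (by norm_num) y).hasDerivAt

theorem deriv_sig_of_nonpos {y : ℝ} (hy : y ≤ 0) : deriv σ y = 0 :=
  IsLocalMin.deriv_eq_zero (.of_forall fun x => by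
    rw [Real.smoothTransition.zero_of_nonpos hy]
    exact Real.smoothTransition.nonneg x)

theorem deriv_sig_of_one_le {y : ℝ} (hy : 1 ≤ y) : deriv σ y = 0 :=
  IsLocalMax.deriv_eq_zero (.of_forall fun x => by
    rw [Real.smoothTransition.one_of_one_le hy]
    exact Real.smoothTransition.le_one x)

theorem cut_bound {u u0 : ℝ} (hu : 0 < u) (h0 : 0 < u0) :
    |1 * σ (u / u0 - 1) + u * (deriv σ (u / u0 - 1) * (1 / u0))| * u ≤
      u * σ (u / u0 - 1) + if u0 < u then 4 * Ksig * u0 else 0 := by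
  have hK := one_le_Ksig
  have hs := Real.smoothTransition.nonneg (u / u0 - 1)
  have h1 : |u * (deriv σ (u / u0 - 1) * (1 / u0))| * u ≤ if u0 < u then 4 * Ksig * u0 else 0 := by
    split_ifs with h
    · rcases le_total u (2 * u0) with h2 | h2
      · rw [abs_mul, abs_mul, abs_of_pos hu, abs_of_pos (one_div_pos.2 h0)]
        calc _ ≤ 2 * u0 * (Ksig * (1 / u0)) * (2 * u0) := by
              gcongr
              exact abs_deriv_le_Ksig _
          _ = _ := by field_simp; norm_num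
      · rw [deriv_sig_of_one_le (by rw [le_sub_iff_add_le, le_div_iff₀ h0]; linarith)]
        simp only [zero_mul, mul_zero, abs_zero]
        positivity
    · rw [deriv_sig_of_nonpos (by rw [sub_nonpos, div_le_one h0]; linarith)]
      simp
  calc _ ≤ (|1 * σ (u / u0 - 1)| + |u * (deriv σ (u / u0 - 1) * (1 / u0))|) * u := by
        gcongr
        exact abs_add_le _ _
    _ ≤ _ := by
        rw [add_mul, one_mul, abs_of_nonneg hs, mul_comm _ u]
        linarith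

variable {G : Type} [Group G] [TopologicalSpace G] [DiscreteTopology G] {ℓ : Len G} {R : ℕ}
  {p : LP G}

theorem hb_uu {β : ℝ} (hβ : 0 < β) (x : G) (η : G → ℝ) (a : G →ᵇ ℝ) :
    HB (uu ℓ R β x η) a (β * uu ℓ R β x η a) := by
  have h1 : ∀ z, HB (fun a : G →ᵇ ℝ => Real.exp (β * (a (x * z) - η z)) +
      Real.exp (-(β * (a (x * z) - η z)))) a
      (β * (Real.exp (β * (a (x * z) - η z)) + Real.exp (-(β * (a (x * z) - η z))))) := by
    intro z
    have e : HB (fun a : G →ᵇ ℝ => a (x * z)) a 1 :=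
      ⟨BoundedContinuousFunction.evalCLM ℝ (x * z),
        (BoundedContinuousFunction.evalCLM ℝ (x * z) : (G →ᵇ ℝ) →L[ℝ] ℝ).hasFDerivAt,
        ContinuousLinearMap.opNorm_le_bound _ zero_le_one fun f => by
          rw [one_mul]
          exact f.norm_coe_le_norm _⟩
    have d := ((hasDerivAt_id' (a (x * z))).sub_const (η z)).const_mul β
    refine (e.comp (d.exp.fun_add d.fun_neg.exp)).mono ?_
    have := Real.exp_pos (β * (a (x * z) - η z))
    have := Real.exp_pos (-(β * (a (x * z) - η z)))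
    rw [mul_one, abs_le]
    constructor <;> nlinarith
  have h2 := HB.sum (ℓ.ball (2 * R)) h1
  have h3 := inv_pos.1 (uu_pos (ℓ := ℓ) (R := R) β x η a)
  refine (h2.comp (hasDerivAt_inv h3.ne')).mono (le_of_eq ?_)
  rw [← Finset.mul_sum, uu, abs_neg, abs_of_pos (by positivity)]
  field_simp

open Classical in
/-- bound for the derivative of `rr` -/
noncomputable def bd (ℓ : Len G) (R : ℕ) (p : LP G) (x : G) (η : G → ℝ) (a : G →ᵇ ℝ) : ℝ :=
  p.β * (rr ℓ R p x η a + if p.u0 < uu ℓ R p.β x η a then 4 * Ksig * p.u0 else 0)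

theorem hb_rr (h : p.Ok ℓ R) (x : G) (η : G → ℝ) (a : G →ᵇ ℝ) :
    HB (rr ℓ R p x η) a (bd ℓ R p x η a) := by
  have d := (hasDerivAt_id' (uu ℓ R p.β x η a)).fun_mul ((hasDerivAt_sig _).comp _
    (((hasDerivAt_id' (uu ℓ R p.β x η a)).div_const p.u0).sub_const 1))
  refine ((hb_uu h.β_pos x η a).comp d).mono ?_
  rw [mul_left_comm]
  exact mul_le_mul_of_nonneg_left (cut_bound (uu_pos _ _ _ _) (Real.exp_pos _)) h.β_pos.le

section num
variable {F : Type} [NormedAddCommGroup F] [NormedSpace ℝ F] (ℓ R p) (v : Lab p → Fin p.Q) (c : G)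
  (X : Finset G)

/-- weighted sum over the templates with anchor in `X` -/
noncomputable def num (k : G → p.Sh → F) (a : G →ᵇ ℝ) : F :=
  ∑ x ∈ X, ∑ η : p.Sh, (rr ℓ R p x η a * pw p.Q p.P (v (OT.mk' c x η))) • k x η

/-- finite version of the total weight -/
noncomputable def den (a : G →ᵇ ℝ) : ℝ := p.T0 + num ℓ R p v c X (fun _ _ => (1 : ℝ)) a

/-- normalised weighted sum -/
noncomputable def quo (k : G → p.Sh → F) (a : G →ᵇ ℝ) : F :=
  (den ℓ R p v c X a)⁻¹ • num ℓ R p v c X k a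

/-- bound for the derivatives of the weighted sums -/
noncomputable def tot (a : G →ᵇ ℝ) : ℝ :=
  ∑ x ∈ X, ∑ η : p.Sh, bd ℓ R p x η a * pw p.Q p.P (v (OT.mk' c x η))

variable {ℓ R p} {k : G → p.Sh → F}

theorem pw_nonneg (l : Lab p) : 0 ≤ pw p.Q p.P (v l) := zero_le_one.trans (one_le_pw _ _ _)

theorem norm_num_le (hk : ∀ x η, ‖k x η‖ ≤ 1) (a : G →ᵇ ℝ) :
    ‖num ℓ R p v c X k a‖ ≤ num ℓ R p v c X (fun _ _ => (1 : ℝ)) a := by
  refine norm_sum_le_of_le _ fun x _ => norm_sum_le_of_le _ fun η _ => ?_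
  have := mul_nonneg (rr_nonneg (ℓ := ℓ) (R := R) (p := p) x η a) (pw_nonneg v (OT.mk' c x η))
  rw [norm_smul, Real.norm_of_nonneg this]
  exact mul_le_mul_of_nonneg_left (hk x η) this

theorem T0_le_den (a : G →ᵇ ℝ) : p.T0 ≤ den ℓ R p v c X a :=
  le_add_of_nonneg_right ((norm_nonneg _).trans
    (norm_num_le v c X (k := fun _ _ => (1 : ℝ)) (fun _ _ => norm_one.le) a))

theorem den_pos (h : p.Ok ℓ R) (a : G →ᵇ ℝ) : 0 < den ℓ R p v c X a :=
  (T0_pos h).trans_le (T0_le_den v c X a)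

theorem norm_quo_le (h : p.Ok ℓ R) (hk : ∀ x η, ‖k x η‖ ≤ 1) (a : G →ᵇ ℝ) :
    ‖quo ℓ R p v c X k a‖ ≤ 1 := by
  have h0 := den_pos v c X h a
  rw [quo, norm_smul, norm_inv, Real.norm_of_nonneg h0.le, inv_mul_le_iff₀ h0, mul_one]
  exact (norm_num_le v c X hk a).trans (le_add_of_nonneg_left (T0_pos h).le)

theorem hb_num (h : p.Ok ℓ R) (hk : ∀ x η, ‖k x η‖ ≤ 1) (a : G →ᵇ ℝ) :
    HB (num ℓ R p v c X k) a (tot ℓ R p v c X a) := by
  refine HB.sum X fun x => HB.sum Finset.univ fun η => ?_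
  have h1 := hb_rr h x η a
  refine ((h1.smul (HB.const (pw p.Q p.P (v (OT.mk' c x η)) • k x η) a)).congr
    (.of_forall fun b => mul_smul _ _ _)).mono ?_
  rw [mul_zero, zero_add, norm_smul, Real.norm_of_nonneg (pw_nonneg v _)]
  exact mul_le_mul_of_nonneg_left (mul_le_of_le_one_right (pw_nonneg v _) (hk x η)) h1.nonneg

theorem hb_quo (h : p.Ok ℓ R) (hk : ∀ x η, ‖k x η‖ ≤ 1) (a : G →ᵇ ℝ) :
    HB (quo ℓ R p v c X k) a (2 * (tot ℓ R p v c X a / den ℓ R p v c X a)) := by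
  have h0 := den_pos v c X h a
  have h1 := hb_num v c X h hk a
  have h2 : HB (den ℓ R p v c X) a (tot ℓ R p v c X a) :=
    (hb_num v c X h (k := fun _ _ => (1 : ℝ)) (fun _ _ => norm_one.le) a).const_add _
  have h3 : ‖num ℓ R p v c X k a‖ ≤ den ℓ R p v c X a :=
    (norm_num_le v c X hk a).trans (le_add_of_nonneg_left (T0_pos h).le)
  have h4 := h1.nonneg
  refine ((h2.comp (hasDerivAt_inv h0.ne')).smul h1).mono ?_
  rw [abs_neg, abs_of_pos (by positivity), abs_of_pos (by positivity)]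
  calc _ ≤ (den ℓ R p v c X a)⁻¹ * tot ℓ R p v c X a +
        (den ℓ R p v c X a ^ 2)⁻¹ * tot ℓ R p v c X a * den ℓ R p v c X a := by gcongr
    _ = _ := by field_simp; norm_num

open Classical in
theorem card_active_le (h : p.Ok ℓ R) {μ : G →₀ ℝ} (hμ : IsProb μ) :
    ((X ×ˢ (Finset.univ : Finset p.Sh)).filter
      fun q => p.u0 < uu ℓ R p.β q.1 q.2 (feat ℓ R μ)).card ≤ p.N1 := by
  have hm : ∀ (x : G) (η : p.Sh), p.u0 < uu ℓ R p.β x η (feat ℓ R μ) → 1 / 2 < feat ℓ R μ x := by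
    intro x η hx
    have h1 := abs_sub_lt_of_uu h hx (z := 1) (by rw [ℓ.mem_ball, ℓ.len_one]; exact Nat.zero_le _)
    have h2 := h.valid η η.2
    have h3 := h.t_le
    rw [mul_one] at h1
    linarith [(abs_lt.1 h1).1]
  rcases Finset.eq_empty_or_nonempty ((X ×ˢ (Finset.univ : Finset p.Sh)).filter
      fun q => p.u0 < uu ℓ R p.β q.1 q.2 (feat ℓ R μ)) with h0 | ⟨q0, h0⟩
  · rw [h0]
    exact Nat.zero_le _
  refine le_trans ?_ h.N1_ge
  rw [← Fintype.card_coe p.Sh, ← Finset.card_univ, ← Finset.card_product]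
  refine Finset.card_le_card_of_injOn (fun q => (q0.1⁻¹ * q.1, q.2)) (fun q hq => ?_)
    fun q _ q' _ e => ?_
  · refine Finset.mem_coe.2 (Finset.mem_product.2 ⟨(ℓ.mem_ball _ _).2 ?_, Finset.mem_univ _⟩)
    exact majority ℓ R h.R_pos μ hμ _ _ (hm _ _ (Finset.mem_filter.1 h0).2)
      (hm _ _ (Finset.mem_filter.1 hq).2)
  · obtain ⟨e1, e2⟩ := Prod.mk.inj e
    exact Prod.ext (mul_left_cancel e1) e2

theorem tot_le (h : p.Ok ℓ R) {μ : G →₀ ℝ} (hμ : IsProb μ) :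
    tot ℓ R p v c X (feat ℓ R μ) / den ℓ R p v c X (feat ℓ R μ) ≤ (1 + 4 * Ksig) * p.β := by
  classical
  have hK := one_le_Ksig
  have hu : 0 < p.u0 := Real.exp_pos _
  have h1 : ∑ x ∈ X, ∑ η : p.Sh, (if p.u0 < uu ℓ R p.β x η (feat ℓ R μ) then 4 * Ksig * p.u0 else 0) *
      pw p.Q p.P (v (OT.mk' c x η)) ≤ 4 * Ksig * p.T0 := by
    calc _ ≤ ∑ x ∈ X, ∑ η : p.Sh, if p.u0 < uu ℓ R p.β x η (feat ℓ R μ) then
          4 * Ksig * p.u0 * (p.Q : ℝ) ^ p.P else 0 := by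
          refine Finset.sum_le_sum fun x _ => Finset.sum_le_sum fun η _ => ?_
          split_ifs
          · exact mul_le_mul_of_nonneg_left (pw_le _ _ _) (by positivity)
          · rw [zero_mul]
      _ ≤ p.N1 * (4 * Ksig * p.u0 * (p.Q : ℝ) ^ p.P) := by
          rw [← Finset.sum_product', ← Finset.sum_filter, Finset.sum_const, nsmul_eq_mul]
          gcongr
          exact card_active_le X h hμ
      _ = _ := by rw [LP.T0]; ring
  have h2 := T0_le_den (ℓ := ℓ) (R := R) v c X (feat ℓ R μ)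
  have h3 := T0_pos h
  have h4 : tot ℓ R p v c X (feat ℓ R μ) = p.β * (den ℓ R p v c X (feat ℓ R μ) - p.T0 +
      ∑ x ∈ X, ∑ η : p.Sh, (if p.u0 < uu ℓ R p.β x η (feat ℓ R μ) then 4 * Ksig * p.u0 else 0) *
        pw p.Q p.P (v (OT.mk' c x η))) := by
    simp only [tot, den, num, bd, add_sub_cancel_left, smul_eq_mul, mul_one, Finset.mul_sum,
      ← Finset.sum_add_distrib, mul_assoc p.β, add_mul]
  rw [div_le_iff₀ (den_pos v c X h _), h4, mul_comm _ p.β, mul_assoc p.β]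
  refine mul_le_mul_of_nonneg_left ?_ h.β_pos.le
  nlinarith

end num

open Classical in
/-- coefficients that select the templates of the label `l` -/
noncomputable def sel {F : Type} [Zero F] (l : Lab p) (f : G → F) (x : G) (η : p.Sh) : F :=
  if OT.mk' l.c x η = l then f x else 0

theorem norm_sel_le {F : Type} [NormedAddCommGroup F] (l : Lab p) {f : G → F}
    (hf : ∀ x, ‖f x‖ ≤ 1) (x : G) (η : p.Sh) : ‖sel l f x η‖ ≤ 1 := by
  unfold sel
  split_ifs
  exacts [hf x, norm_zero.trans_le zero_le_one]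

open Classical in
theorem num_sel {F : Type} [NormedAddCommGroup F] [NormedSpace ℝ F] (v : Lab p → Fin p.Q)
    (l : Lab p) (X : Finset G) (f : G → F) (a : G →ᵇ ℝ) : num ℓ R p v l.c X (sel l f) a =
      pw p.Q p.P (v l) • ∑ x ∈ X.filter (· ∈ l.s), rr ℓ R p x l.tag a • f x := by
  rw [num, Finset.sum_filter, Finset.smul_sum]
  refine Finset.sum_congr rfl fun x _ => ?_
  rw [Finset.sum_eq_single l.tag (fun η _ hη => ?_) (by simp), sel]
  · by_cases hx : x ∈ l.s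
    · rw [if_pos hx, (mk'_eq_iff_mem l x).2 hx, if_pos rfl, mul_comm, mul_smul]
    · rw [if_neg hx, if_neg (mt (mk'_eq_iff_mem l x).1 hx), smul_zero, smul_zero]
  · rw [sel, if_neg fun e => hη (congrArg OT.tag e), smul_zero]

theorem Xi_eq_den (h : p.Ok ℓ R) (v : Lab p → Fin p.Q) (c : G) {a : G →ᵇ ℝ} {X : Finset G}
    (hX : ∀ x, x ∉ X → a x ≤ 1 / 2) : Xi ℓ R p v c a = den ℓ R p v c X a := by
  simp only [Xi_eq h v c X hX, den, num, smul_eq_mul, mul_one]

theorem share_eq (h : p.Ok ℓ R) (v : Lab p → Fin p.Q) (l : Lab p) {a : G →ᵇ ℝ} {X : Finset G}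
    (hX : ∀ x, x ∉ X → a x ≤ 1 / 2) :
    share ℓ R p v l a = quo ℓ R p v l.c X (sel l fun _ => (1 : ℝ)) a := by
  rw [share, quo, num_sel, Xi_eq_den h v _ hX, Sl_eq h l X hX]
  simp only [smul_eq_mul, mul_one]
  rw [div_eq_inv_mul]

theorem Y1_eq (h : p.Ok ℓ R) (v : Lab p → Fin p.Q) (l : Lab p) {a : G →ᵇ ℝ} {X : Finset G}
    (hX : ∀ x, x ∉ X → a x ≤ 1 / 2) : Y1 ℓ R p v l a = σ (10 * share ℓ R p v l a - 6) •
      quo ℓ R p v l.c X (sel l fun x => ee (ang p l * l.idx x)) a := by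
  rw [Y1, quo, num_sel, Xi_eq_den h v _ hX, Zl_eq h l X hX, smul_smul, smul_smul, mul_assoc,
    div_eq_inv_mul]
  simp only [Complex.real_smul]

theorem norm_sel_one (l : Lab p) (x : G) (η : p.Sh) : ‖sel l (fun _ => (1 : ℝ)) x η‖ ≤ 1 :=
  norm_sel_le l (fun _ => norm_one.le) x η

theorem norm_sel_ee (l : Lab p) (x : G) (η : p.Sh) :
    ‖sel l (fun x => ee (ang p l * l.idx x)) x η‖ ≤ 1 :=
  norm_sel_le l (fun _ => (norm_ee _).le) x η

/-- the derivative bounds, in terms of a constant that is controlled for probability measures -/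
theorem exists_hb (h : p.Ok ℓ R) (v : Lab p → Fin p.Q) (l : Lab p) (μ : G →₀ ℝ) :
    ∃ C, (IsProb μ → C ≤ 2 * (1 + 4 * Ksig) * p.β) ∧ HB (share ℓ R p v l) (feat ℓ R μ) C ∧
      HB (Y1 ℓ R p v l) (feat ℓ R μ) ((σ (10 * share ℓ R p v l (feat ℓ R μ) - 6) +
        10 * |deriv σ (10 * share ℓ R p v l (feat ℓ R μ) - 6)|) * C) := by
  obtain ⟨X, hX⟩ := exists_finset_nhds (ℓ := ℓ) h.R_pos μ
  have h1 := (hb_quo v l.c X h (norm_sel_one l) (feat ℓ R μ)).congr
    (hX.mono fun a ha => share_eq h v l ha)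
  refine ⟨_, fun hμ => ?_, h1, ?_⟩
  · rw [mul_assoc]
    exact mul_le_mul_of_nonneg_left (tot_le v l.c X h hμ) zero_le_two
  · have d := (hasDerivAt_sig _).comp _
      (((hasDerivAt_id' (share ℓ R p v l (feat ℓ R μ))).const_mul 10).sub_const 6)
    refine (((h1.comp d).smul (hb_quo v l.c X h (norm_sel_ee l) (feat ℓ R μ))).congr
      (hX.mono fun a ha => Y1_eq h v l ha)).mono ?_
    have h2 := norm_quo_le v l.c X h (norm_sel_ee l) (feat ℓ R μ)
    have h3 := h1.nonneg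
    rw [add_mul, Function.comp_apply, abs_of_nonneg (Real.smoothTransition.nonneg _), abs_mul,
      mul_one, abs_of_pos (by norm_num : (0 : ℝ) < 10), mul_comm _ (10 : ℝ)]
    exact add_le_add le_rfl (mul_le_of_le_one_right (by positivity) h2)

end Lab3

open Lab3

variable {G : Type} [Group G] [TopologicalSpace G] [DiscreteTopology G] {ℓ : Len G} {R : ℕ}
  {p : LP G}


theorem share_add_le (h : p.Ok ℓ R) (v : Lab p → Fin p.Q) {l l' : Lab p} (hc : l.c = l'.c)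
    (hne : l ≠ l') (μ : G →₀ ℝ) :
    share ℓ R p v l (feat ℓ R μ) + share ℓ R p v l' (feat ℓ R μ) ≤ 1 := by
  obtain ⟨X, hX⟩ := exists_finset_nhds (ℓ := ℓ) h.R_pos μ
  have h1 := norm_quo_le v l.c X h
    (k := fun x η => sel l (fun _ => (1 : ℝ)) x η + sel l' (fun _ => (1 : ℝ)) x η) (fun x η => by
      unfold sel
      rw [← hc]
      split_ifs with h1 h2
      · exact absurd (h1.symm.trans h2) hne
      all_goals simp) (feat ℓ R μ)
  rw [share_eq h v l hX.self_of_nhds, share_eq h v l' hX.self_of_nhds, ← hc]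
  refine le_trans (le_of_eq ?_) ((le_abs_self _).trans h1)
  simp only [quo, num, smul_add, Finset.sum_add_distrib]

theorem share_fderiv_le (h : p.Ok ℓ R) (v : Lab p → Fin p.Q) (l : Lab p) {μ : G →₀ ℝ}
    (hμ : IsProb μ) : ‖fderiv ℝ (share ℓ R p v l) (feat ℓ R μ)‖ ≤ 2 * (1 + 4 * Ksig) * p.β := by
  obtain ⟨C, h1, h2, -⟩ := exists_hb h v l μ
  exact h2.fderiv_le.trans (h1 hμ)

theorem Y1_norm_le (h : p.Ok ℓ R) (v : Lab p → Fin p.Q) (l : Lab p) (μ : G →₀ ℝ) :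
    ‖Y1 ℓ R p v l (feat ℓ R μ)‖ ≤ 1 := by
  obtain ⟨X, hX⟩ := exists_finset_nhds (ℓ := ℓ) h.R_pos μ
  rw [Y1_eq h v l hX.self_of_nhds, norm_smul,
    Real.norm_of_nonneg (Real.smoothTransition.nonneg _)]
  exact mul_le_one₀ (Real.smoothTransition.le_one _) (norm_nonneg _)
    (norm_quo_le v l.c X h (norm_sel_ee l) _)

theorem Y1_fderiv_le (h : p.Ok ℓ R) (v : Lab p → Fin p.Q) (l : Lab p) {μ : G →₀ ℝ}
    (hμ : IsProb μ) :
    ‖fderiv ℝ (Y1 ℓ R p v l) (feat ℓ R μ)‖ ≤ 22 * Ksig * (1 + 4 * Ksig) * p.β := by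
  obtain ⟨C, h1, h2, h3⟩ := exists_hb h v l μ
  have hK := one_le_Ksig
  have h4 := Real.smoothTransition.le_one (10 * share ℓ R p v l (feat ℓ R μ) - 6)
  have h5 := abs_deriv_le_Ksig (10 * share ℓ R p v l (feat ℓ R μ) - 6)
  calc _ ≤ _ := h3.fderiv_le
    _ ≤ 11 * Ksig * (2 * (1 + 4 * Ksig) * p.β) :=
        mul_le_mul (by linarith) (h1 hμ) h2.nonneg (by linarith)
    _ = _ := by ring

theorem Y1_inactive (h : p.Ok ℓ R) (v : Lab p → Fin p.Q) (l : Lab p) (μ : G →₀ ℝ)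
    (hs : share ℓ R p v l (feat ℓ R μ) ≤ 6 / 10) :
    Y1 ℓ R p v l (feat ℓ R μ) = 0 ∧ fderiv ℝ (Y1 ℓ R p v l) (feat ℓ R μ) = 0 := by
  obtain ⟨C, -, -, h3⟩ := exists_hb h v l μ
  have h4 : 10 * share ℓ R p v l (feat ℓ R μ) - 6 ≤ 0 := by linarith
  have h5 := h3.fderiv_le
  rw [Real.smoothTransition.zero_of_nonpos h4, deriv_sig_of_nonpos h4, abs_zero, mul_zero, add_zero,
    zero_mul] at h5
  exact ⟨by simp [Y1, Real.smoothTransition.zero_of_nonpos h4],
    (ContinuousLinearMap.opNorm_zero_iff _).1 (le_antisymm h5 (norm_nonneg _))⟩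

theorem active_unique (h : p.Ok ℓ R) (v : Lab p → Fin p.Q) {l l' : Lab p} (hc : l.c = l'.c)
    {μ μ' : G →₀ ℝ} (hμ : IsProb μ) (hμ' : IsProb μ')
    (hd : 20 * (1 + 4 * Ksig) * p.β * ‖feat ℓ R μ - feat ℓ R μ'‖ ≤ 1)
    (hs : 6 / 10 < share ℓ R p v l (feat ℓ R μ)) (hs' : 6 / 10 < share ℓ R p v l' (feat ℓ R μ')) :
    l = l' := by
  by_contra hne
  have h1 := share_add_le h v hc hne μ
  have h2 : ∀ a ∈ segment ℝ (feat ℓ R μ') (feat ℓ R μ), ∃ ν, IsProb ν ∧ a = feat ℓ R ν := by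
    rw [segment_eq_image]
    rintro _ ⟨t, ht, rfl⟩
    exact ⟨_, hμ'.convex hμ ht.1 ht.2, by simp only [feat, pr, map_add, map_smul]⟩
  have h3 := (convex_segment (feat ℓ R μ') (feat ℓ R μ)).norm_image_sub_le_of_norm_fderiv_le
    (f := share ℓ R p v l') (C := 2 * (1 + 4 * Ksig) * p.β) (fun a ha => by
      obtain ⟨ν, -, rfl⟩ := h2 a ha
      exact (share_smooth h v l' ν).differentiableAt (by simp)) (fun a ha => by
      obtain ⟨ν, hν, rfl⟩ := h2 a ha
      exact share_fderiv_le h v l' hν) (left_mem_segment _ _ _) (right_mem_segment _ _ _)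
  linarith [(abs_le.1 h3).1]

end Crest.Agent.R192
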