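import Crest.Agent.PVc.R192.Defs
import Crest.Agent.PVc.R192.TwoPt
import Crest.Agent.PVc.R192.Cost

-- ▼ part PVc/R192/SimplexAux
section

/-! Row 192: coordinates on the simplex indexed by natural numbers. -/

set_option autoImplicit false

namespace Crest.Agent.R192.Sx

open Crest.AlgebraR.L1 MeasureTheory Matrix

variable {d : ℕ}

/-- `(0, y 0, …, y (d-1), c, c, …)` -/
def tl (c : ℝ) (y : V d) (k : ℕ) : ℝ :=
  if k = 0 then 0 else if h : k - 1 < d then y ⟨k - 1, h⟩ else c

@[simp] theorem tl_zero (c : ℝ) (y : V d) : tl c y 0 = 0 := by simp [tl]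

theorem tl_succ (c : ℝ) (y : V d) (i : Fin d) : tl c y (i + 1) = y i := by simp [tl]

theorem tl_succ' (c : ℝ) (y : V d) {k : ℕ} (h : k < d) : tl c y (k + 1) = y ⟨k, h⟩ :=
  tl_succ c y ⟨k, h⟩

theorem tl_big (c : ℝ) (y : V d) {k : ℕ} (h : d < k) : tl c y k = c := by
  rw [tl, if_neg (by omega), dif_neg (by omega)]

theorem continuous_tl (c : ℝ) (k : ℕ) : Continuous fun y : V d => tl c y k := by
  unfold tl
  split_ifs
  · exact continuous_const
  · exact continuous_apply _
  · exact continuous_const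

theorem ext_gemb (y : V d) (i : Fin (d + 2)) : ext (gemb d y) i = tl 1 y i := by
  rw [gemb_apply, ext]
  refine Fin.lastCases ?_ (fun i => ?_) i
  · rw [Fin.snoc_last, Fin.cons_zero, zero_add, tl_big _ _ (by simp)]
  · rw [Fin.snoc_castSucc]
    refine Fin.cases ?_ (fun j => ?_) i
    · simp
    · rw [Fin.cons_succ, Fin.val_castSucc, Fin.val_succ, tl_succ]

theorem mem_iff (y : V d) : y ∈ simplex d ↔ ∀ k ≤ d, tl 1 y k ≤ tl 1 y (k + 1) := by
  show Monotone (ext (gemb d y)) ↔ _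
  rw [Fin.monotone_iff_le_succ]
  simp only [ext_gemb, Fin.val_castSucc, Fin.val_succ]
  exact ⟨fun h k hk => h ⟨k, by omega⟩, fun h i => h i (by omega)⟩

theorem mono_of_mem {y : V d} (h : y ∈ simplex d) : Monotone (tl 1 y) := by
  refine monotone_nat_of_le_succ fun k => ?_
  by_cases hk : k ≤ d
  · exact (mem_iff y).1 h k hk
  · rw [tl_big _ _ (by omega), tl_big _ _ (by omega)]

theorem predAbove_val {n : ℕ} (p : Fin n) (j : Fin (n + 1)) :
    (p.predAbove j : ℕ) = if (p : ℕ) < j then (j : ℕ) - 1 else j := by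
  unfold Fin.predAbove
  split_ifs with h1 h2 h2
  · simp
  · exact absurd h1 h2
  · exact absurd h2 h1
  · simp

theorem fy_apply (p : Fin (d + 2)) (y : V d) (j : Fin (d + 1)) :
    fy p y j = tl 1 y (if (p : ℕ) < j + 1 then j else j + 1) := by
  rw [fy, Fin.tail, faceθ, ext_gemb, predAbove_val]
  simp

theorem cy_apply (y : V d) (j : Fin d) : cy y j = tl 1 y (j + 2) - tl 1 y 1 := by
  rw [cy, rotθ, rotθ, ext_gemb, ext_gemb]
  simp

theorem succAbove_val {n : ℕ} (i : Fin (n + 1)) (j : Fin n) :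
    (i.succAbove j : ℕ) = if (j : ℕ) < i then (j : ℕ) else j + 1 := by
  unfold Fin.succAbove
  split_ifs with h1 h2 h2
  · simp
  · exact absurd h1 h2
  · exact absurd h2 h1
  · simp

theorem tl_insertNth (i : Fin (d + 1)) (t : ℝ) (y : V d) (k : ℕ) :
    tl 1 (Fin.insertNth (α := fun _ => ℝ) i t y) k =
      if k ≤ i then tl 1 y k else if k = i + 1 then t else tl 1 y (k - 1) := by
  have hi := i.2
  rcases k with _ | k
  · simp
  by_cases hk : k < d + 1
  swap
  · rw [tl_big _ _ (by omega), if_neg (by omega), if_neg (by omega), tl_big _ _ (by omega)]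
  rw [tl_succ' _ _ hk]
  rcases lt_trichotomy k i with h | h | h
  · have e : (⟨k, hk⟩ : Fin (d + 1)) = i.succAbove ⟨k, by omega⟩ := by
      ext; simp [succAbove_val, h]
    rw [e, Fin.insertNth_apply_succAbove, if_pos (by omega), tl_succ']
  · have e : (⟨k, hk⟩ : Fin (d + 1)) = i := Fin.ext h
    rw [e, Fin.insertNth_apply_same, if_neg (by omega), if_pos (by omega)]
  · obtain ⟨m, rfl⟩ : ∃ m, k = m + 1 := ⟨k - 1, by omega⟩
    have e : (⟨m + 1, hk⟩ : Fin (d + 1)) = i.succAbove ⟨m, by omega⟩ := by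
      ext
      rw [succAbove_val, if_neg (by simp; omega)]
    rw [e, Fin.insertNth_apply_succAbove, if_neg (by omega), if_neg (by omega),
      Nat.add_sub_cancel, tl_succ']

theorem insertNth_mem (i : Fin (d + 1)) (t : ℝ) (y : V d) :
    Fin.insertNth (α := fun _ => ℝ) i t y ∈ simplex (d + 1) ↔
      y ∈ simplex d ∧ t ∈ Set.Icc (tl 1 y i) (tl 1 y (i + 1)) := by
  have hi := i.2
  simp only [mem_iff, tl_insertNth, Set.mem_Icc]
  constructor
  · intro h
    have h1 := h i (by omega)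
    have h2 := h (i + 1) (by omega)
    rw [if_pos le_rfl, if_neg (by omega), if_pos rfl] at h1
    rw [if_neg (by omega), if_pos rfl, if_neg (by omega), if_neg (by omega),
      Nat.add_sub_cancel] at h2
    refine ⟨fun k hk => ?_, h1, h2⟩
    rcases lt_trichotomy k i with h3 | h3 | h3
    · have := h k (by omega)
      rwa [if_pos (by omega), if_pos (by omega)] at this
    · rw [h3]
      exact h1.trans h2
    · have := h (k + 1) (by omega)
      rwa [if_neg (by omega), if_neg (by omega), if_neg (by omega), if_neg (by omega)] at this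
  · rintro ⟨h, h1, h2⟩ k hk
    rcases lt_trichotomy k i with h3 | h3 | h3
    · rw [if_pos (by omega), if_pos (by omega)]
      exact h k (by omega)
    · rw [if_pos (by omega), if_neg (by omega), if_pos (by omega), h3]
      exact h1
    · rw [if_neg (by omega), if_neg (show ¬ k + 1 ≤ i by omega),
        if_neg (show ¬ k + 1 = i + 1 by omega), Nat.add_sub_cancel]
      split_ifs with h4
      · rw [h4]
        exact h2
      · have := h (k - 1) (by omega)
        rwa [show k - 1 + 1 = k by omega] at this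

theorem tl_one_eq (u : V d) (k : ℕ) : tl 1 u k = tl 0 u k + tl 1 (0 : V d) k := by
  unfold tl
  split_ifs <;> simp

theorem tl_ev (j : Fin d) (k : ℕ) : tl 0 (ev j) k = if k = j + 1 then 1 else 0 := by
  have hj := j.2
  rcases k with _ | k
  · simp
  by_cases hk : k < d
  · rw [tl_succ' _ _ hk]
    simp [Pi.single_apply, Fin.ext_iff]
  · rw [tl_big _ _ (by omega), if_neg (by omega)]

theorem sum_tl_ev (u : V d) (k : ℕ) : ∑ j, tl 0 (ev j) k * u j = tl 0 u k := by
  rcases k with _ | k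
  · simp
  by_cases hk : k < d
  · simp only [tl_succ' _ _ hk]
    simp [Pi.single_apply]
  · simp only [tl_big _ _ (show d < k + 1 by omega), zero_mul, Finset.sum_const_zero]

theorem omega_form (u v : V d) : u ⬝ᵥ omega d *ᵥ v =
    ∑ k ∈ Finset.range (d + 1), (tl 0 u (k + 1) * tl 0 v k - tl 0 u k * tl 0 v (k + 1)) := by
  have key : ∀ u v : V d, ∑ i : Fin d, ∑ j : Fin d, u i * ((if (i : ℕ) = j + 1 then 1 else 0) * v j) =
      ∑ k ∈ Finset.range (d + 1), tl 0 u (k + 1) * tl 0 v k := by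
    intro u v
    rw [Finset.sum_range_succ, tl_big _ _ (Nat.lt_succ_self d), zero_mul, add_zero,
      Finset.sum_range]
    refine Finset.sum_congr rfl fun i _ => ?_
    rw [tl_succ, ← Finset.mul_sum, ← sum_tl_ev v i]
    simp only [tl_ev]
  simp only [dotProduct, mulVec, omega, of_apply, sub_mul, Finset.mul_sum, mul_sub,
    Finset.sum_sub_distrib]
  rw [key u v]
  congr 1
  simp only [mul_comm (tl 0 u _)]
  rw [← key v u, Finset.sum_comm]
  refine Finset.sum_congr rfl fun i _ => Finset.sum_congr rfl fun j _ => by ring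

theorem entry_eq {m : ℕ} (A : Matrix (Fin m) (Fin d) ℝ) (B : Matrix (Fin m) (Fin m) ℝ)
    (a b : Fin d) : (Aᵀ * B * A) a b = (A *ᵥ ev a) ⬝ᵥ B *ᵥ (A *ᵥ ev b) := by
  rw [Matrix.mul_assoc, Matrix.mul_apply]
  rw [mulVec_mulVec]
  simp only [mulVec_single_one, dotProduct, transpose_apply, col_apply]

theorem entry_eq' (B : Matrix (Fin d) (Fin d) ℝ) (a b : Fin d) :
    B a b = ev a ⬝ᵥ B *ᵥ ev b := by
  simp

theorem sum_face (h : ℕ → ℕ → ℝ) (h0 : ∀ a, h a a = 0) {p n : ℕ} (hp : p ≤ n) :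
    ∑ k ∈ Finset.range (n + 1), h (if p < k + 1 then k else k + 1) (if p < k then k - 1 else k) =
      ∑ k ∈ Finset.range n, h (k + 1) k := by
  induction n, hp using Nat.le_induction with
  | base =>
    rw [Finset.sum_range_succ, if_pos (by omega), if_neg (by omega), h0, add_zero]
    refine Finset.sum_congr rfl fun k hk => ?_
    have := Finset.mem_range.1 hk
    rw [if_neg (by omega), if_neg (by omega)]
  | succ n hn ih =>
    rw [Finset.sum_range_succ, ih, Finset.sum_range_succ, if_pos (by omega), if_pos (by omega),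
      Nat.add_sub_cancel]

theorem sum_rot (a b : ℕ → ℝ) (m : ℕ) :
    ∑ k ∈ Finset.range m, ((a (k + 2) - a 1) * (b (k + 1) - b 1) -
      (a (k + 1) - a 1) * (b (k + 2) - b 1)) =
      ∑ k ∈ Finset.range m, (a (k + 2) * b (k + 1) - a (k + 1) * b (k + 2)) -
        b 1 * (a (m + 1) - a 1) + a 1 * (b (m + 1) - b 1) := by
  induction m with
  | zero => simp
  | succ m ih =>
    rw [Finset.sum_range_succ, Finset.sum_range_succ, ih]
    ring

end Crest.Agent.R192.Sx
end

-- ▼ part PVc/R192/Simplex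
section

/-! Row 192: the simplex, its faces and its cyclic symmetry. -/

set_option autoImplicit false

namespace Crest.Agent.R192

open Crest.AlgebraR.L1 MeasureTheory Matrix
open scoped ContDiff BoundedContinuousFunction

variable {d : ℕ}

theorem mem_simplex (y : V d) : y ∈ simplex d ↔ (∀ i, 0 ≤ y i ∧ y i ≤ 1) ∧ Monotone y := by
  constructor
  · intro h
    have hm := Sx.mono_of_mem h
    refine ⟨fun i => ⟨?_, ?_⟩, fun i j hij => ?_⟩
    · have := hm (Nat.zero_le (i + 1))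
      rwa [Sx.tl_zero, Sx.tl_succ] at this
    · have := hm (show (i : ℕ) + 1 ≤ d + 1 by omega)
      rwa [Sx.tl_succ, Sx.tl_big _ _ (Nat.lt_succ_self d)] at this
    · have := hm (show (i : ℕ) + 1 ≤ j + 1 from Nat.succ_le_succ hij)
      rwa [Sx.tl_succ, Sx.tl_succ] at this
  · rintro ⟨h1, h2⟩
    rw [Sx.mem_iff]
    intro k hk
    rcases k with _ | k
    · rw [Sx.tl_zero]
      by_cases hd : 0 < d
      · rw [Sx.tl_succ' _ _ hd]
        exact (h1 _).1
      · rw [Sx.tl_big _ _ (by omega)]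
        exact zero_le_one
    · rw [Sx.tl_succ' _ _ (show k < d by omega)]
      by_cases hd : k + 1 < d
      · rw [Sx.tl_succ' _ _ hd]
        exact h2 (Fin.mk_le_mk.2 (Nat.le_succ k))
      · rw [Sx.tl_big _ _ (by omega)]
        exact (h1 _).2

theorem isCompact_simplex (d : ℕ) : IsCompact (simplex d) := by
  refine (isCompact_Icc (a := (0 : V d)) (b := 1)).of_isClosed_subset ?_ fun y hy => ?_
  · have : simplex d = ⋂ k, ⋂ (_ : k ≤ d), {y : V d | Sx.tl 1 y k ≤ Sx.tl 1 y (k + 1)} := by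
      ext y
      simp [Sx.mem_iff]
    rw [this]
    exact isClosed_iInter fun k => isClosed_iInter fun _ =>
      isClosed_le (Sx.continuous_tl 1 k) (Sx.continuous_tl 1 (k + 1))
  · have := ((mem_simplex y).1 hy).1
    exact ⟨fun i => (this i).1, fun i => (this i).2⟩

theorem measurableSet_simplex (d : ℕ) : MeasurableSet (simplex d) := by
  exact (isCompact_simplex d).measurableSet

theorem volume_simplex_pos (d : ℕ) : 0 < (volume (simplex d)).toReal := by
  refine ENNReal.toReal_pos (ne_of_gt ?_) (isCompact_simplex d).measure_lt_top.ne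
  have hU : IsOpen (⋂ k ∈ Finset.range (d + 1), {y : V d | Sx.tl 1 y k < Sx.tl 1 y (k + 1)}) :=
    isOpen_biInter_finset fun k _ =>
      isOpen_lt (Sx.continuous_tl 1 k) (Sx.continuous_tl 1 (k + 1))
  refine (hU.measure_pos volume ⟨fun j => ((j : ℝ) + 1) / (d + 1), ?_⟩).trans_le
    (measure_mono fun y hy => ?_)
  · have key : ∀ k ≤ d + 1, Sx.tl 1 (fun j : Fin d => ((j : ℝ) + 1) / (d + 1)) k =
        (k : ℝ) / (d + 1) := by
      intro k hk
      rcases k with _ | k
      · simp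
      by_cases h : k < d
      · rw [Sx.tl_succ' _ _ h]
        simp
      · rw [Sx.tl_big _ _ (by omega), show k = d by omega]
        push_cast
        rw [div_self (by positivity)]
    simp only [Set.mem_iInter, Set.mem_ofPred_eq, Finset.mem_range]
    intro k hk
    rw [key k (by omega), key (k + 1) (by omega)]
    exact div_lt_div_of_pos_right (by simp) (by positivity)
  · simp only [Set.mem_iInter, Set.mem_ofPred_eq, Finset.mem_range] at hy
    exact (Sx.mem_iff y).2 fun k hk => (hy k (by omega)).le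

theorem norm_gemb_le {y : V d} (hy : y ∈ simplex d) : ‖gemb d y‖ ≤ 1 := by
  rw [gemb_apply, pi_norm_le_iff_of_nonneg zero_le_one]
  intro i
  refine Fin.cases ?_ (fun j => ?_) i
  · simp
  · have := ((mem_simplex y).1 hy).1 j
    rw [Fin.cons_succ, Real.norm_of_nonneg this.1]
    exact this.2

theorem fy_succ (i : Fin (d + 1)) (y : V d) :
    fy i.succ y = Fin.insertNth (α := fun _ => ℝ) i (ext (gemb d y) i.succ) y := by
  funext j
  rw [Sx.fy_apply, ← Sx.tl_succ 1 (Fin.insertNth (α := fun _ => ℝ) i _ y) j, Sx.tl_insertNth,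
    Sx.ext_gemb, Fin.val_succ, Nat.add_sub_cancel]
  split_ifs with h1 h2 h3 h4 h5 <;> first | rfl | omega | (congr 1 <;> omega)

theorem fy_castSucc (i : Fin (d + 1)) (y : V d) :
    fy i.castSucc y = Fin.insertNth (α := fun _ => ℝ) i (ext (gemb d y) i.castSucc) y := by
  funext j
  rw [Sx.fy_apply, ← Sx.tl_succ 1 (Fin.insertNth (α := fun _ => ℝ) i _ y) j, Sx.tl_insertNth,
    Sx.ext_gemb, Fin.val_castSucc, Nat.add_sub_cancel]
  split_ifs with h1 h2 h3 h4 h5 <;> first | rfl | omega | (congr 1 <;> omega)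

theorem gemb_fy (p : Fin (d + 2)) (y : V d) : gemb (d + 1) (fy p y) = faceθ p (gemb d y) := by
  have h0 : faceθ p (gemb d y) 0 = 0 := by
    rw [faceθ, Sx.ext_gemb, Sx.predAbove_val]
    simp
  rw [gemb_apply, fy]
  conv_lhs => rw [← h0]
  exact Fin.cons_self_tail _

theorem gemb_cy (y : V d) :
    gemb d (cy y) = fun i => rotθ (gemb d y) i - rotθ (gemb d y) 0 := by
  funext i
  rw [gemb_apply d (cy y)]
  refine Fin.cases ?_ (fun j => ?_) i
  · simp
  · rfl

/-- fundamental theorem of calculus along a coordinate of the simplex -/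
theorem integral_simplex_fderiv (F : V (d + 1) → ℝ) (hF : ContDiff ℝ 1 F) (i : Fin (d + 1)) :
    ∫ y in simplex (d + 1), fderiv ℝ F y (ev i) =
      (∫ y in simplex d, F (fy i.succ y)) - ∫ y in simplex d, F (fy i.castSucc y) := by
  have hcF : Continuous fun y => fderiv ℝ F y (ev i) :=
    (hF.continuous_fderiv (by simp)).clm_apply continuous_const
  have hint : Integrable ((simplex (d + 1)).indicator fun y => fderiv ℝ F y (ev i)) :=
    (integrable_indicator_iff (measurableSet_simplex _)).2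
      (hcF.continuousOn.integrableOn_compact (isCompact_simplex _))
  have hmp := (volume_preserving_piFinSuccAbove (fun _ : Fin (d + 1) => ℝ) i).symm
  have hins : ∀ (y : V d) (t : ℝ), Fin.insertNth (α := fun _ => ℝ) i t y =
      Fin.insertNth (α := fun _ => ℝ) i 0 y + t • ev i := by
    intro y t
    funext j
    refine Fin.succAboveCases i ?_ (fun j => ?_) j
    · simp
    · simp [Fin.succAbove_ne]
  have hder : ∀ (y : V d) (t : ℝ), HasDerivAt (fun t => F (Fin.insertNth (α := fun _ => ℝ) i t y))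
      (fderiv ℝ F (Fin.insertNth (α := fun _ => ℝ) i t y) (ev i)) t := by
    intro y t
    have h1 : HasDerivAt (fun t => Fin.insertNth (α := fun _ => ℝ) i t y) (ev i) t := by
      rw [funext (hins y)]
      simpa using ((hasDerivAt_id t).smul_const (ev i)).const_add
        (Fin.insertNth (α := fun _ => ℝ) i 0 y)
    exact (hF.differentiable (by simp) _).hasFDerivAt.comp_hasDerivAt t h1
  have hcy : ∀ p : Fin (d + 2), Continuous fun y : V d => F (fy p y) := fun p =>
    hF.continuous.comp (continuous_pi fun j => by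
      simp only [Sx.fy_apply]
      exact Sx.continuous_tl _ _)
  rw [← integral_sub ((hcy _).continuousOn.integrableOn_compact (isCompact_simplex _))
    ((hcy _).continuousOn.integrableOn_compact (isCompact_simplex _)),
    ← integral_indicator (measurableSet_simplex _), ← integral_indicator (measurableSet_simplex _),
    ← hmp.integral_comp' ((simplex (d + 1)).indicator fun y => fderiv ℝ F y (ev i))]
  have hint2 := (hmp.integrable_comp_emb (MeasurableEquiv.measurableEmbedding _)).2 hint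
  refine (integral_prod_symm _ hint2).trans (integral_congr_ae (.of_forall fun y => ?_))
  have e : ∀ t : ℝ, (MeasurableEquiv.piFinSuccAbove (fun _ : Fin (d + 1) => ℝ) i).symm (t, y) =
      Fin.insertNth (α := fun _ => ℝ) i t y := fun t => rfl
  simp only [Function.comp_apply, e]
  by_cases hy : y ∈ simplex d
  · have hle : Sx.tl 1 y i ≤ Sx.tl 1 y (i + 1) := (Sx.mem_iff y).1 hy i (by omega)
    have h2 := intervalIntegral.integral_eq_sub_of_hasDerivAt (a := Sx.tl 1 y i)
      (b := Sx.tl 1 y (i + 1)) (fun t _ => hder y t)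
      (Continuous.intervalIntegrable (hcF.comp (by rw [funext (hins y)]; fun_prop)) _ _)
    rw [Set.indicator_of_mem hy, fy_succ, fy_castSucc, Sx.ext_gemb, Sx.ext_gemb, Fin.val_succ,
      Fin.val_castSucc, ← h2, intervalIntegral.integral_of_le hle,
      ← integral_Icc_eq_integral_Ioc, ← integral_indicator measurableSet_Icc]
    refine integral_congr_ae (.of_forall fun t => ?_)
    by_cases ht : t ∈ Set.Icc (Sx.tl 1 y i) (Sx.tl 1 y (i + 1))
    · simp only [Set.indicator_of_mem ht]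
      rw [Set.indicator_of_mem ((Sx.insertNth_mem i t y).2 ⟨hy, ht⟩)]
    · simp only [Set.indicator_of_notMem ht]
      rw [Set.indicator_of_notMem fun h => ht ((Sx.insertNth_mem i t y).1 h).2]
  · rw [Set.indicator_of_notMem hy]
    refine (integral_congr_ae (.of_forall fun t => ?_)).trans (integral_zero _ _)
    exact Set.indicator_of_notMem (fun h => hy ((Sx.insertNth_mem i t y).1 h).1) _

/-- linear part of a face map -/
noncomputable def Lf (p : Fin (d + 2)) : Matrix (Fin (d + 1)) (Fin d) ℝ :=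
  Matrix.of fun i j => fy p (ev j) i - fy p 0 i

/-- linear part of the rotation -/
noncomputable def Lc (d : ℕ) : Matrix (Fin d) (Fin d) ℝ :=
  Matrix.of fun i j => cy (ev j) i - cy 0 i

theorem Sx.Lf_mulVec (p : Fin (d + 2)) (u : V d) (i : Fin (d + 1)) :
    (Lf p *ᵥ u) i = Sx.tl 0 u (if (p : ℕ) < i + 1 then i else i + 1) := by
  rw [← Sx.sum_tl_ev, mulVec, dotProduct]
  refine Finset.sum_congr rfl fun j _ => ?_
  rw [Lf, of_apply, Sx.fy_apply, Sx.fy_apply, Sx.tl_one_eq (ev j), add_sub_cancel_right]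

theorem Sx.tl_Lf (p : Fin (d + 2)) (u : V d) (k : ℕ) :
    Sx.tl 0 (Lf p *ᵥ u) k = Sx.tl 0 u (if (p : ℕ) < k then k - 1 else k) := by
  have hp := p.2
  rcases k with _ | k
  · simp
  by_cases hk : k < d + 1
  · rw [Sx.tl_succ' _ _ hk, Sx.Lf_mulVec, Nat.add_sub_cancel]
  · rw [Sx.tl_big _ _ (by omega), Sx.tl_big _ _ (by split_ifs <;> omega)]

theorem Sx.Lc_apply' (i j : Fin d) :
    Lc d i j = Sx.tl 0 (ev j) (i + 2) - Sx.tl 0 (ev j) 1 := by
  rw [Lc, of_apply, Sx.cy_apply, Sx.cy_apply, Sx.tl_one_eq (ev j), Sx.tl_one_eq (ev j) 1]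
  ring

theorem Sx.Lc_apply (i j : Fin d) :
    Lc d i j = (if (i : ℕ) + 2 = j + 1 then 1 else 0) - if 1 = (j : ℕ) + 1 then 1 else 0 := by
  rw [Sx.Lc_apply', Sx.tl_ev, Sx.tl_ev]

theorem Sx.Lc_mulVec (u : V d) (i : Fin d) :
    (Lc d *ᵥ u) i = Sx.tl 0 u (i + 2) - Sx.tl 0 u 1 := by
  rw [← Sx.sum_tl_ev u (i + 2), ← Sx.sum_tl_ev u 1, ← Finset.sum_sub_distrib, mulVec, dotProduct]
  refine Finset.sum_congr rfl fun j _ => ?_
  rw [Sx.Lc_apply', sub_mul]

theorem Sx.tl_Lc (u : V d) {k : ℕ} (hk : k ≤ d) :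
    Sx.tl 0 (Lc d *ᵥ u) k = Sx.tl 0 u (k + 1) - Sx.tl 0 u 1 := by
  rcases k with _ | k
  · simp
  · rw [Sx.tl_succ' _ _ (show k < d by omega), Sx.Lc_mulVec]

theorem fy_eq (p : Fin (d + 2)) (u : V d) : fy p u = Lf p *ᵥ u + fy p 0 := by
  funext i
  rw [Pi.add_apply, Sx.Lf_mulVec, Sx.fy_apply, Sx.fy_apply, Sx.tl_one_eq]

theorem cy_eq (u : V d) : cy u = Lc d *ᵥ u + cy 0 := by
  funext i
  rw [Pi.add_apply, Sx.Lc_mulVec, Sx.cy_apply, Sx.cy_apply, Sx.tl_one_eq u, Sx.tl_one_eq u 1]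
  ring

theorem Lf_omega (p : Fin (d + 2)) : (Lf p)ᵀ * omega (d + 1) * Lf p = omega d := by
  ext a b
  rw [Sx.entry_eq, Sx.entry_eq' (omega d), Sx.omega_form, Sx.omega_form,
    ← Sx.sum_face (fun s t => Sx.tl 0 (ev a) s * Sx.tl 0 (ev b) t -
      Sx.tl 0 (ev a) t * Sx.tl 0 (ev b) s) (fun s => sub_self _) (show (p : ℕ) ≤ d + 1 by omega)]
  simp only [Sx.tl_Lf, Nat.add_sub_cancel]

theorem Lc_omega (d : ℕ) : (Lc d)ᵀ * omega d * Lc d = omega d := by
  ext a b
  rw [Sx.entry_eq, Sx.entry_eq' (omega d), Sx.omega_form, Sx.omega_form, Finset.sum_range_succ,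
    Finset.sum_range_succ', Sx.tl_big _ _ (Nat.lt_succ_self d), Sx.tl_big _ _ (Nat.lt_succ_self d),
    Finset.sum_congr rfl fun k hk => by
      have hk' := Finset.mem_range.1 hk
      rw [Sx.tl_Lc _ (show k + 1 ≤ d by omega), Sx.tl_Lc _ (show k + 1 ≤ d by omega),
        Sx.tl_Lc _ hk'.le, Sx.tl_Lc _ hk'.le],
    Sx.sum_rot, Sx.tl_big _ _ (Nat.lt_succ_self d), Sx.tl_big _ _ (Nat.lt_succ_self d)]
  simp only [Sx.tl_zero]
  ring

theorem det_Lc (d : ℕ) : (Lc d).det = (-1) ^ d := by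
  rcases d with _ | n
  · simp
  rw [Matrix.det_succ_row _ (Fin.last n), Finset.sum_eq_single 0]
  · have : (Lc (n + 1)).submatrix (Fin.last n).succAbove (0 : Fin (n + 1)).succAbove = 1 := by
      ext i j
      simp [Sx.Lc_apply, Matrix.one_apply, Fin.ext_iff]
    rw [this, det_one, Sx.Lc_apply, if_neg (by simp)]
    simp [pow_succ]
  · intro j _ hj
    have h1 := j.2
    have h2 : (j : ℕ) ≠ 0 := fun h => hj (Fin.ext h)
    rw [Sx.Lc_apply, if_neg (by simp; omega), if_neg (by omega)]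
    simp
  · simp

theorem integral_simplex_cy (f : V d → ℝ) (hf : Continuous f) :
    ∫ y in simplex d, f (cy y) = ∫ y in simplex d, f y := by
  have hdet : (Lc d).det ≠ 0 := by
    rw [det_Lc]
    exact pow_ne_zero _ (by norm_num)
  have h1 : MeasurePreserving (Matrix.toLin' (Lc d)) volume volume := by
    refine ⟨(LinearMap.continuous_of_finiteDimensional _).measurable, ?_⟩
    rw [Real.map_matrix_volume_pi_eq_smul_volume_pi hdet, det_Lc]
    simp
  have e : (cy : V d → V d) = (fun y => y + cy 0) ∘ Matrix.toLin' (Lc d) := by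
    funext y
    rw [cy_eq y]
    rfl
  have h2 : MeasurePreserving (cy : V d → V d) volume volume := by
    rw [e]
    exact (measurePreserving_add_right volume _).comp h1
  have h3 : MeasurableEmbedding (cy : V d → V d) := by
    refine Continuous.measurableEmbedding ?_ ?_
    · rw [e]
      exact (continuous_add_const _).comp (LinearMap.continuous_of_finiteDimensional _)
    · rw [e]
      refine (add_left_injective _).comp ?_
      exact Matrix.mulVec_injective_iff_isUnit.2 ((Matrix.isUnit_iff_isUnit_det _).2 hdet.isUnit)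
  rw [← h2.setIntegral_preimage_emb h3 f (simplex d)]
  congr 2
  ext y
  have key : ∀ k ≤ d, Sx.tl 1 (cy y) k = Sx.tl 1 y (k + 1) - Sx.tl 1 y 1 := by
    intro k hk
    rcases k with _ | k
    · simp
    · rw [Sx.tl_succ' _ _ (show k < d by omega), Sx.cy_apply]
  simp only [Set.mem_preimage, Sx.mem_iff]
  constructor
  · intro h k hk
    rw [key k hk]
    rcases hk.lt_or_eq with hk | rfl
    · rw [key (k + 1) hk]
      linarith [h (k + 1) hk]
    · have := h 0 (Nat.zero_le _)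
      rw [Sx.tl_zero, zero_add] at this
      rw [Sx.tl_big _ _ (Nat.lt_succ_self k), Sx.tl_big _ _ (Nat.lt_succ_self k)]
      linarith
  · intro h k hk
    rcases k with _ | k
    · have := h d le_rfl
      rw [key d le_rfl, Sx.tl_big _ _ (Nat.lt_succ_self d),
        Sx.tl_big _ _ (Nat.lt_succ_self d)] at this
      rw [Sx.tl_zero, zero_add]
      linarith
    · have := h k (by omega)
      rw [key k (by omega), key (k + 1) hk] at this
      linarith

end Crest.Agent.R192
end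

-- ▼ part PVc/R192/Conn
section

/-! Row 192: the normalised connection of a two-point function. -/

set_option autoImplicit false

namespace Crest.Agent.R192

open Crest.AlgebraR.L1 MeasureTheory Matrix
open scoped ContDiff BoundedContinuousFunction

variable {n : ℕ}

namespace ConnAux

theorem ext_eq (θ : V (n + 1)) (k : Fin (n + 2)) :
    ext θ k = θ ((Fin.snoc id 0 : Fin (n + 2) → Fin (n + 1)) k) + ext 0 k := by
  refine Fin.lastCases ?_ (fun i => ?_) k <;> simp [ext]

theorem diff_snd {W : TwoPt n} (h : Smooth2 W) (θ : V (n + 1)) : Differentiable ℝ (W θ) :=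
  (ContDiff.comp (f := fun θ' => (θ, θ')) h (contDiff_const.prodMk contDiff_id)).differentiable
    (by simp)

/-- chain rule for reparametrisations that read off coordinates of `ext` -/
theorem beta_comp {m : ℕ} {W : TwoPt m} {W' : TwoPt n} (h : Smooth2 W)
    (τ : Fin (m + 1) → Fin (n + 2))
    (hW : ∀ θ θ', W (fun i => ext θ (τ i)) (fun i => ext θ' (τ i)) = W' θ θ') (θ u : V (n + 1)) :
    beta W' θ u = beta W (fun i => ext θ (τ i))
      ((fun i => ext u (τ i)) - fun i => ext (0 : V (n + 1)) (τ i)) := by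
  set L : V (n + 1) →L[ℝ] V (m + 1) := ContinuousLinearMap.pi fun i =>
    ContinuousLinearMap.proj ((Fin.snoc id 0 : Fin (n + 2) → Fin (n + 1)) (τ i)) with hL
  have hA : ∀ θ' : V (n + 1), (fun i => ext θ' (τ i))
      = L θ' + fun i => ext (0 : V (n + 1)) (τ i) := by
    intro θ'
    funext i
    rw [ext_eq]
    rfl
  have h1 : HasFDerivAt (fun θ' : V (n + 1) => fun i => ext θ' (τ i)) L θ := by
    rw [funext hA]
    exact L.hasFDerivAt.add_const _
  have h2 := (diff_snd h (fun i => ext θ (τ i)) (fun i => ext θ (τ i))).hasFDerivAt.comp θ h1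
  have h3 : W' θ = W (fun i => ext θ (τ i)) ∘ fun θ' : V (n + 1) => fun i => ext θ' (τ i) := by
    funext θ'
    exact (hW θ θ').symm
  rw [beta, h3, h2.fderiv, hA u, add_sub_cancel_right]
  rfl

theorem UU_comp {m : ℕ} {W : TwoPt m} {W' : TwoPt n} (h : Smooth2 W)
    (τ : Fin (m + 1) → Fin (n + 2))
    (hW : ∀ θ θ', W (fun i => ext θ (τ i)) (fun i => ext θ' (τ i)) = W' θ θ') (θ : V (n + 1)) :
    UU W' θ = UU W fun i => ext θ (τ i) := by
  rw [UU, beta_comp h τ hW, UU]
  congr 1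
  funext i
  rw [Pi.sub_apply, ext_eq]
  simp

theorem beta_shift {W : TwoPt n} (hr : RotInv W) (θ : V (n + 1)) (t : ℝ) :
    beta W (fun i => θ i - t) = beta W θ := by
  have h1 : W (fun i => θ i - t) = fun θ' => W θ (θ' + fun _ => t) := by
    funext θ'
    rw [← hr _ _ t]
    simp only [sub_add_cancel]
    rfl
  rw [beta, h1, fderiv_comp_add_right, beta]
  congr 1
  funext i
  simp

theorem bg_eq (W : TwoPt n) (y u : V n) : bg W y u = rinv (UU W (gemb n y)) *
    (beta W (gemb n y) (gemb n u) - UU W (gemb n y) * beta (stdW n) (gemb n y) (gemb n u)) := rfl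

theorem gemb_ev (i : Fin n) : gemb n (ev i) = ev i.succ := by
  rw [gemb_apply]
  funext k
  refine Fin.cases ?_ (fun l => ?_) k
  · simp
  · simp [Pi.single_apply]

theorem beta_congr {W W' : TwoPt n} (hW : ∀ θ θ', ‖θ‖ < 2 → ‖θ'‖ < 2 → W θ θ' = W' θ θ')
    {θ : V (n + 1)} (hθ : ‖θ‖ < 2) : beta W θ = beta W' θ := by
  refine Filter.EventuallyEq.fderiv_eq ?_
  filter_upwards [(isOpen_lt continuous_norm continuous_const).mem_nhds hθ] with θ' hθ'
  exact hW θ θ' hθ hθ'

end ConnAux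

open ConnAux

theorem rinv_smooth : ContDiff ℝ ∞ rinv := by
  have h1 : ContDiff ℝ ∞ fun x : ℝ => Real.smoothTransition (4 * x - 1) :=
    Real.smoothTransition.contDiff.comp ((contDiff_const.mul contDiff_id).sub contDiff_const)
  refine ((contDiff_id.mul h1).add (contDiff_const.sub h1)).inv fun x => ne_of_gt ?_
  simp only [id]
  rcases le_or_gt x (1 / 4) with hx | hx
  · rw [Real.smoothTransition.zero_of_nonpos (by linarith)]
    norm_num
  · have h2 := Real.smoothTransition.nonneg (4 * x - 1)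
    have h3 := Real.smoothTransition.le_one (4 * x - 1)
    nlinarith

theorem rinv_eq {x : ℝ} (hx : 1 / 2 ≤ x) : rinv x = x⁻¹ := by
  rw [rinv, Real.smoothTransition.one_of_one_le (by linarith)]
  simp

theorem bg_smooth {W : TwoPt n} (h : Smooth2 W) : ContDiff ℝ ∞ (bg W) := by
  have hg : ContDiff ℝ ∞ (gemb n) := (gemb n).contDiff
  have hU := h.contDiff_UU.comp hg
  exact ((rinv_smooth.comp hU).smul ((h.contDiff_beta.comp hg).sub
    (hU.smul ((stdW_smooth n).contDiff_beta.comp hg)))).clm_comp contDiff_const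

theorem bg_face {W : TwoPt (n + 1)} {W' : TwoPt n} (h : Smooth2 W) (p : Fin (n + 2))
    (hW : ∀ θ θ', W (faceθ p θ) (faceθ p θ') = W' θ θ') (y u : V n) :
    bg W' y u = bg W (fy p y) (fy p u - fy p 0) := by
  rw [bg_eq, bg_eq, map_sub, gemb_fy, gemb_fy, gemb_fy, map_zero,
    UU_comp h (fun i => p.predAbove i.castSucc) hW, beta_comp h (fun i => p.predAbove i.castSucc) hW,
    beta_comp (stdW_smooth (n + 1)) (fun i => p.predAbove i.castSucc) (stdW_face p)]
  rfl

theorem bg_cyc {W W' : TwoPt n} (h : Smooth2 W) (hr : RotInv W)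
    (hW : ∀ θ θ', W (rotθ θ) (rotθ θ') = W' θ θ') (y u : V n) :
    bg W' y u = bg W (cy y) (cy u - cy 0) := by
  have e : gemb n (cy u - cy 0) = (rotθ (gemb n u) - rotθ 0) -
      (rotθ (gemb n u) 0 - rotθ (0 : V (n + 1)) 0) • (1 : V (n + 1)) := by
    rw [map_sub, gemb_cy, gemb_cy, map_zero]
    funext i
    simp only [Pi.sub_apply, Pi.smul_apply, Pi.one_apply, smul_eq_mul]
    ring
  have hU : UU W (gemb n (cy y)) = UU W (rotθ (gemb n y)) := by
    rw [gemb_cy, UU, beta_shift hr, UU]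
  rw [bg_eq, bg_eq, e, hU, gemb_cy, beta_shift hr, beta_shift (stdW_rotInv n),
    UU_comp h Fin.succ hW, beta_comp h Fin.succ hW,
    beta_comp (stdW_smooth n) Fin.succ stdW_cyc, map_sub _ _ (_ • _), map_sub _ _ (_ • _), map_smul,
    map_smul]
  have h1 := UU_stdW (rotθ (gemb n y))
  rw [UU] at h1
  rw [h1]
  change rinv (UU W (rotθ (gemb n y))) * (beta W (rotθ (gemb n y)) (rotθ (gemb n u) - rotθ 0) -
    UU W (rotθ (gemb n y)) * beta (stdW n) (rotθ (gemb n y)) (rotθ (gemb n u) - rotθ 0)) =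
    rinv (UU W (rotθ (gemb n y))) * (beta W (rotθ (gemb n y)) (rotθ (gemb n u) - rotθ 0) -
      _ • UU W (rotθ (gemb n y)) - _)
  simp only [smul_eq_mul]
  ring

theorem bg_congr {W W' : TwoPt n} (hW : ∀ θ θ', ‖θ‖ < 2 → ‖θ'‖ < 2 → W θ θ' = W' θ θ')
    {y : V n} (hy : y ∈ simplex n) : bg W y = bg W' y ∧ curv (bg W) y = curv (bg W') y := by
  have h1 : bg W =ᶠ[nhds y] bg W' := by
    have hy2 : ‖gemb n y‖ < 2 := by linarith [norm_gemb_le hy]
    filter_upwards [(isOpen_lt (gemb n).continuous.norm continuous_const).mem_nhds hy2] with y' hy'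
    simp only [bg, UU, beta_congr hW hy']
  exact ⟨h1.eq_of_nhds, by simp only [curv, h1.fderiv_eq]⟩

theorem bg_apply {W : TwoPt n} {y : V n} (hU : 1 / 2 ≤ UU W (gemb n y)) (i : Fin n) :
    bg W y (ev i) = (UU W (gemb n y))⁻¹ * beta W (gemb n y) (ev i.succ) -
      beta (stdW n) (gemb n y) (ev i.succ) := by
  have : UU W (gemb n y) ≠ 0 := by linarith
  rw [bg_eq, rinv_eq hU, gemb_ev]
  field_simp

theorem curv_bg {W : TwoPt n} (h : Smooth2 W) {y : V n} (hU : 1 / 2 < UU W (gemb n y)) :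
    omega n + curv (bg W) y = (UU W (gemb n y))⁻¹ • Mb W (gemb n y) -
      (vecMulVec (fun i : Fin n => fderiv ℝ (UU W) (gemb n y) (ev i.succ) / UU W (gemb n y))
          (fun i : Fin n => beta W (gemb n y) (ev i.succ) / UU W (gemb n y)) -
        vecMulVec (fun i : Fin n => beta W (gemb n y) (ev i.succ) / UU W (gemb n y))
          (fun i : Fin n => fderiv ℝ (UU W) (gemb n y) (ev i.succ) / UU W (gemb n y))) := by
  have hne : UU W (gemb n y) ≠ 0 := by linarith
  have h1 : bg W =ᶠ[nhds y] fun y' =>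
      ((UU W (gemb n y'))⁻¹ • beta W (gemb n y') - beta (stdW n) (gemb n y')).comp (gemb n) := by
    filter_upwards [(isOpen_lt continuous_const
      (h.contDiff_UU.continuous.comp (gemb n).continuous)).mem_nhds hU] with y' hy'
    have hy : 1 / 2 < UU W (gemb n y') := hy'
    have : UU W (gemb n y') ≠ 0 := by linarith
    rw [bg, rinv_eq hy.le, smul_sub, smul_smul, inv_mul_cancel₀ this, one_smul]
  have dU := (h.contDiff_UU.differentiable (by simp) (gemb n y)).hasFDerivAt
  have dB := (h.contDiff_beta.differentiable (by simp) (gemb n y)).hasFDerivAt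
  have dS := ((stdW_smooth n).contDiff_beta.differentiable (by simp) (gemb n y)).hasFDerivAt
  have d1 := (((hasDerivAt_inv hne).comp_hasFDerivAt (gemb n y) dU).smul dB).sub dS
  have d2 := ((ContinuousLinearMap.compL ℝ (V n) (V (n + 1)) ℝ).flip (gemb n)).hasFDerivAt.comp y
    (d1.comp y (gemb n).hasFDerivAt)
  have d3 := (d2.congr_of_eventuallyEq h1).fderiv
  ext i j
  have a1 := fderiv_beta_antisymm h (gemb n y) (ev i.succ) (ev j.succ)
  have a2 := fderiv_beta_antisymm (stdW_smooth n) (gemb n y) (ev i.succ) (ev j.succ)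
  have a3 := congrFun (congrFun (Mb_stdW (gemb n y)) i) j
  simp only [Mb, Matrix.of_apply] at a3
  simp only [curv, d3, Matrix.add_apply, Matrix.sub_apply, Matrix.smul_apply, Matrix.of_apply, Mb,
    vecMulVec_apply, ContinuousLinearMap.comp_apply, ContinuousLinearMap.flip_apply,
    ContinuousLinearMap.compL_apply, gemb_ev, _root_.sub_apply, _root_.add_apply,
    _root_.smul_apply,
    ContinuousLinearMap.smulRight_apply, smul_eq_mul, Function.comp_apply]
  rw [← a1, ← a3, ← a2]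
  field_simp
  ring

end Crest.Agent.R192
end

-- ▼ part PVc/R192/Pf
section

/-! Row 192: Pfaffians. -/

set_option autoImplicit false

namespace Crest.Agent.R192

open Crest.AlgebraR.L1 MeasureTheory Matrix
open scoped ContDiff BoundedContinuousFunction

namespace PfAux

/-- pairs of slots -/
def slE (j : ℕ) : Fin 2 × Fin (j + 1) ≃ Fin (2 * j + 2) where
  toFun p := ⟨2 * p.2 + p.1, by omega⟩
  invFun r := (⟨r % 2, by omega⟩, ⟨r / 2, by omega⟩)
  left_inv p := by
    ext
    · simp only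
      omega
    · simp only
      omega
  right_inv r := by
    ext
    simp only
    omega

theorem slE_zero {j : ℕ} (a : Fin (j + 1)) : slE j (0, a) = sl0 a := rfl
theorem slE_one {j : ℕ} (a : Fin (j + 1)) : slE j (1, a) = sl1 a := rfl

theorem expand {j : ℕ} {ι : Type} [Fintype ι] (x : Fin (2 * j + 2) → ι → ℝ) (M : ι → ι → ℝ) :
    ∏ a : Fin (j + 1), ∑ l, (∑ k, x (sl0 a) k * M k l) * x (sl1 a) l =
      ∑ f : Fin (2 * j + 2) → ι, (∏ i, x i (f i)) * ∏ a, M (f (sl0 a)) (f (sl1 a)) := by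
  classical
  have h1 : ∀ a : Fin (j + 1), ∑ l, (∑ k, x (sl0 a) k * M k l) * x (sl1 a) l =
      ∑ g : Fin 2 → ι, x (sl0 a) (g 0) * x (sl1 a) (g 1) * M (g 0) (g 1) := by
    intro a
    rw [← (piFinTwoEquiv fun _ => ι).symm.sum_comp, Fintype.sum_prod_type, Finset.sum_comm]
    refine Finset.sum_congr rfl fun l _ => ?_
    rw [Finset.sum_mul]
    refine Finset.sum_congr rfl fun k _ => ?_
    simp
    ring
  simp only [h1]
  rw [Finset.prod_univ_sum, Fintype.piFinset_univ]
  symm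
  refine Fintype.sum_equiv (((slE j).symm.arrowCongr (Equiv.refl ι)).trans
    ((Equiv.curry _ _ _).trans (Equiv.piComm _))) _ _ fun f => ?_
  rw [← (slE j).prod_comp, Fintype.prod_prod_type, Fin.prod_univ_two, ← Finset.prod_mul_distrib,
    ← Finset.prod_mul_distrib]
  rfl

/-- normal form of skew matrices -/
theorem normal {ι : Type} [DecidableEq ι] (k : ℕ) : ∀ (M : ι → ι → ℝ) (S : Finset ι),
    (∀ x y, M y x = -M x y) → (∀ x y, x ∉ S → M x y = 0) → S.card ≤ 2 * k + 1 →
    ∃ p q : Fin k → ι → ℝ, ∀ x y, M x y = ∑ a, (p a x * q a y - q a x * p a y) := by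
  have key : ∀ (M : ι → ι → ℝ) (S : Finset ι), (∀ x y, M y x = -M x y) →
      (∀ x y, x ∉ S → M x y = 0) → ∀ x y, M x y ≠ 0 → x ∈ S ∧ y ∈ S.erase x := by
    intro M S h1 h2 x y h
    refine ⟨by_contra fun hx => h (h2 x y hx), Finset.mem_erase.2 ⟨?_, by_contra fun hy => h ?_⟩⟩
    · rintro rfl
      exact h (by linarith [h1 y y])
    · rw [h1, h2 y x hy, neg_zero]
  induction k with
  | zero =>
    intro M S h1 h2 hS
    refine ⟨Fin.elim0, Fin.elim0, fun x y => by_contra fun h => ?_⟩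
    obtain ⟨hx, hy⟩ := key M S h1 h2 x y (by simpa using h)
    have h3 := Finset.card_pos.2 ⟨y, hy⟩
    rw [Finset.card_erase_of_mem hx] at h3
    omega
  | succ k ih =>
    intro M S h1 h2 hS
    by_cases h : ∀ x y, M x y = 0
    · exact ⟨0, 0, fun x y => by simp [h]⟩
    push Not at h
    obtain ⟨u, v, h⟩ := h
    obtain ⟨hu, hv⟩ := key M S h1 h2 u v h
    have huu : M u u = 0 := by linarith [h1 u u]
    have hvv : M v v = 0 := by linarith [h1 v v]
    obtain ⟨p, q, hpq⟩ := ih (fun x y => M x y - (M x v / M u v * M u y - M u x * (M y v / M u v)))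
      ((S.erase u).erase v) (fun x y => by rw [h1 x y]; ring) (fun x y hx => by
        by_cases h3 : x = u
        · rw [h3, huu]
          field_simp
          ring
        by_cases h4 : x = v
        · rw [h4, hvv, h1 y v]
          field_simp
          ring
        have h5 : x ∉ S := by simpa [h3, h4] using hx
        rw [h1 x u, h2 x y h5, h2 x v h5, h2 x u h5]
        ring) (by rw [Finset.card_erase_of_mem hv, Finset.card_erase_of_mem hu]; omega)
    refine ⟨Fin.cons (fun x => M x v / M u v) p, Fin.cons (M u) q, fun x y => ?_⟩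
    rw [Fin.sum_univ_succ]
    simp only [Fin.cons_zero, Fin.cons_succ, ← hpq]
    ring

/-- the standard block matrix -/
def J0 (j : ℕ) : Matrix (Fin 2 × Fin (j + 1)) (Fin 2 × Fin (j + 1)) ℝ :=
  blockDiagonal fun _ => !![0, 1; -1, 0]

def JJ (j : ℕ) : Matrix (Fin (2 * j + 2)) (Fin (2 * j + 2)) ℝ :=
  (J0 j).submatrix (slE j).symm (slE j).symm

theorem det_JJ (j : ℕ) : (JJ j).det = 1 := by
  rw [JJ, det_submatrix_equiv_self, J0, det_blockDiagonal]
  simp

theorem exists_congr (j : ℕ) (M : Matrix (Fin (2 * j + 2)) (Fin (2 * j + 2)) ℝ) (hM : Mᵀ = -M) :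
    ∃ B : Matrix (Fin (2 * j + 2)) (Fin (2 * j + 2)) ℝ, M = Bᵀ * JJ j * B := by
  obtain ⟨p, q, h⟩ := normal (j + 1) M Finset.univ (fun x y => congrFun (congrFun hM x) y)
    (fun x y hx => absurd (Finset.mem_univ x) hx) (by simp)
  refine ⟨Matrix.of fun r => ![p ((slE j).symm r).2, q ((slE j).symm r).2] ((slE j).symm r).1, ?_⟩
  ext x y
  simp only [h, mul_apply, ← (slE j).sum_comp, JJ, submatrix_apply, Equiv.symm_apply_apply,
    transpose_apply, of_apply, Fintype.sum_prod_type, Fin.sum_univ_two, J0, blockDiagonal_apply]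
  simp [Finset.sum_add_distrib, sub_eq_neg_add]

theorem term_nonneg (j : ℕ) (σ : Equiv.Perm (Fin 2 × Fin (j + 1))) :
    0 ≤ ((Equiv.Perm.sign σ : ℤ) : ℝ) * ∏ a, J0 j (σ (0, a)) (σ (1, a)) := by
  by_cases h : ∃ a, J0 j (σ (0, a)) (σ (1, a)) = 0
  · obtain ⟨a, ha⟩ := h
    rw [Finset.prod_eq_zero (Finset.mem_univ a) ha, mul_zero]
  push Not at h
  have h1 : ∀ u v, J0 j u v ≠ 0 → v = (Equiv.swap 0 1 u.1, u.2) := by
    rintro ⟨b, a⟩ ⟨b', a'⟩ huv
    simp only [J0, blockDiagonal_apply] at huv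
    split_ifs at huv with h2
    · subst h2
      fin_cases b <;> fin_cases b' <;> simp_all
    · exact absurd rfl huv
  set s : Fin (j + 1) → Equiv.Perm (Fin 2) :=
    fun a => if (σ (0, a)).1 = 0 then 1 else Equiv.swap 0 1 with hs
  have h2 : ∀ b a, σ (b, a) = (s a b, (σ (0, a)).2) := by
    intro b a
    have h3 := h1 _ _ (h a)
    simp only [hs]
    generalize hu : σ (0, a) = u at h3
    obtain ⟨b', a'⟩ := u
    fin_cases b <;> fin_cases b' <;> simp [hu, h3]
  have h3 : Function.Injective fun a => (σ (0, a)).2 := fun a a' haa => by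
    have h4 : σ ((s a).symm (s a' 0), a) = σ (0, a') := by
      rw [h2, h2 0 a', Equiv.apply_symm_apply]
      exact Prod.ext rfl haa
    exact congrArg Prod.snd (σ.injective h4)
  have h4 : σ = (Equiv.prodCongrRight fun _ => Equiv.ofBijective _
      (Finite.injective_iff_bijective.1 h3)) * Equiv.prodCongrLeft s :=
    Equiv.ext fun x => h2 x.1 x.2
  have h5 : ∀ a, J0 j (σ (0, a)) (σ (1, a)) = ((Equiv.Perm.sign (s a) : ℤ) : ℝ) := by
    intro a
    rw [h2 1 a, h2 0 a]
    simp only [J0, blockDiagonal_apply, if_true, hs]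
    split_ifs <;> simp
  have h6 : Equiv.Perm.sign σ = ∏ a, Equiv.Perm.sign (s a) := by
    rw [h4, map_mul, Equiv.Perm.sign_prodCongrRight, Equiv.Perm.sign_prodCongrLeft,
      Fin.prod_univ_two, Int.units_mul_self, one_mul]
  simp only [h5, h6, Units.coe_prod, Int.cast_prod]
  exact mul_self_nonneg _

theorem pfP_JJ_pos (j : ℕ) : 0 < pfP j (JJ j) := by
  refine Finset.sum_pos' (fun σ _ => ?_) ⟨1, Finset.mem_univ _, ?_⟩
  · have := term_nonneg j ((slE j).symm.permCongr σ)
    rwa [Equiv.Perm.sign_permCongr] at this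
  · simp [JJ, ← slE_zero, ← slE_one, J0]

theorem det_omega_add_two (d : ℕ) : (omega (d + 2)).det = (omega d).det := by
  rw [det_succ_row_zero, Fin.sum_univ_succ, Fin.sum_univ_succ, Finset.sum_eq_zero
    (by intro i _; simp [omega]), show omega (d + 2) 0 0 = 0 by simp [omega], mul_zero, zero_mul,
    det_succ_column_zero, Fin.sum_univ_succ, Finset.sum_eq_zero
    (by intro i _; simp [omega])]
  have : ((omega (d + 2)).submatrix Fin.succ (Fin.succ 0).succAbove).submatrix
      (Fin.succAbove 0) Fin.succ = omega d := by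
    ext i j
    simp [omega]
  rw [this]
  simp [omega]

theorem det_omega (k : ℕ) : (omega (2 * k)).det = 1 := by
  induction k with
  | zero => exact det_fin_zero
  | succ k ih => exact (det_omega_add_two (2 * k)).trans ih

end PfAux

open PfAux

theorem omega_transpose (d : ℕ) : (omega d)ᵀ = -omega d := by
  ext i j
  simp [omega]

theorem pfP_congr (j : ℕ) (M B : Matrix (Fin (2 * j + 2)) (Fin (2 * j + 2)) ℝ) :
    pfP j (Bᵀ * M * B) = B.det * pfP j M := by
  have h1 : ∀ σ : Equiv.Perm (Fin (2 * j + 2)),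
      ∏ a : Fin (j + 1), (Bᵀ * M * B) (σ (sl0 a)) (σ (sl1 a)) =
      ∑ f : Fin (2 * j + 2) → Fin (2 * j + 2),
        (∏ i, B (f i) (σ i)) * ∏ a, M (f (sl0 a)) (f (sl1 a)) := fun σ =>
    expand (fun i k => B k (σ i)) M
  have h2 : ∀ f : Fin (2 * j + 2) → Fin (2 * j + 2), ∑ σ : Equiv.Perm (Fin (2 * j + 2)),
      ((Equiv.Perm.sign σ : ℤ) : ℝ) * ∏ i, B (f i) (σ i) = (B.submatrix f id).det := fun f => by
    rw [← det_transpose, det_apply']
    rfl
  simp only [pfP, h1, Finset.mul_sum, ← mul_assoc]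
  rw [Finset.sum_comm]
  simp only [← Finset.sum_mul, h2]
  symm
  refine Fintype.sum_of_injective (fun σ : Equiv.Perm (Fin (2 * j + 2)) => ⇑σ)
    DFunLike.coe_injective _ _ (fun f hf => ?_) fun σ => ?_
  · have h3 : ¬ Function.Injective f := fun h =>
      hf ⟨Equiv.ofBijective f (Finite.injective_iff_bijective.1 h), rfl⟩
    obtain ⟨u, v, h4, h5⟩ := Function.not_injective_iff.1 h3
    rw [det_zero_of_row_eq h5 (by ext; simp [h4]), zero_mul]
  · rw [det_permute, mul_comm B.det]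

theorem pfP_sq_JJ (j : ℕ) (M : Matrix (Fin (2 * j + 2)) (Fin (2 * j + 2)) ℝ) (hM : Mᵀ = -M) :
    pfP j M ^ 2 = pfP j (JJ j) ^ 2 * M.det := by
  obtain ⟨B, rfl⟩ := exists_congr j M hM
  rw [pfP_congr, det_mul, det_mul, det_transpose, det_JJ]
  ring

theorem pfP_omega_sq (j : ℕ) : pfP j (omega (2 * j + 2)) ^ 2 = pfP j (JJ j) ^ 2 := by
  rw [pfP_sq_JJ j _ (omega_transpose _), det_omega_add_two, det_omega, mul_one]

theorem pfP_omega_ne_zero (j : ℕ) : pfP j (omega (2 * j + 2)) ≠ 0 := by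
  intro h
  have h1 := pfP_omega_sq j
  have h2 := pfP_JJ_pos j
  rw [h] at h1
  nlinarith

theorem pfP_sq (j : ℕ) (M : Matrix (Fin (2 * j + 2)) (Fin (2 * j + 2)) ℝ) (hM : Mᵀ = -M) :
    pfP j M ^ 2 = pfP j (omega (2 * j + 2)) ^ 2 * M.det := by
  rw [pfP_omega_sq, pfP_sq_JJ j M hM]

end Crest.Agent.R192
end

-- ▼ part PVc/R192/Gen1
section

/-! Row 192: pointwise bounds for the normalised connection. -/

set_option autoImplicit false

namespace Crest.Agent.R192

open Crest.AlgebraR.L1 MeasureTheory Matrix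
open scoped ContDiff BoundedContinuousFunction

namespace Gen1Aux

theorem sum_single {n : ℕ} (i : Fin (n + 1)) (f : Fin (n + 1) → ℝ) :
    ∑ k, (ev i : V (n + 1)) k * f k = f i := by
  simp [Pi.single_apply]

theorem abs_dU_le {n : ℕ} {W : TwoPt n} (h : Smooth2 W) (hr : RotInv W) {θ : V (n + 1)}
    {s : Fin (n + 1) → ℝ} {T K : ℝ} (he : Ent W θ s T K) (i : Fin (n + 1)) :
    |fderiv ℝ (UU W) θ (ev i)| ≤
      2 * (K * ((1 + T) * (1 + s i)) * ∑ k, (1 + T) * (1 + s k)) := by
  have h1 : hess W θ (ev i) 1 = ∑ k, hess W θ (ev i) (ev k) := by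
    rw [hess_eq_sum h]
    simp only [Pi.one_apply, mul_one, ← Finset.mul_sum]
    exact sum_single i _
  have h2 : hess W θ 1 (ev i) = ∑ k, hess W θ (ev k) (ev i) := by
    rw [hess_eq_sum h]
    simp only [Pi.one_apply, one_mul]
    exact Finset.sum_congr rfl fun k _ => sum_single i _
  have h3 : |hess W θ (ev i) 1| ≤ K * ((1 + T) * (1 + s i)) * ∑ k, (1 + T) * (1 + s k) := by
    rw [h1, Finset.mul_sum]
    exact (Finset.abs_sum_le_sum_abs _ _).trans (Finset.sum_le_sum fun k _ => he.hess_le i k)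
  have h4 : |hess W θ 1 (ev i)| ≤ K * ((1 + T) * (1 + s i)) * ∑ k, (1 + T) * (1 + s k) := by
    rw [h2, Finset.mul_sum]
    exact (Finset.abs_sum_le_sum_abs _ _).trans
      (Finset.sum_le_sum fun k _ => (he.hess_le k i).trans (le_of_eq (by ring)))
  rw [fderiv_UU h hr]
  linarith [abs_sub (hess W θ (ev i) 1) (hess W θ 1 (ev i))]

theorem abs_div_le {a U b : ℝ} (hU : 1 ≤ U) (h : |a| ≤ b) : |a / U| ≤ b := by
  rw [abs_div, abs_of_pos (by linarith : 0 < U)]
  exact (div_le_self (abs_nonneg _) hU).trans h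

theorem one_add_le {g x : ℝ} (hg : 0 < g) (hg1 : g ≤ 1) : 1 + x ≤ g⁻¹ * Real.exp (g * x) := by
  rw [← div_eq_inv_mul, le_div_iff₀ hg]
  linarith [Real.add_one_le_exp (g * x)]

end Gen1Aux

open Gen1Aux

theorem ent_bound {n : ℕ} {W : TwoPt n} (h : Smooth2 W) (hr : RotInv W) {y : V n}
    (hy : y ∈ simplex n) {s : Fin (n + 1) → ℝ} {T K : ℝ} (hs : ∀ i, 0 ≤ s i) (hT : 0 ≤ T)
    (hK : 0 ≤ K) (he : Ent W (gemb n y) s T K) :
    (∀ i, |bg W y (ev i)| ≤ 8 * (n + 1) * (1 + K) ^ 2 * ((1 + T) * (1 + ∑ i, s i)) ^ 3) ∧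
      ∀ i i', |curv (bg W) y i i'| ≤
        8 * (n + 1) * (1 + K) ^ 2 * ((1 + T) * (1 + ∑ i, s i)) ^ 3 := by
  have hU := he.one_le
  have hS : 0 ≤ ∑ i, s i := Finset.sum_nonneg fun i _ => hs i
  set Q := (1 + T) * (1 + ∑ i, s i) with hQ
  have hQ1 : 1 ≤ Q := one_le_mul_of_one_le_of_one_le (by linarith) (by linarith)
  have hq : ∀ i, (1 + T) * (1 + s i) ≤ Q := fun i => mul_le_mul_of_nonneg_left
    (by linarith [Finset.single_le_sum (fun i _ => hs i) (Finset.mem_univ i)]) (by linarith)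
  have hq0 : ∀ i, 0 ≤ (1 + T) * (1 + s i) := fun i => by have := hs i; positivity
  have hb : ∀ i, |beta W (gemb n y) (ev i) / UU W (gemb n y)| ≤ K * Q := fun i =>
    abs_div_le hU ((he.beta_le i).trans (mul_le_mul_of_nonneg_left (hq i) hK))
  have hh : ∀ i k, |hess W (gemb n y) (ev i) (ev k)| ≤ K * Q * Q := fun i k =>
    (he.hess_le i k).trans (mul_le_mul (mul_le_mul_of_nonneg_left (hq i) hK) (hq k) (hq0 k)
      (by positivity))
  have hd : ∀ i, |fderiv ℝ (UU W) (gemb n y) (ev i) / UU W (gemb n y)|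
      ≤ 2 * (K * Q * ((n + 1) * Q)) := fun i => by
    refine abs_div_le hU ((abs_dU_le h hr he i).trans ?_)
    have h1 : ∑ k, (1 + T) * (1 + s k) ≤ (n + 1) * Q := by
      simpa using Finset.sum_le_card_nsmul Finset.univ _ Q fun k _ => hq k
    have h2 : 0 ≤ ∑ k, (1 + T) * (1 + s k) := Finset.sum_nonneg fun k _ => hq0 k
    have h3 := hq i
    gcongr
  have hn : (1 : ℝ) ≤ n + 1 := by linarith [Nat.cast_nonneg (α := ℝ) n]
  have q1 : Q ≤ Q ^ 3 := le_self_pow₀ hQ1 (by norm_num)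
  have q2 : Q * Q ≤ Q ^ 3 := by rw [← sq]; exact pow_le_pow_right₀ hQ1 (by norm_num)
  have q3 : Q ^ 3 ≤ (n + 1) * Q ^ 3 := le_mul_of_one_le_left (by positivity) hn
  set X := ((n : ℝ) + 1) * Q ^ 3 with hX
  have hX1 : 1 ≤ X := hQ1.trans (q1.trans q3)
  have e : 8 * ((n : ℝ) + 1) * (1 + K) ^ 2 * Q ^ 3 = 8 * X + 16 * (K * X) + 8 * (K ^ 2 * X) := by
    rw [hX]; ring
  have k1 : K * Q ≤ K * X := mul_le_mul_of_nonneg_left (q1.trans q3) hK
  have k2 : K * Q * Q ≤ K * X := by
    rw [mul_assoc]; exact mul_le_mul_of_nonneg_left (q2.trans q3) hK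
  have k3 : 0 ≤ K * X := by positivity
  have k4 : 0 ≤ K ^ 2 * X := by positivity
  rw [e]
  refine ⟨fun i => ?_, fun i k => ?_⟩
  · rw [bg_apply (by linarith), ← div_eq_inv_mul]
    have h1 := abs_beta_stdW_le hy i.succ
    have h2 := abs_sub (beta W (gemb n y) (ev i.succ) / UU W (gemb n y))
      (beta (stdW n) (gemb n y) (ev i.succ))
    linarith [hb i.succ]
  · have h1 := congrFun (congrFun (curv_bg h (y := y) (by linarith)) i) k
    simp only [Matrix.add_apply, Matrix.sub_apply, Matrix.smul_apply, Mb, Matrix.of_apply,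
      vecMulVec_apply, smul_eq_mul, ← div_eq_inv_mul] at h1
    have h2 : |omega n i k| ≤ 1 := by
      simp only [omega, Matrix.of_apply]
      split_ifs <;> simp
    have h3 := abs_le.1 (abs_div_le hU ((abs_sub _ _).trans
      (add_le_add (hh i.succ k.succ) (hh k.succ i.succ))))
    have hp : ∀ a b, |fderiv ℝ (UU W) (gemb n y) (ev a) / UU W (gemb n y) *
        (beta W (gemb n y) (ev b) / UU W (gemb n y))| ≤ 2 * (K ^ 2 * X) := fun a b => by
      rw [abs_mul]
      refine (mul_le_mul (hd a) (hb b) (abs_nonneg _) (by positivity)).trans (le_of_eq ?_)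
      rw [hX]; ring
    have h4 := abs_le.1 (hp i.succ k.succ)
    have h5 := abs_le.1 (hp k.succ i.succ)
    have h6 := abs_le.1 h2
    rw [abs_le]
    constructor <;> linarith [h3.1, h3.2, h4.1, h4.2, h5.1, h5.2, h6.1, h6.2]

theorem pf_bound {j : ℕ} {W : TwoPt (2 * j + 2)} (h : Smooth2 W) (hr : RotInv W)
    {y : V (2 * j + 2)} {s : Fin (2 * j + 2 + 1) → ℝ} {T K ε F γ : ℝ} (hs : ∀ i, 0 ≤ s i)
    (hT : T = (∑ i, s i) / (2 * j + 2)) (hK : 0 ≤ K) (hε : 0 < ε) (hγ : 0 < γ) (hγ1 : γ ≤ 1)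
    (he : Ent W (gemb _ y) s T K)
    (hc : Cost (Mb W (gemb _ y)) (fun i => ε * (1 + T) * (1 + s i.succ) ^ 2) F) :
    |pfP j (omega (2 * j + 2) + curv (bg W) y)| ≤ |pfP j (omega (2 * j + 2))| *
      (√F * (1 + 4 * K ^ 2 * (2 * j + 3) ^ 3 / ε) * (2 * ε * (4 / γ) ^ 8) ^ (j + 1)) *
      Real.exp (γ * ∑ i, s i) := by
  have hU := he.one_le
  have hS : 0 ≤ ∑ i, s i := Finset.sum_nonneg fun i _ => hs i
  set S := ∑ i, s i with hSdef
  have hj : (0 : ℝ) ≤ j := Nat.cast_nonneg j
  have hST : S = (2 * j + 2) * T := by rw [hT]; field_simp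
  have hT0 : 0 ≤ T := by rw [hT]; positivity
  set θ := gemb (2 * j + 2) y
  set A : ℝ := 4 * K ^ 2 * (2 * j + 3) ^ 2 * (1 + T) ^ 5 / ε with hA
  have hA0 : 0 ≤ A := by positivity
  have hAb : ∀ i : Fin (2 * j + 2 + 1), A * (ε * (1 + T) * (1 + s i) ^ 2) =
      (2 * (K * ((1 + T) * (1 + s i)) * ((1 + T) * ((2 * j + 3) * (1 + T))))) ^ 2 := fun i => by
    rw [hA]; field_simp; ring
  have hsum : ∑ k, (1 + T) * (1 + s k) ≤ (1 + T) * ((2 * j + 3) * (1 + T)) := by
    rw [← Finset.mul_sum, Finset.sum_add_distrib]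
    refine mul_le_mul_of_nonneg_left ?_ (by linarith)
    simp only [Finset.sum_const, Finset.card_univ, Fintype.card_fin, nsmul_eq_mul, mul_one]
    push_cast
    rw [← hSdef, hST]
    nlinarith
  have hq0 : ∀ i, 0 ≤ K * ((1 + T) * (1 + s i)) := fun i => by have := hs i; positivity
  have hone : 1 ≤ (1 + T) * ((2 * j + 3) * (1 + T)) := one_le_mul_of_one_le_of_one_le (by linarith)
    (one_le_mul_of_one_le_of_one_le (by linarith) (by linarith))
  have c1 : Cost ((UU W θ)⁻¹ • Mb W θ) (fun i => ε * (1 + T) * (1 + s i.succ) ^ 2) F :=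
    (hc.smul (inv_pos.2 (by linarith))).mono
      (fun i => mul_le_of_le_one_left (by positivity) (inv_le_one_of_one_le₀ hU)) le_rfl
  have c2 := Cost.rank2 (fun i : Fin (2 * j + 2) => fderiv ℝ (UU W) θ (ev i.succ) / UU W θ)
    (fun i => beta W θ (ev i.succ) / UU W θ) (fun i => ε * (1 + T) * (1 + s i.succ) ^ 2) hA0
    (fun i => by have := hs i.succ; positivity)
    (fun i => by
      rw [hAb, ← sq_abs]
      refine pow_le_pow_left₀ (abs_nonneg _) (abs_div_le hU ((abs_dU_le h hr he _).trans ?_)) 2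
      exact mul_le_mul_of_nonneg_left (mul_le_mul_of_nonneg_left hsum (hq0 _)) zero_le_two)
    (fun i => by
      rw [hAb, ← sq_abs]
      refine pow_le_pow_left₀ (abs_nonneg _) (abs_div_le hU ((he.beta_le _).trans ?_)) 2
      nlinarith [hq0 i.succ, mul_le_mul_of_nonneg_left hone (hq0 i.succ)])
  have c3 := (c1.add c2.neg).abs_det_le
  rw [← sub_eq_add_neg, ← curv_bg h (by linarith), Fintype.card_fin] at c3
  have hF := hc.nonneg.1
  set M := omega (2 * j + 2) + curv (bg W) y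
  have hM : Mᵀ = -M := by
    rw [transpose_add, omega_transpose, neg_add]
    congr 1
    ext a b
    simp [curv]
  set Pr := ∏ i : Fin (2 * j + 2), (1 + s i.succ) with hPr
  have hPr0 : 0 ≤ Pr := Finset.prod_nonneg fun i _ => by linarith [hs i.succ]
  have e1 : ∏ i : Fin (2 * j + 2), (ε * (1 + T) * (1 + s i.succ) ^ 2 +
      ε * (1 + T) * (1 + s i.succ) ^ 2) = ((2 * ε * (1 + T)) ^ (j + 1) * Pr) ^ 2 := by
    rw [mul_pow, ← pow_mul, hPr, ← Finset.prod_pow,
      show (j + 1) * 2 = (Finset.univ : Finset (Fin (2 * j + 2))).card by simp; ring,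
      ← Finset.prod_const, ← Finset.prod_mul_distrib]
    exact Finset.prod_congr rfl fun i _ => by ring
  rw [e1] at c3
  push_cast at c3
  have b1 : |pfP j M| ≤ |pfP j (omega (2 * j + 2))| *
      (√F * (1 + (2 * j + 2) * A) * ((2 * ε * (1 + T)) ^ (j + 1) * Pr)) := by
    refine (pow_le_pow_iff_left₀ (abs_nonneg _) (by positivity) two_ne_zero).1 ?_
    rw [sq_abs, pfP_sq j M hM, mul_pow, sq_abs, mul_pow, mul_pow, Real.sq_sqrt hF.le]
    exact mul_le_mul_of_nonneg_left ((le_abs_self _).trans c3) (sq_nonneg _)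
  refine b1.trans ?_
  rw [mul_assoc |_|]
  refine mul_le_mul_of_nonneg_left ?_ (abs_nonneg _)
  set g := γ / 4 with hg
  have hg0 : 0 < g := by positivity
  have hg1 : g ≤ 1 := by linarith
  have hgi : 1 ≤ g⁻¹ := (one_le_inv₀ hg0).2 hg1
  set B : ℝ := 1 + 4 * K ^ 2 * (2 * j + 3) ^ 3 / ε with hB
  have d1 : 1 + (2 * j + 2) * A ≤ B * (1 + T) ^ 5 := by
    have h1 : 1 ≤ (1 + T) ^ 5 := one_le_pow₀ (by linarith)
    have h2 : (2 * j + 2) * A ≤ (2 * j + 3) * A := mul_le_mul_of_nonneg_right (by linarith) hA0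
    have h3 : B * (1 + T) ^ 5 = (1 + T) ^ 5 + (2 * j + 3) * A := by rw [hB, hA]; ring
    linarith
  have d2 : (1 + T) ^ (j + 6) ≤ g⁻¹ ^ (j + 6) * Real.exp (3 * (g * S)) := by
    refine (pow_le_pow_left₀ (by linarith) (one_add_le hg0 hg1) _).trans ?_
    rw [mul_pow, ← Real.exp_nat_mul]
    refine mul_le_mul_of_nonneg_left (Real.exp_le_exp.2 ?_) (by positivity)
    rw [hST]
    push_cast
    nlinarith [mul_nonneg hj (mul_nonneg hg0.le hT0)]
  have d3 : Pr ≤ g⁻¹ ^ (2 * j + 2) * Real.exp (g * S) := by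
    refine (Finset.prod_le_prod (fun i _ => by linarith [hs i.succ])
      fun i _ => one_add_le (x := s i.succ) hg0 hg1).trans ?_
    rw [Finset.prod_mul_distrib, Finset.prod_const, Finset.card_univ, Fintype.card_fin,
      ← Real.exp_sum, ← Finset.mul_sum]
    refine mul_le_mul_of_nonneg_left (Real.exp_le_exp.2
      (mul_le_mul_of_nonneg_left ?_ hg0.le)) (by positivity)
    rw [hSdef, Fin.sum_univ_succ s]
    linarith [hs 0]
  have d4 : (1 + T) ^ (j + 6) * Pr ≤ (g⁻¹ ^ 8) ^ (j + 1) * Real.exp (γ * S) := by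
    refine (mul_le_mul d2 d3 hPr0 (by positivity)).trans ?_
    rw [mul_mul_mul_comm, ← Real.exp_add, ← pow_add, ← pow_mul,
      show 3 * (g * S) + g * S = γ * S by rw [hg]; ring]
    exact mul_le_mul_of_nonneg_right (pow_le_pow_right₀ hgi (by omega)) (Real.exp_pos _).le
  have hB0 : 0 ≤ B := by positivity
  rw [show 4 / γ = g⁻¹ by rw [hg, inv_div]]
  calc √F * (1 + (2 * j + 2) * A) * ((2 * ε * (1 + T)) ^ (j + 1) * Pr)
      ≤ √F * (B * (1 + T) ^ 5) * ((2 * ε * (1 + T)) ^ (j + 1) * Pr) := by gcongr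
    _ = √F * B * (2 * ε) ^ (j + 1) * ((1 + T) ^ (j + 6) * Pr) := by rw [mul_pow (2 * ε)]; ring
    _ ≤ √F * B * (2 * ε) ^ (j + 1) * ((g⁻¹ ^ 8) ^ (j + 1) * Real.exp (γ * S)) := by gcongr
    _ = _ := by rw [mul_pow (2 * ε)]; ring

end Crest.Agent.R192
end

-- ▼ part PVc/R192/StokesAux
section

/-! Row 192: mixed Pfaffians (algebra for the transgression formula). -/

set_option autoImplicit false

namespace Crest.Agent.R192

open Matrix Equiv Finset

namespace StokesAux

abbrev Mx (n : ℕ) := Matrix (Fin n) (Fin n) ℝ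

variable {j : ℕ}

theorem expand {ι : Type} [Fintype ι] (x : Fin (2 * j + 2) → ι → ℝ)
    (M : Fin (j + 1) → ι → ι → ℝ) :
    ∏ a : Fin (j + 1), ∑ l, (∑ k, x (sl0 a) k * M a k l) * x (sl1 a) l =
      ∑ f : Fin (2 * j + 2) → ι, (∏ i, x i (f i)) * ∏ a, M a (f (sl0 a)) (f (sl1 a)) := by
  classical
  have h1 : ∀ a : Fin (j + 1), ∑ l, (∑ k, x (sl0 a) k * M a k l) * x (sl1 a) l =
      ∑ g : Fin 2 → ι, x (sl0 a) (g 0) * x (sl1 a) (g 1) * M a (g 0) (g 1) := by
    intro a
    rw [← (piFinTwoEquiv fun _ => ι).symm.sum_comp, Fintype.sum_prod_type, Finset.sum_comm]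
    refine Finset.sum_congr rfl fun l _ => ?_
    rw [Finset.sum_mul]
    refine Finset.sum_congr rfl fun k _ => ?_
    simp
    ring
  simp only [h1]
  rw [Finset.prod_univ_sum, Fintype.piFinset_univ]
  symm
  refine Fintype.sum_equiv (((PfAux.slE j).symm.arrowCongr (Equiv.refl ι)).trans
    ((Equiv.curry _ _ _).trans (Equiv.piComm _))) _ _ fun f => ?_
  rw [← (PfAux.slE j).prod_comp, Fintype.prod_prod_type, Fin.prod_univ_two,
    ← Finset.prod_mul_distrib, ← Finset.prod_mul_distrib]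
  rfl

/-- mixed Pfaffian -/
noncomputable def mix (j : ℕ) (N : Fin (j + 1) → Mx (2 * j + 2)) : ℝ :=
  ∑ σ : Perm (Fin (2 * j + 2)), ((Perm.sign σ : ℤ) : ℝ) * ∏ a, N a (σ (sl0 a)) (σ (sl1 a))

theorem mix_congr (N : Fin (j + 1) → Mx (2 * j + 2)) (B : Mx (2 * j + 2)) :
    mix j (fun a => Bᵀ * N a * B) = B.det * mix j N := by
  have h1 : ∀ σ : Perm (Fin (2 * j + 2)),
      ∏ a : Fin (j + 1), (Bᵀ * N a * B) (σ (sl0 a)) (σ (sl1 a)) =
      ∑ f : Fin (2 * j + 2) → Fin (2 * j + 2),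
        (∏ i, B (f i) (σ i)) * ∏ a, N a (f (sl0 a)) (f (sl1 a)) := fun σ =>
    expand (fun i k => B k (σ i)) N
  have h2 : ∀ f : Fin (2 * j + 2) → Fin (2 * j + 2), ∑ σ : Perm (Fin (2 * j + 2)),
      ((Perm.sign σ : ℤ) : ℝ) * ∏ i, B (f i) (σ i) = (B.submatrix f id).det := fun f => by
    rw [← det_transpose, det_apply']
    rfl
  simp only [mix, h1, Finset.mul_sum, ← mul_assoc]
  rw [Finset.sum_comm]
  simp only [← Finset.sum_mul, h2]
  symm
  refine Fintype.sum_of_injective (fun σ : Perm (Fin (2 * j + 2)) => ⇑σ)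
    DFunLike.coe_injective _ _ (fun f hf => ?_) fun σ => ?_
  · have h3 : ¬ Function.Injective f := fun h =>
      hf ⟨Equiv.ofBijective f (Finite.injective_iff_bijective.1 h), rfl⟩
    obtain ⟨u, v, h4, h5⟩ := Function.not_injective_iff.1 h3
    rw [det_zero_of_row_eq h5 (by ext; simp [h4]), zero_mul]
  · rw [det_permute, mul_comm B.det]

/-- the slots other than `r` -/
noncomputable def KK (r : Fin (j + 1)) (A C : Mx (2 * j + 2)) (σ : Perm (Fin (2 * j + 2))) : ℝ :=
  ∏ a ∈ univ.erase r, (if a < r then A else C) (σ (sl0 a)) (σ (sl1 a))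

/-- `∑ r, A^r ∧ W ∧ C^(j-r)` -/
noncomputable def GG (j : ℕ) (W A C : Mx (2 * j + 2)) : ℝ :=
  ∑ r : Fin (j + 1), ∑ σ : Perm (Fin (2 * j + 2)),
    ((Perm.sign σ : ℤ) : ℝ) * (W (σ (sl0 r)) (σ (sl1 r)) * KK r A C σ)

theorem GG_eq (W A C : Mx (2 * j + 2)) :
    GG j W A C = ∑ r, mix j fun a => if a = r then W else if a < r then A else C := by
  refine sum_congr rfl fun r _ => sum_congr rfl fun σ _ => ?_
  beta_reduce
  rw [← mul_prod_erase univ _ (mem_univ r), if_pos rfl, KK]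
  congr 2
  exact prod_congr rfl fun a ha => by rw [if_neg (ne_of_mem_erase ha)]

theorem GG_congr (W A C B : Mx (2 * j + 2)) :
    GG j (Bᵀ * W * B) (Bᵀ * A * B) (Bᵀ * C * B) = B.det * GG j W A C := by
  rw [GG_eq, GG_eq, mul_sum]
  refine sum_congr rfl fun r _ => ?_
  rw [← mix_congr]
  congr 1
  funext a
  split_ifs <;> rfl

theorem tele (C M : Mx (2 * j + 2)) : pfP j (C + M) = pfP j C + GG j M (C + M) C := by
  rw [GG, sum_comm, pfP, pfP, ← sum_add_distrib]
  refine sum_congr rfl fun σ _ => ?_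
  rw [← mul_sum, ← mul_add]
  congr 1
  simp only [Matrix.add_apply]
  rw [prod_add_ordered]
  congr 1
  refine sum_congr rfl fun r _ => ?_
  rw [mul_assoc, KK]
  congr 1
  have e1 : (univ.erase r).filter (fun a => a < r) = univ.filter fun a => a < r := by
    ext a; simp only [mem_filter, mem_erase, mem_univ]; grind
  have e2 : (univ.erase r).filter (fun a => ¬ a < r) = univ.filter fun a => r < a := by
    ext a; simp only [mem_filter, mem_erase, mem_univ]; grind
  rw [← prod_filter_mul_prod_filter_not (univ.erase r) fun a => a < r, e1, e2]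
  congr 1
  · exact prod_congr rfl fun a ha => by rw [if_pos (mem_filter.1 ha).2, Matrix.add_apply]
  · exact prod_congr rfl fun a ha => by rw [if_neg (mem_filter.1 ha).2.not_gt]

/-- wedge product of two covectors -/
def wedge {n : ℕ} (ξ c : V n) : Mx n := of fun k l => ξ k * c l - ξ l * c k

theorem wedge_congr {n : ℕ} (ξ c : V n) (B : Mx n) :
    Bᵀ * wedge ξ c * B = wedge (ξ ᵥ* B) (c ᵥ* B) := by
  ext k l
  simp only [wedge, mul_apply, of_apply, transpose_apply, vecMul, dotProduct, mul_sub, sub_mul,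
    sum_sub_distrib, sum_mul, mul_sum]
  congr 1
  · exact sum_congr rfl fun _ _ => sum_congr rfl fun _ _ => by ring
  · rw [sum_comm]
    exact sum_congr rfl fun _ _ => sum_congr rfl fun _ _ => by ring

theorem wedge_sum {n : ℕ} (ξ c : V n) (k l : Fin n) :
    wedge ξ c k l = ∑ i, ξ i * wedge (ev i) c k l := by
  simp [wedge, mul_sub, sum_sub_distrib, Pi.single_apply]

theorem GG_wedge (ξ c : V (2 * j + 2)) (A C : Mx (2 * j + 2)) :
    GG j (wedge ξ c) A C = ∑ i, ξ i * GG j (wedge (ev i) c) A C := by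
  simp only [GG, mul_sum]
  rw [sum_comm (s := (univ : Finset (Fin (2 * j + 2))))]
  refine sum_congr rfl fun r _ => ?_
  rw [sum_comm (s := (univ : Finset (Fin (2 * j + 2))))]
  refine sum_congr rfl fun σ _ => ?_
  rw [wedge_sum, sum_mul, mul_sum]
  exact sum_congr rfl fun i _ => by ring

theorem sl0_ne {a b : Fin (j + 1)} (h : a ≠ b) : sl0 a ≠ sl0 b := fun e => by
  simp only [sl0, Fin.mk.injEq] at e
  exact h (Fin.ext (by omega))

theorem sl1_ne {a b : Fin (j + 1)} (h : a ≠ b) : sl1 a ≠ sl1 b := fun e => by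
  simp only [sl1, Fin.mk.injEq] at e
  exact h (Fin.ext (by omega))

theorem sl01_ne (a b : Fin (j + 1)) : sl0 a ≠ sl1 b := fun e => by
  simp only [sl0, sl1, Fin.mk.injEq] at e
  omega

theorem GG_zero {c c' : V (2 * j + 2)} {A A' C C' : Mx (2 * j + 2)}
    (hc : ∀ k, k ≠ 0 → c k = c' k) (hA : ∀ k l, k ≠ 0 → l ≠ 0 → A k l = A' k l)
    (hC : ∀ k l, k ≠ 0 → l ≠ 0 → C k l = C' k l) :
    GG j (wedge (ev 0) c) A C = GG j (wedge (ev 0) c') A' C' := by
  refine sum_congr rfl fun r _ => sum_congr rfl fun σ _ => ?_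
  congr 1
  have hK : σ (sl0 r) = 0 ∨ σ (sl1 r) = 0 → KK r A C σ = KK r A' C' σ := fun h => by
    refine prod_congr rfl fun a ha => ?_
    have ha' := ne_of_mem_erase ha
    have h0 : σ (sl0 a) ≠ 0 := by
      rcases h with h | h <;> rw [← h, σ.injective.ne_iff]
      exacts [sl0_ne ha', sl01_ne _ _]
    have h1 : σ (sl1 a) ≠ 0 := by
      rcases h with h | h <;> rw [← h, σ.injective.ne_iff]
      exacts [(sl01_ne _ _).symm, sl1_ne ha']
    split_ifs
    exacts [hA _ _ h0 h1, hC _ _ h0 h1]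
  have hne : σ (sl0 r) ≠ σ (sl1 r) := σ.injective.ne (sl01_ne r r)
  by_cases h0 : σ (sl0 r) = 0
  · have h1 : σ (sl1 r) ≠ 0 := fun e => hne (h0.trans e.symm)
    rw [hK (Or.inl h0), h0]
    simp [wedge, h1, hc _ h1]
  · by_cases h1 : σ (sl1 r) = 0
    · rw [hK (Or.inr h1), h1]
      simp [wedge, h0, hc _ h0]
    · simp [wedge, h0, h1]

/-- extension by a zero row and column -/
def xt {n : ℕ} (A : Mx n) : Mx (n + 1) := of (vecCons 0 fun k => vecCons 0 (A k))

/-- a new first column -/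
def bord {n : ℕ} (v : V (n + 1)) (L : Matrix (Fin (n + 1)) (Fin n) ℝ) : Mx (n + 1) :=
  of fun k => vecCons (v k) (L k)

/-- the odd form -/
noncomputable def T0 (j : ℕ) (c : V (2 * j + 1)) (A C : Mx (2 * j + 1)) : ℝ :=
  GG j (wedge (ev 0) (vecCons 0 c)) (xt A) (xt C)

theorem trans (L : Matrix (Fin (2 * j + 2)) (Fin (2 * j + 1)) ℝ) {ξ v : V (2 * j + 2)}
    (hξ : ξ ᵥ* L = 0) (hv : ξ ⬝ᵥ v = 1) (c : V (2 * j + 2)) (A C : Mx (2 * j + 2)) :
    (bord v L).det * GG j (wedge ξ c) A C = T0 j (c ᵥ* L) (Lᵀ * A * L) (Lᵀ * C * L) := by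
  have h1 : ξ ᵥ* bord v L = ev 0 := by
    funext l
    refine Fin.cases ?_ (fun l => ?_) l
    · simpa [bord, vecMul, dotProduct] using hv
    · simpa [bord, vecMul, dotProduct] using congrFun hξ l
  have h2 : ∀ (A : Mx (2 * j + 2)) (k l : Fin (2 * j + 2)), k ≠ 0 → l ≠ 0 →
      ((bord v L)ᵀ * A * bord v L) k l = xt (Lᵀ * A * L) k l := by
    intro A k l hk hl
    obtain ⟨k, rfl⟩ := Fin.exists_succ_eq.2 hk
    obtain ⟨l, rfl⟩ := Fin.exists_succ_eq.2 hl
    simp [bord, xt, mul_apply]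
  rw [← GG_congr, wedge_congr, h1]
  refine GG_zero (fun k hk => ?_) (h2 A) (h2 C)
  obtain ⟨k, rfl⟩ := Fin.exists_succ_eq.2 hk
  simp [bord, vecMul, dotProduct]

theorem T0_congr (L : Mx (2 * j + 1)) (c : V (2 * j + 1)) (A C : Mx (2 * j + 1)) :
    T0 j (c ᵥ* L) (Lᵀ * A * L) (Lᵀ * C * L) = L.det * T0 j c A C := by
  let L' : Matrix (Fin (2 * j + 2)) (Fin (2 * j + 1)) ℝ := of (vecCons 0 L)
  have h := trans L' (ξ := ev 0) (v := ev 0) (by ext l; simp [L']) (by simp) (vecCons 0 c)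
    (xt A) (xt C)
  have h1 : ∀ A : Mx (2 * j + 1), L'ᵀ * xt A * L' = Lᵀ * A * L := fun A => by
    ext k l
    simp [L', xt, mul_apply, Fin.sum_univ_succ (n := 2 * j + 1)]
  have h2 : vecCons 0 c ᵥ* L' = c ᵥ* L := by
    ext l
    simp [L', vecMul, dotProduct, Fin.sum_univ_succ (n := 2 * j + 1)]
  have h3 : (bord (ev 0) L').det = L.det := by
    rw [det_succ_column_zero, Fin.sum_univ_succ, sum_eq_zero fun i _ => by simp [bord]]
    have : (bord (ev 0) L').submatrix (Fin.succAbove 0) Fin.succ = L := by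
      ext k l
      simp [bord, L']
    rw [this]
    simp [bord]
  rw [h1, h1, h2, h3] at h
  exact h.symm

theorem bord_det_ne {n : ℕ} (L : Matrix (Fin (n + 1)) (Fin n) ℝ) {ξ v : V (n + 1)}
    (hξ : ξ ᵥ* L = 0) (hv : ξ ⬝ᵥ v = 1) (hL : ∀ u, L *ᵥ u = 0 → u = 0) : (bord v L).det ≠ 0 := by
  intro h
  obtain ⟨w, hw, h1⟩ := exists_mulVec_eq_zero_iff.2 h
  have h2 : bord v L *ᵥ w = w 0 • v + L *ᵥ Fin.tail w := by
    ext k
    simp [bord, mulVec, dotProduct, Fin.sum_univ_succ, Fin.tail, mul_comm]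
  have h3 : w 0 = 0 := by
    have := congrArg (ξ ⬝ᵥ ·) (h2.symm.trans h1)
    simpa [dotProduct_add, dotProduct_smul, hv, dotProduct_mulVec, hξ] using this
  rw [h2, h3, zero_smul, zero_add] at h1
  refine hw (funext fun k => Fin.cases h3 (fun k => congrFun (hL _ h1) k) k)

theorem GG_bound {W A C : Mx (2 * j + 2)} {R : ℝ} (hW : ∀ k l, |W k l| ≤ R)
    (hA : ∀ k l, |A k l| ≤ R) (hC : ∀ k l, |C k l| ≤ R) :
    |GG j W A C| ≤ (j + 1) * (2 * j + 2).factorial * R ^ (j + 1) := by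
  rw [GG_eq]
  refine (abs_sum_le_sum_abs _ _).trans ?_
  refine (sum_le_card_nsmul _ _ ((2 * j + 2).factorial * R ^ (j + 1)) fun r _ => ?_).trans
    (le_of_eq (by simp [mul_assoc]))
  refine (abs_sum_le_sum_abs _ _).trans ?_
  refine (sum_le_card_nsmul _ _ (R ^ (j + 1)) fun σ _ => ?_).trans
    (le_of_eq (by simp [Fintype.card_perm]))
  have hs : |((Perm.sign σ : ℤ) : ℝ)| = 1 := by
    rcases Int.units_eq_one_or (Perm.sign σ) with h | h <;> simp [h]
  rw [abs_mul, hs, one_mul, abs_prod]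
  refine (prod_le_prod (fun _ _ => abs_nonneg _) (g := fun _ => R) fun a _ => ?_).trans
    (le_of_eq (by simp))
  beta_reduce
  split_ifs
  exacts [hW _ _, hA _ _, hC _ _]

theorem T0_bound {c : V (2 * j + 1)} {A C : Mx (2 * j + 1)} {R : ℝ} (hR : 0 ≤ R)
    (hc : ∀ k, 2 * |c k| ≤ R) (hA : ∀ k l, |A k l| ≤ R) (hC : ∀ k l, |C k l| ≤ R) :
    |T0 j c A C| ≤ (j + 1) * (2 * j + 2).factorial * R ^ (j + 1) := by
  have h1 : ∀ A : Mx (2 * j + 1), (∀ k l, |A k l| ≤ R) → ∀ k l, |xt A k l| ≤ R := by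
    intro A hA k l
    refine Fin.cases ?_ (fun k => Fin.cases ?_ (fun l => ?_) l) k <;> simp [xt, hR, hA]
  refine GG_bound (fun k l => ?_) (h1 A hA) (h1 C hC)
  refine Fin.cases ?_ (fun k => ?_) k <;> refine Fin.cases ?_ (fun l => ?_) l
  · simp [wedge, hR]
  · have := hc l
    have := abs_nonneg (c l)
    simp [wedge]
    linarith
  · have := hc k
    have := abs_nonneg (c k)
    simp [wedge]
    linarith
  · simp [wedge, hR]

theorem alt_swap {n : ℕ} (f : Perm (Fin n) → ℝ) {s u : Fin n} (h : s ≠ u)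
    (hf : ∀ σ, f (σ * swap s u) = f σ) : ∑ σ, ((Perm.sign σ : ℤ) : ℝ) * f σ = 0 := by
  have h1 := Equiv.sum_comp (Equiv.mulRight (swap s u)) fun σ => ((Perm.sign σ : ℤ) : ℝ) * f σ
  simp only [coe_mulRight, hf, Perm.sign_mul, Perm.sign_swap h, mul_neg, mul_one, Units.val_neg,
    Int.cast_neg, neg_mul, sum_neg_distrib] at h1
  linarith

/-- a symmetric pair of slots kills the alternating sum -/
theorem closed0 (H : Fin (2 * j + 2) → Fin (2 * j + 2) → Fin (2 * j + 2) → ℝ)
    (hH : ∀ i k l, H i k l = H k i l) (β : V (2 * j + 2)) (S : Finset (Fin (j + 1)))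
    (E : Fin (j + 1) → Mx (2 * j + 2)) {s t u v : Fin (2 * j + 2)} (h : s ≠ u) (hts : t ≠ s)
    (htu : t ≠ u) (hvs : v ≠ s) (hvu : v ≠ u)
    (hS : ∀ a ∈ S, sl0 a ≠ s ∧ sl0 a ≠ u ∧ sl1 a ≠ s ∧ sl1 a ≠ u) :
    ∑ σ : Perm (Fin (2 * j + 2)), ((Perm.sign σ : ℤ) : ℝ) *
      (β (σ t) * (∏ a ∈ S, E a (σ (sl0 a)) (σ (sl1 a))) * H (σ s) (σ u) (σ v)) = 0 := by
  refine alt_swap _ h fun σ => ?_
  simp only [Perm.mul_apply, swap_apply_left, swap_apply_right, swap_apply_of_ne_of_ne hts htu,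
    swap_apply_of_ne_of_ne hvs hvu, hH (σ u)]
  congr 2
  refine prod_congr rfl fun a ha => ?_
  obtain ⟨h1, h2, h3, h4⟩ := hS a ha
  rw [swap_apply_of_ne_of_ne h1 h2, swap_apply_of_ne_of_ne h3 h4]

theorem closed (H : Fin (2 * j + 2) → Fin (2 * j + 2) → Fin (2 * j + 2) → ℝ)
    (hH : ∀ i k l, H i k l = H k i l) (β : V (2 * j + 2)) (E : Fin (j + 1) → Mx (2 * j + 2))
    {r a : Fin (j + 1)} (h : a ≠ r) :
    ∑ σ : Perm (Fin (2 * j + 2)), ((Perm.sign σ : ℤ) : ℝ) *
      ∑ i, wedge (ev i) β (σ (sl0 r)) (σ (sl1 r)) *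
        ((∏ a' ∈ (univ.erase r).erase a, E a' (σ (sl0 a')) (σ (sl1 a'))) *
          (H i (σ (sl0 a)) (σ (sl1 a)) - H i (σ (sl1 a)) (σ (sl0 a)))) = 0 := by
  have hS : ∀ a' ∈ (univ.erase r).erase a, a' ≠ a ∧ a' ≠ r := fun a' ha' =>
    ⟨ne_of_mem_erase ha', ne_of_mem_erase (mem_of_mem_erase ha')⟩
  have h1 := closed0 H hH β _ E (s := sl0 r) (t := sl1 r) (u := sl0 a) (v := sl1 a)
    (sl0_ne h.symm) (sl01_ne _ _).symm (sl01_ne _ _).symm (sl01_ne _ _).symm (sl01_ne _ _).symm
    fun a' ha' => ⟨sl0_ne (hS a' ha').2, sl0_ne (hS a' ha').1, (sl01_ne _ _).symm,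
      (sl01_ne _ _).symm⟩
  have h2 := closed0 H hH β _ E (s := sl0 r) (t := sl1 r) (u := sl1 a) (v := sl0 a)
    (sl01_ne _ _) (sl01_ne _ _).symm (sl1_ne h.symm) (sl0_ne h) (sl01_ne _ _)
    fun a' ha' => ⟨sl0_ne (hS a' ha').2, sl01_ne _ _, (sl01_ne _ _).symm, sl1_ne (hS a' ha').1⟩
  have h3 := closed0 H hH β _ E (s := sl1 r) (t := sl0 r) (u := sl0 a) (v := sl1 a)
    (sl01_ne _ _).symm (sl01_ne _ _) (sl0_ne h.symm) (sl1_ne h) (sl01_ne _ _).symm
    fun a' ha' => ⟨sl01_ne _ _, sl0_ne (hS a' ha').1, sl1_ne (hS a' ha').2, (sl01_ne _ _).symm⟩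
  have h4 := closed0 H hH β _ E (s := sl1 r) (t := sl0 r) (u := sl1 a) (v := sl0 a)
    (sl1_ne h.symm) (sl01_ne _ _) (sl01_ne _ _) (sl01_ne _ _) (sl01_ne _ _)
    fun a' ha' => ⟨sl01_ne _ _, sl01_ne _ _, sl1_ne (hS a' ha').2, sl1_ne (hS a' ha').1⟩
  have h5 := congrArg₂ (· - ·) (congrArg₂ (· - ·) h1 h2) (congrArg₂ (· - ·) h3 h4)
  simp only [← sum_sub_distrib, sub_self] at h5
  rw [← h5]
  refine sum_congr rfl fun σ _ => ?_
  simp only [wedge, of_apply, sub_mul, sum_sub_distrib, Pi.single_apply, ite_mul, one_mul, zero_mul,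
    sum_ite_eq, mem_univ, if_true]
  ring

end StokesAux

end Crest.Agent.R192
end

-- ▼ part PVc/R192/Stokes
section

/-! Row 192: transgression (Stokes) on the simplex. -/

set_option autoImplicit false

namespace Crest.Agent.R192

open Crest.AlgebraR.L1 MeasureTheory Matrix
open scoped ContDiff BoundedContinuousFunction

namespace StokesAux

open Equiv Finset

variable {j n m : ℕ}

theorem clm_sum {E : Type} [NormedAddCommGroup E] [NormedSpace ℝ E] (f : V n →L[ℝ] E) (u : V n) :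
    f u = ∑ k, u k • f (ev k) := by
  conv_lhs => rw [pi_eq_sum_univ' u]
  simp only [map_sum, map_smul]

/-- coefficients of a covector -/
def cf (b : V n →L[ℝ] ℝ) : V n := fun l => b (ev l)

theorem fderiv_app {E : Type} [NormedAddCommGroup E] [NormedSpace ℝ E] {b : V n → V m →L[ℝ] E}
    {y : V n} (hb : DifferentiableAt ℝ b y) (e : V n) (u : V m) :
    fderiv ℝ (fun y => b y u) y e = fderiv ℝ b y e u := by
  rw [fderiv_clm_apply hb (differentiableAt_const u)]
  simp

theorem cf_pull (L : Matrix (Fin m) (Fin n) ℝ) (b : V m →L[ℝ] ℝ) (b' : V n →L[ℝ] ℝ)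
    (h : ∀ u, b' u = b (L *ᵥ u)) : cf b' = cf b ᵥ* L := by
  funext l
  rw [cf, h, clm_sum]
  simp [cf, vecMul, dotProduct, mul_comm]

theorem curv_pull (L : Matrix (Fin m) (Fin n) ℝ) (v : V m) {b : V m → V m →L[ℝ] ℝ}
    (hb : Differentiable ℝ b) {b' : V n → V n →L[ℝ] ℝ}
    (h : ∀ y u, b' y u = b (L *ᵥ y + v) (L *ᵥ u)) (y : V n) :
    curv b' y = Lᵀ * curv b (L *ᵥ y + v) * L := by
  let ℓ : V n →L[ℝ] V m := LinearMap.toContinuousLinearMap (Matrix.mulVecLin L)
  have hℓ : ∀ u, ℓ u = L *ᵥ u := fun _ => rfl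
  have e : b' = fun y => (b (ℓ y + v)).comp ℓ := by
    funext y
    exact ContinuousLinearMap.ext fun u => h y u
  have h1 : HasFDerivAt (fun y => b (ℓ y + v)) ((fderiv ℝ b (ℓ y + v)).comp ℓ) y :=
    (hb (ℓ y + v)).hasFDerivAt.comp y (ℓ.hasFDerivAt.add_const v)
  have h2 : ∀ e u, fderiv ℝ b' y e u = fderiv ℝ b (L *ᵥ y + v) (L *ᵥ e) (L *ᵥ u) := by
    intro e' u
    rw [e, (h1.clm_comp (hasFDerivAt_const ℓ y)).fderiv]
    simp [hℓ]
  have h3 : ∀ k l, fderiv ℝ b' y (ev k) (ev l) =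
      ∑ s, ∑ t, L s k * (L t l * fderiv ℝ b (L *ᵥ y + v) (ev s) (ev t)) := by
    intro k l
    rw [h2, clm_sum (fderiv ℝ b _), _root_.sum_apply]
    refine sum_congr rfl fun s _ => ?_
    rw [_root_.smul_apply, clm_sum, smul_eq_mul, mul_sum]
    simp
  ext k l
  simp only [curv, of_apply, h3, mul_apply, transpose_apply, mul_sub, sub_mul, sum_sub_distrib,
    sum_mul]
  congr 1
  · rw [sum_comm]
    exact sum_congr rfl fun _ _ => sum_congr rfl fun _ _ => by ring
  · exact sum_congr rfl fun _ _ => sum_congr rfl fun _ _ => by ring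

theorem two_le : (1 : WithTop ℕ∞) + 1 ≤ ∞ := by
  rw [one_add_one_eq_two]
  exact WithTop.coe_le_coe.2 (le_top (a := (2 : ℕ∞)))

theorem smooth_fderiv {b : V n → V n →L[ℝ] ℝ} (hb : ContDiff ℝ ∞ b) : ContDiff ℝ 1 (fderiv ℝ b) :=
  hb.fderiv_right two_le

theorem smooth_curv {b : V n → V n →L[ℝ] ℝ} (hb : ContDiff ℝ ∞ b) (k l : Fin n) :
    ContDiff ℝ 1 fun y => curv b y k l :=
  (((smooth_fderiv hb).clm_apply contDiff_const).clm_apply contDiff_const).sub
    (((smooth_fderiv hb).clm_apply contDiff_const).clm_apply contDiff_const)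

theorem smooth_cf {b : V n → V n →L[ℝ] ℝ} (hb : ContDiff ℝ ∞ b) (l : Fin n) :
    ContDiff ℝ 1 fun y => cf (b y) l :=
  (hb.of_le (by exact_mod_cast le_top)).clm_apply contDiff_const

theorem fderiv_curv {b : V n → V n →L[ℝ] ℝ} (hb : ContDiff ℝ ∞ b) (y e : V n) (k l : Fin n) :
    fderiv ℝ (fun y => curv b y k l) y e =
      fderiv ℝ (fderiv ℝ b) y e (ev k) (ev l) - fderiv ℝ (fderiv ℝ b) y e (ev l) (ev k) := by
  have h1 : DifferentiableAt ℝ (fderiv ℝ b) y := (smooth_fderiv hb).differentiable one_ne_zero y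
  have h2 : ∀ k, DifferentiableAt ℝ (fun y => fderiv ℝ b y (ev k)) y := fun k =>
    h1.clm_apply (differentiableAt_const _)
  simp only [curv, of_apply]
  rw [fderiv_fun_sub ((h2 k).clm_apply (differentiableAt_const _))
    ((h2 l).clm_apply (differentiableAt_const _)), _root_.sub_apply,
    fderiv_app (h2 k), fderiv_app (h2 l), fderiv_app h1, fderiv_app h1]

theorem smooth_GG {W A : V n → Mx (2 * j + 2)} (C : Mx (2 * j + 2))
    (hW : ∀ k l, ContDiff ℝ 1 fun y => W y k l) (hA : ∀ k l, ContDiff ℝ 1 fun y => A y k l) :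
    ContDiff ℝ 1 fun y => GG j (W y) (A y) C := by
  refine ContDiff.sum fun r _ => ContDiff.sum fun σ _ => contDiff_const.mul ((hW _ _).mul
    (contDiff_prod fun a _ => ?_))
  split_ifs
  exacts [hA _ _, contDiff_const]

theorem smooth_wedge (ξ : V m) {c : V n → V m} (hc : ∀ l, ContDiff ℝ 1 fun y => c y l)
    (k l : Fin m) : ContDiff ℝ 1 fun y => wedge ξ (c y) k l :=
  (contDiff_const.mul (hc l)).sub (contDiff_const.mul (hc k))

theorem smooth_T0 {c : V n → V (2 * j + 1)} {A : V n → Mx (2 * j + 1)} (C : Mx (2 * j + 1))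
    (hc : ∀ l, ContDiff ℝ 1 fun y => c y l) (hA : ∀ k l, ContDiff ℝ 1 fun y => A y k l) :
    ContDiff ℝ 1 fun y => T0 j (c y) (A y) C := by
  refine smooth_GG _ (smooth_wedge _ fun l => Fin.cases ?_ (fun l => ?_) l) fun k l =>
    Fin.cases ?_ (fun k => Fin.cases ?_ (fun l => ?_) l) k
  · exact contDiff_const
  · exact hc l
  · exact contDiff_const
  · exact contDiff_const
  · exact hA k l

theorem fderiv_GG {W A : V n → Mx (2 * j + 2)} (C : Mx (2 * j + 2)) (y e : V n)
    (hW : ∀ k l, DifferentiableAt ℝ (fun y => W y k l) y)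
    (hA : ∀ k l, DifferentiableAt ℝ (fun y => A y k l) y) :
    fderiv ℝ (fun y => GG j (W y) (A y) C) y e =
      GG j (of fun k l => fderiv ℝ (fun y => W y k l) y e) (A y) C +
        ∑ r : Fin (j + 1), ∑ a ∈ univ.erase r, if a < r then
          ∑ σ : Perm (Fin (2 * j + 2)), ((Perm.sign σ : ℤ) : ℝ) *
            (W y (σ (sl0 r)) (σ (sl1 r)) *
              ((∏ a' ∈ (univ.erase r).erase a,
                (if a' < r then A y else C) (σ (sl0 a')) (σ (sl1 a'))) *
                fderiv ℝ (fun y => A y (σ (sl0 a)) (σ (sl1 a))) y e)) else 0 := by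
  have h1 : ∀ (r a : Fin (j + 1)) (k l : Fin (2 * j + 2)),
      HasFDerivAt (fun y => (if a < r then A y else C) k l)
        (if a < r then fderiv ℝ (fun y => A y k l) y else 0) y := by
    intro r a k l
    split_ifs
    exacts [(hA k l).hasFDerivAt, hasFDerivAt_const _ _]
  have h2 := HasFDerivAt.fun_sum (u := univ) fun (r : Fin (j + 1)) _ =>
    HasFDerivAt.fun_sum (u := univ) fun (σ : Perm (Fin (2 * j + 2))) _ =>
      ((hW (σ (sl0 r)) (σ (sl1 r))).hasFDerivAt.fun_mul
        (HasFDerivAt.finsetProd (u := univ.erase r) fun a _ =>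
          h1 r a (σ (sl0 a)) (σ (sl1 a)))).const_mul ((Perm.sign σ : ℤ) : ℝ)
  refine (congrArg (fun f : V n →L[ℝ] ℝ => f e) h2.fderiv).trans ?_
  simp only [GG, KK, _root_.sum_apply, _root_.smul_apply,
    _root_.add_apply, smul_eq_mul, of_apply, ← sum_add_distrib]
  refine sum_congr rfl fun r _ => ?_
  simp only [mul_add, sum_add_distrib]
  rw [add_comm]
  congr 1
  · exact sum_congr rfl fun σ _ => by ring
  · simp only [mul_sum]
    rw [sum_comm]
    refine sum_congr rfl fun a _ => ?_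
    split_ifs <;> simp

theorem GG_sum {ι : Type} (s : Finset ι) (W : ι → Mx (2 * j + 2)) (A C : Mx (2 * j + 2)) :
    ∑ i ∈ s, GG j (W i) A C = GG j (∑ i ∈ s, W i) A C := by
  simp only [GG, Matrix.sum_apply, sum_mul, mul_sum]
  rw [sum_comm]
  exact sum_congr rfl fun r _ => sum_comm

/-- the components of the primitive -/
noncomputable def FF (b : V (2 * j + 2) → V (2 * j + 2) →L[ℝ] ℝ) (C : Mx (2 * j + 2))
    (ξ : V (2 * j + 2)) (y : V (2 * j + 2)) : ℝ :=
  GG j (wedge ξ (cf (b y))) (C + curv b y) C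

theorem smooth_FF {b : V (2 * j + 2) → V (2 * j + 2) →L[ℝ] ℝ} (hb : ContDiff ℝ ∞ b)
    (C : Mx (2 * j + 2)) (ξ : V (2 * j + 2)) : ContDiff ℝ 1 (FF b C ξ) :=
  smooth_GG _ (smooth_wedge _ (smooth_cf hb)) fun k l => contDiff_const.add (smooth_curv hb k l)

theorem div_FF {b : V (2 * j + 2) → V (2 * j + 2) →L[ℝ] ℝ} (hb : ContDiff ℝ ∞ b)
    (C : Mx (2 * j + 2)) (y : V (2 * j + 2)) :
    pfP j (C + curv b y) = pfP j C + ∑ i, fderiv ℝ (FF b C (ev i)) y (ev i) := by
  have hd : DifferentiableAt ℝ b y := hb.differentiable (by simp) y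
  have hc : ∀ l, DifferentiableAt ℝ (fun y => cf (b y) l) y := fun l =>
    (smooth_cf hb l).differentiable one_ne_zero y
  have h1 := fun i => fderiv_GG (W := fun y => wedge (ev i) (cf (b y)))
    (A := fun y => C + curv b y) C y (ev i)
    (fun k l => (smooth_wedge _ (smooth_cf hb) k l).differentiable one_ne_zero y)
    fun k l => (contDiff_const.add (smooth_curv hb k l)).differentiable one_ne_zero y
  have h2 : ∑ i : Fin (2 * j + 2), (of fun k l =>
      fderiv ℝ (fun y => wedge (ev i) (cf (b y)) k l) y (ev i) : Mx (2 * j + 2)) = curv b y := by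
    ext k l
    have : ∀ i : Fin (2 * j + 2), fderiv ℝ (fun y => wedge (ev i) (cf (b y)) k l) y (ev i) =
        ev i k * fderiv ℝ b y (ev i) (ev l) - ev i l * fderiv ℝ b y (ev i) (ev k) := by
      intro i
      simp only [wedge, of_apply]
      rw [fderiv_fun_sub ((hc l).const_mul _) ((hc k).const_mul _), fderiv_const_mul (hc l),
        fderiv_const_mul (hc k)]
      simp only [_root_.sub_apply, _root_.smul_apply, smul_eq_mul, cf,
        fderiv_app hd]
    simp [Matrix.sum_apply, this, curv, Pi.single_apply]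
  have hH : ∀ i k l : Fin (2 * j + 2), fderiv ℝ (fderiv ℝ b) y (ev i) (ev k) (ev l) =
      fderiv ℝ (fderiv ℝ b) y (ev k) (ev i) (ev l) := fun i k l => by
    rw [(hb.contDiffAt.isSymmSndFDerivAt (by simpa [one_add_one_eq_two] using two_le)).eq]
  rw [tele]
  congr 1
  refine Eq.symm ((sum_congr rfl fun i _ => h1 i).trans ?_)
  rw [sum_add_distrib, GG_sum, h2, add_eq_left, sum_comm]
  refine sum_eq_zero fun r _ => ?_
  rw [sum_comm]
  refine sum_eq_zero fun a ha => ?_
  split_ifs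
  · rw [sum_comm, ← closed _ hH (cf (b y)) (fun a' => if a' < r then C + curv b y else C)
      (ne_of_mem_erase ha)]
    refine sum_congr rfl fun σ _ => ?_
    rw [mul_sum]
    refine sum_congr rfl fun i _ => ?_
    simp only [Matrix.add_apply]
    rw [fderiv_const_add, fderiv_curv hb]
  · simp

/-- conormal of the face `p` -/
def xi (p : Fin (n + 2)) : V (n + 1) :=
  fun k => (if k.succ = p then 1 else 0) - (if k.castSucc = p then 1 else 0)

theorem fy_cases (p : Fin (n + 2)) : ∃ i : Fin (n + 1), ∀ y : V n, ∃ t,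
    fy p y = Fin.insertNth (α := fun _ => ℝ) i t y := by
  refine Fin.cases ⟨0, fun y => ⟨_, fy_castSucc 0 y⟩⟩ (fun i => ⟨i, fun y => ⟨_, fy_succ i y⟩⟩) p

theorem Lf_inj (p : Fin (n + 2)) (u : V n) (h : Lf p *ᵥ u = 0) : u = 0 := by
  obtain ⟨i, hi⟩ := fy_cases p
  obtain ⟨t, ht⟩ := hi u
  obtain ⟨t', ht'⟩ := hi 0
  have h1 := fy_eq p u
  rw [h, zero_add, ht, ht'] at h1
  funext k
  simpa using congrFun h1 (i.succAbove k)

theorem xi_fy (p : Fin (n + 2)) (u : V n) : xi p ⬝ᵥ fy p u = xi p ⬝ᵥ fy p 0 := by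
  have h : ∀ w : V (n + 1), xi p ⬝ᵥ w =
      (∑ k, if k.succ = p then w k else 0) - ∑ k, if k.castSucc = p then w k else 0 := by
    intro w
    simp [xi, dotProduct, sub_mul]
  rw [h, h]
  refine Fin.cases ?_ (fun i => Fin.lastCases ?_ (fun i => ?_) i) p
  · have h1 := fy_castSucc (0 : Fin (n + 1))
    simp only [Fin.castSucc_zero] at h1
    simp [h1, ext, gemb_apply]
  · simp only [fy_succ, Fin.succ_inj, sum_ite_eq', mem_univ, if_true, Fin.insertNth_apply_same]
    simp [ext, gemb_apply]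
  · have h1 : ∀ y : V n, fy i.castSucc.succ y i.succ = y i := fun y => by
      rw [fy_succ, ← Fin.succAbove_castSucc_self i, Fin.insertNth_apply_succAbove]
    have h2 : ∀ y : V n, fy i.castSucc.succ y i.castSucc = y i := fun y => by
      rw [fy_succ, Fin.insertNth_apply_same, Fin.succ_castSucc, ext, Fin.snoc_castSucc, gemb_apply,
        Fin.cons_succ]
    simp only [Fin.succ_inj, sum_ite_eq', mem_univ, if_true, h2]
    simp only [Fin.succ_castSucc, Fin.castSucc_inj, sum_ite_eq', mem_univ, if_true] at h1 ⊢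
    rw [h1, h1, sub_self, sub_self]

theorem xi_Lf (p : Fin (n + 2)) : xi p ᵥ* Lf p = 0 := by
  funext l
  have h := xi_fy p (ev l)
  rw [fy_eq, dotProduct_add, add_eq_right, dotProduct_mulVec] at h
  simpa using h

theorem xi_ne (p : Fin (n + 2)) : ∃ v, xi p ⬝ᵥ v = 1 := by
  refine Fin.cases ⟨-ev 0, ?_⟩ (fun i => ⟨ev i, ?_⟩) p
  · simp [xi]
  · simp [xi, (Fin.castSucc_lt_succ (i := i)).ne]

end StokesAux

open StokesAux in
theorem stokes (j : ℕ) :
    ∃ (T : (V (2 * j + 1) →L[ℝ] ℝ) → Matrix (Fin (2 * j + 1)) (Fin (2 * j + 1)) ℝ → ℝ)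
      (ε : Fin (2 * j + 3) → ℝ) (CT : ℝ), 0 ≤ CT ∧
      (∀ b M (A : ℝ), 1 ≤ A → (∀ i, |b (ev i)| ≤ A) → (∀ i i', |M i i'| ≤ A) →
        |T b M| ≤ CT * A ^ (j + 1)) ∧
      (∀ (b : V (2 * j + 2) → V (2 * j + 2) →L[ℝ] ℝ)
        (b' : Fin (2 * j + 3) → V (2 * j + 1) → V (2 * j + 1) →L[ℝ] ℝ), ContDiff ℝ ∞ b →
        (∀ p y u, b' p y u = b (fy p y) (fy p u - fy p 0)) →
        ∫ y in simplex (2 * j + 2), pfP j (omega (2 * j + 2) + curv b y) =
          (volume (simplex (2 * j + 2))).toReal * pfP j (omega (2 * j + 2)) +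
            ∑ p, ε p * ∫ y in simplex (2 * j + 1), T (b' p y) (curv (b' p) y)) ∧
      ∀ b b' : V (2 * j + 1) → V (2 * j + 1) →L[ℝ] ℝ, ContDiff ℝ ∞ b →
        (∀ y u, b' y u = b (cy y) (cy u - cy 0)) →
        ∫ y in simplex (2 * j + 1), T (b' y) (curv b' y) =
          -∫ y in simplex (2 * j + 1), T (b y) (curv b y) := by
  choose v hv using fun p : Fin (2 * j + 1 + 2) => xi_ne p
  refine ⟨fun b M => T0 j (cf b) (omega _ + M) (omega _), fun p => ((bord (v p) (Lf p)).det)⁻¹,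
    (j + 1) * (2 * j + 2).factorial * 3 ^ (j + 1), by positivity, ?_, ?_, ?_⟩
  · intro b M A hA hb hM
    have ho : ∀ k l, |omega (2 * j + 1) k l| ≤ 1 := fun k l => by
      simp only [omega, of_apply]
      split_ifs <;> norm_num
    rw [mul_assoc, ← mul_pow]
    refine T0_bound (by linarith) (fun k => ?_) (fun k l => ?_) fun k l => ?_
    · have := hb k
      simp only [cf]
      linarith
    · have := abs_add_le (omega (2 * j + 1) k l) (M k l)
      have := ho k l
      have := hM k l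
      rw [Matrix.add_apply]
      linarith
    · linarith [ho k l]
  · intro b b' hb hb'
    have hI : ∀ {d : ℕ} {f : V d → ℝ}, Continuous f → IntegrableOn f (simplex d) :=
      fun hf => hf.continuousOn.integrableOn_compact (isCompact_simplex _)
    have hF := smooth_FF hb (omega (2 * j + 2))
    have hD : ∀ i, Continuous fun y => fderiv ℝ (FF b (omega (2 * j + 2)) (ev i)) y (ev i) :=
      fun i => ((hF _).continuous_fderiv one_ne_zero).clm_apply continuous_const
    have hfy : ∀ p : Fin (2 * j + 1 + 2), Continuous (fy p) := fun p => by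
      rw [show fy p = fun u => Lf p *ᵥ u + fy p 0 from funext (fy_eq p)]
      exact (continuous_const.matrix_mulVec continuous_id).add continuous_const
    have hp : ∀ (p : Fin (2 * j + 1 + 2)) (y : V (2 * j + 1)),
        T0 j (cf (b' p y)) (omega _ + curv (b' p) y) (omega _) =
          (bord (v p) (Lf p)).det * ∑ i, xi p i * FF b (omega _) (ev i) (fy p y) := by
      intro p y
      have h1 : ∀ y u, b' p y u = b (Lf p *ᵥ y + fy p 0) (Lf p *ᵥ u) := fun y u => by
        rw [hb', fy_eq p u, add_sub_cancel_right, ← fy_eq]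
      simp only [FF]
      rw [← GG_wedge, trans (Lf p) (xi_Lf p) (hv p), Matrix.mul_add, Matrix.add_mul, Lf_omega,
        curv_pull _ _ (hb.differentiable (by simp)) h1, cf_pull (Lf p) _ _ (h1 y), ← fy_eq]
    simp only [div_FF hb, hp]
    rw [integral_add (hI continuous_const) (hI (continuous_finsetSum _ fun i _ => hD i)),
      integral_finsetSum _ fun i _ => hI (hD i), setIntegral_const, smul_eq_mul]
    congr 1
    have h2 : ∀ p : Fin (2 * j + 1 + 2), ((bord (v p) (Lf p)).det)⁻¹ *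
        ∫ y in simplex (2 * j + 1),
          (bord (v p) (Lf p)).det * ∑ i, xi p i * FF b (omega _) (ev i) (fy p y) =
        ∑ i, xi p i * ∫ y in simplex (2 * j + 1), FF b (omega _) (ev i) (fy p y) := by
      intro p
      rw [integral_const_mul, inv_mul_cancel_left₀ (bord_det_ne _ (xi_Lf p) (hv p) (Lf_inj p)),
        integral_finsetSum (f := fun i y => xi p i * FF b (omega _) (ev i) (fy p y)) _ fun i _ =>
          hI (continuous_const.mul ((hF _).continuous.comp (hfy p)))]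
      simp only [integral_const_mul]
    refine Eq.symm ((Finset.sum_congr rfl fun p _ => h2 p).trans ?_)
    rw [Finset.sum_comm]
    refine Finset.sum_congr rfl fun i _ => ?_
    rw [integral_simplex_fderiv _ (hF _) i]
    simp [xi, sub_mul]
  · intro b b' hb hb'
    have h1 : ∀ y u, b' y u = b (Lc _ *ᵥ y + cy 0) (Lc _ *ᵥ u) := fun y u => by
      rw [hb', cy_eq u, add_sub_cancel_right, ← cy_eq]
    have hp : ∀ y, T0 j (cf (b' y)) (omega _ + curv b' y) (omega _) =
        -T0 j (cf (b (cy y))) (omega _ + curv b (cy y)) (omega _) := by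
      intro y
      rw [neg_eq_neg_one_mul, ← Odd.neg_one_pow (α := ℝ) (odd_two_mul_add_one j), ← det_Lc,
        ← T0_congr, Matrix.mul_add, Matrix.add_mul, Lc_omega,
        curv_pull _ _ (hb.differentiable (by simp)) h1, cf_pull (Lc _) _ _ (h1 y), ← cy_eq]
    simp only [hp]
    rw [integral_neg, integral_simplex_cy fun y => T0 j (cf (b y)) (omega _ + curv b y) (omega _)]
    exact (smooth_T0 _ (smooth_cf hb) fun k l =>
      contDiff_const.add (smooth_curv hb k l)).continuous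

end Crest.Agent.R192
end

-- ▼ part PVc/R192/Pairing

/-! Row 192: pairing cochains with the idempotent. -/

set_option autoImplicit false

namespace Crest.Agent.R192

open Crest.AlgebraR.L1 MeasureTheory Matrix
open scoped ContDiff BoundedContinuousFunction

namespace PairAux

/-- entrywise `ℓ¹` norm -/
noncomputable def mn {q : ℕ} (X : Matrix (Fin q) (Fin q) ℂ) : ℝ := ∑ i, ∑ j, ‖X i j‖

theorem mn_nonneg {q : ℕ} (X : Matrix (Fin q) (Fin q) ℂ) : 0 ≤ mn X :=
  Finset.sum_nonneg fun _ _ => Finset.sum_nonneg fun _ _ => norm_nonneg _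

theorem norm_trace_le {q : ℕ} (X : Matrix (Fin q) (Fin q) ℂ) : ‖X.trace‖ ≤ mn X :=
  (norm_sum_le _ _).trans (Finset.sum_le_sum fun i _ =>
    Finset.single_le_sum (f := fun j => ‖X i j‖) (fun _ _ => norm_nonneg _) (Finset.mem_univ i))

theorem mn_mul_le {q : ℕ} (X Y : Matrix (Fin q) (Fin q) ℂ) : mn (X * Y) ≤ mn X * mn Y := by
  rw [mn, mn, Finset.sum_mul]
  refine Finset.sum_le_sum fun i _ => ?_
  calc ∑ j, ‖(X * Y) i j‖ ≤ ∑ j, ∑ k, ‖X i k‖ * ‖Y k j‖ := Finset.sum_le_sum fun j _ => by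
        rw [Matrix.mul_apply]
        exact (norm_sum_le _ _).trans_eq (Finset.sum_congr rfl fun k _ => norm_mul _ _)
    _ = ∑ k, ‖X i k‖ * ∑ j, ‖Y k j‖ := by
        rw [Finset.sum_comm]
        simp only [Finset.mul_sum]
    _ ≤ ∑ k, ‖X i k‖ * mn Y := Finset.sum_le_sum fun k _ => mul_le_mul_of_nonneg_left
        (Finset.single_le_sum (f := fun k => ∑ j, ‖Y k j‖)
          (fun _ _ => Finset.sum_nonneg fun _ _ => norm_nonneg _) (Finset.mem_univ k))
        (norm_nonneg _)
    _ = _ := (Finset.sum_mul ..).symm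

theorem mn_prod_le {q m : ℕ} (X : Fin (m + 1) → Matrix (Fin q) (Fin q) ℂ) :
    mn (List.ofFn X).prod ≤ ∏ i, mn (X i) := by
  induction m with
  | zero => simp
  | succ m ih =>
    rw [List.ofFn_succ, List.prod_cons, Fin.prod_univ_succ]
    exact (mn_mul_le _ _).trans (mul_le_mul_of_nonneg_left (ih _) (mn_nonneg _))

theorem sum_prod_le {G : Type} {w : G → ℝ} (h0 : ∀ a, 0 ≤ w a) (hw : Summable w) (m : ℕ)
    (S : Finset (Fin m → G)) : ∑ s ∈ S, ∏ i, w (s i) ≤ (∑' a, w a) ^ m := by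
  classical
  have h1 : S ⊆ Fintype.piFinset fun _ => S.biUnion fun s => Finset.univ.image s :=
    fun s hs => Fintype.mem_piFinset.2 fun i =>
      Finset.mem_biUnion.2 ⟨s, hs, Finset.mem_image_of_mem _ (Finset.mem_univ i)⟩
  refine (Finset.sum_le_sum_of_subset_of_nonneg h1
    fun s _ _ => Finset.prod_nonneg fun i _ => h0 _).trans ?_
  rw [← Finset.sum_pow']
  exact pow_le_pow_left₀ (Finset.sum_nonneg fun a _ => h0 a)
    (hw.sum_le_tsum _ fun a _ => h0 a) m

variable {G : Type} {q m : ℕ}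

/-- the coefficient matrix -/
def E (e : Fin q → Fin q → G → ℂ) (a : G) : Matrix (Fin q) (Fin q) ℂ := Matrix.of fun i j => e i j a

/-- trace of a word -/
noncomputable def trw (e : Fin q → Fin q → G → ℂ) (s : Fin m → G) : ℂ :=
  (List.ofFn fun i => E e (s i)).prod.trace

/-- rotation of words -/
def rot : (Fin (m + 1) → G) ≃ (Fin (m + 1) → G) where
  toFun s := Fin.snoc (α := fun _ => G) (Fin.tail s) (s 0)
  invFun s := Fin.cons (s (Fin.last m)) (Fin.init s)
  left_inv s := by simp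
  right_inv s := by simp

theorem rot_last (s : Fin (m + 1) → G) : rot s (Fin.last m) = s 0 := by
  simp [rot]

theorem rot_castSucc (s : Fin (m + 1) → G) (i : Fin m) : rot s i.castSucc = s i.succ := by
  simp [rot, Fin.tail]

theorem trw_rot (e : Fin q → Fin q → G → ℂ) (s : Fin (m + 1) → G) : trw e (rot s) = trw e s := by
  rw [trw, trw, List.ofFn_succ_last, List.ofFn_succ (f := fun i => E e (s i)), List.prod_append,
    List.prod_cons, List.prod_cons, List.prod_nil, mul_one, Matrix.trace_mul_comm]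
  simp only [rot_last, rot_castSucc]

theorem hasSum_rot {e : Fin q → Fin q → G → ℂ} {g : (Fin (m + 1) → G) → ℂ} {a : ℂ}
    (h : HasSum (fun s => trw e s * g s) a) : HasSum (fun s => trw e s * g (rot s)) a := by
  simpa only [Function.comp_def, trw_rot] using rot.hasSum_iff.2 h

variable [Group G]

/-- the points visited by a word -/
def px (s : Fin (m + 1) → G) : Fin (m + 1) → G := fun i => Fin.partialProd s i.succ

/-- the product of a word -/
def pc (s : Fin (m + 1) → G) : G := px s (Fin.last m)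

theorem tlen_eq (ℓ : Len G) (s : Fin (m + 1) → G) :
    tlen ℓ (pc s) (px s) = ∑ i, ℓ.len (s i) := by
  have h : (Fin.cons ((pc s)⁻¹ * px s (Fin.last m)) (px s) : Fin (m + 2) → G) =
      Fin.partialProd s := by
    funext i
    refine Fin.cases ?_ (fun j => rfl) i
    rw [Fin.cons_zero, pc, inv_mul_cancel, Fin.partialProd_zero]
  refine Finset.sum_congr rfl fun i _ => ?_
  rw [slen, prev, h, px, Fin.partialProd_right_inv]

theorem px_zero (s : Fin (m + 1) → G) : px s 0 = s 0 := by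
  rw [px, Fin.partialProd_succ', Fin.partialProd_zero, mul_one]

theorem px_rot (s : Fin (m + 1) → G) (i : Fin (m + 1)) :
    px (rot s) i = (s 0)⁻¹ * rotx (pc s) (px s) i := by
  have h := Fin.partialProd_left_inv (Fin.snoc (px s) (pc s * px s 0) : Fin (m + 2) → G)
  have h1 : (fun i : Fin (m + 1) => ((Fin.snoc (px s) (pc s * px s 0) : Fin (m + 2) → G)
      i.castSucc)⁻¹ * (Fin.snoc (px s) (pc s * px s 0) : Fin (m + 2) → G) i.succ) = rot s := by
    funext i
    refine Fin.lastCases ?_ (fun j => ?_) i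
    · rw [Fin.snoc_castSucc, Fin.succ_last, Fin.snoc_last, rot_last, pc, inv_mul_cancel_left,
        px_zero]
    · rw [Fin.snoc_castSucc, Fin.succ_castSucc, Fin.snoc_castSucc, rot_castSucc, px, px,
        Fin.succ_castSucc, Fin.partialProd_right_inv]
  rw [h1, Fin.snoc_apply_zero] at h
  rw [rotx, ← congrFun h i.succ, Pi.smul_apply, smul_eq_mul, px_zero, inv_mul_cancel_left, px]

theorem pc_rot (s : Fin (m + 1) → G) : pc (rot s) = (s 0)⁻¹ * pc s * (s 0)⁻¹⁻¹ := by
  rw [pc, px_rot, rotx, Fin.succ_last, Fin.snoc_last, px_zero, inv_inv, mul_assoc]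

theorem rotx_succAbove (c : G) (x : Fin (m + 2) → G) (p : Fin (m + 1)) :
    (fun i => rotx c x (p.castSucc.succAbove i)) = rotx c fun i => x (p.succ.succAbove i) := by
  funext i
  refine Fin.lastCases ?_ (fun j => ?_) i
  · rw [Fin.succAbove_ne_last_last (Fin.castSucc_ne_last p), rotx, rotx, Fin.succ_last,
      Fin.succ_last, Fin.snoc_last, Fin.snoc_last, Fin.succ_succAbove_zero]
  · rw [Fin.castSucc_succAbove_castSucc, rotx, rotx, Fin.succ_castSucc, Fin.succ_castSucc,
      Fin.snoc_castSucc, Fin.snoc_castSucc, Fin.succ_succAbove_succ]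

/-- merging the first two letters -/
def mrg (s : Fin (m + 2) → G) : Fin (m + 1) → G := Fin.cons (s 0 * s 1) (Fin.tail (Fin.tail s))

/-- splitting the first letter -/
def spl : (Fin (m + 1) → G) × G ≃ (Fin (m + 2) → G) where
  toFun p := Fin.cons p.2 (Fin.cons (p.2⁻¹ * p.1 0) (Fin.tail p.1))
  invFun s := (mrg s, s 0)
  left_inv p := by simp [mrg]
  right_inv s := by
    simp only [mrg, Fin.cons_zero, inv_mul_cancel_left, Fin.tail_cons]
    exact (congrArg _ (Fin.cons_self_tail (Fin.tail s))).trans (Fin.cons_self_tail s)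

theorem mrg_spl (p : (Fin (m + 1) → G) × G) : mrg (spl p) = p.1 :=
  congrArg Prod.fst (spl.left_inv p)

theorem px_mrg (s : Fin (m + 2) → G) (i : Fin (m + 1)) : px (mrg s) i = px s i.succ := by
  rw [px, px, Fin.partialProd_succ', Fin.partialProd_succ', Fin.partialProd_succ', mrg,
    Fin.cons_zero, Fin.tail_cons, mul_assoc]
  rfl

theorem pc_mrg (s : Fin (m + 2) → G) : pc (mrg s) = pc s := px_mrg s _

theorem len_mrg (ℓ : Len G) (s : Fin (m + 2) → G) : ∑ i, ℓ.len (mrg s i) ≤ ∑ i, ℓ.len (s i) := by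
  rw [Fin.sum_univ_succ, Fin.sum_univ_succ (n := m + 1), Fin.sum_univ_succ (n := m), ← add_assoc]
  exact add_le_add (ℓ.len_mul _ _) le_rfl

theorem hasSum_conv {e : Fin q → Fin q → G → ℂ} (he : IsL1IdempotentMatrix e) (b : G)
    (R : Matrix (Fin q) (Fin q) ℂ) :
    HasSum (fun a => (E e a * (E e (a⁻¹ * b) * R)).trace) (E e b * R).trace := by
  have h1 : ∀ i j, HasSum (fun a => (E e a * E e (a⁻¹ * b)) i j) (E e b i j) := by
    intro i j
    rw [show E e b i j = _ from (he.2 i j b).symm]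
    refine hasSum_sum fun k _ => Summable.hasSum ?_
    refine Summable.of_norm_bounded ((he.1 i k).mul_right (∑' x, ‖e k j x‖)) fun a => ?_
    rw [norm_mul]
    exact mul_le_mul_of_nonneg_left ((he.1 k j).le_tsum _ fun _ _ => norm_nonneg _)
      (norm_nonneg _)
  simp only [← mul_assoc, Matrix.trace, Matrix.diag_apply, Matrix.mul_apply (N := R)]
  exact hasSum_sum fun i _ => hasSum_sum fun j _ => (h1 i j).mul_right _

variable {ℓ : Len G} {γ : ℝ} {e : Fin q → Fin q → G → ℂ}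

theorem hasSum_w (hs : WSum ℓ γ e) :
    HasSum (fun a => mn (E e a) * Real.exp (γ * ℓ.len a)) (wnorm ℓ γ e) := by
  simp only [mn, Finset.sum_mul]
  exact hasSum_sum fun i _ => hasSum_sum fun j _ => (hs i j).hasSum

theorem bound (hs : WSum ℓ γ e) {g : (Fin (m + 1) → G) → ℂ} {K : ℝ} (hK : 0 ≤ K)
    (hg : ∀ s, ‖g s‖ ≤ K * Real.exp (γ * (∑ i, ℓ.len (s i) : ℕ))) :
    Summable (fun s => trw e s * g s) ∧ ‖∑' s, trw e s * g s‖ ≤ K * wnorm ℓ γ e ^ (m + 1) := by
  have h0 : ∀ a, 0 ≤ mn (E e a) * Real.exp (γ * ℓ.len a) :=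
    fun a => mul_nonneg (mn_nonneg _) (Real.exp_pos _).le
  have h1 : ∀ S : Finset (Fin (m + 1) → G), ∑ s ∈ S, ‖trw e s * g s‖ ≤
      K * wnorm ℓ γ e ^ (m + 1) := by
    intro S
    rw [← (hasSum_w hs).tsum_eq]
    refine le_trans ?_ (mul_le_mul_of_nonneg_left (sum_prod_le h0 (hasSum_w hs).summable _ S) hK)
    rw [Finset.mul_sum]
    refine Finset.sum_le_sum fun s _ => ?_
    rw [norm_mul, Finset.prod_mul_distrib, ← Real.exp_sum, ← Finset.mul_sum, ← Nat.cast_sum,
      mul_left_comm]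
    exact mul_le_mul ((norm_trace_le _).trans (mn_prod_le _)) (hg s) (norm_nonneg _)
      (Finset.prod_nonneg fun _ _ => mn_nonneg _)
  have h2 := summable_of_sum_le (fun s => norm_nonneg _) h1
  exact ⟨h2.of_norm, (norm_tsum_le_tsum_norm h2).trans (h2.tsum_le_of_sum_le h1)⟩

theorem hasSum_mrg (hγ : 0 ≤ γ) (he : IsL1IdempotentMatrix e) (hs : WSum ℓ γ e)
    {g : (Fin (m + 1) → G) → ℂ} {K : ℝ} (hK : 0 ≤ K)
    (hg : ∀ s, ‖g s‖ ≤ K * Real.exp (γ * (∑ i, ℓ.len (s i) : ℕ))) {a : ℂ}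
    (h : HasSum (fun s => trw e s * g s) a) :
    HasSum (fun s : Fin (m + 2) → G => trw e s * g (mrg s)) a := by
  have h1 := (bound hs (g := fun s : Fin (m + 2) → G => g (mrg s)) hK fun s =>
    (hg _).trans (by gcongr; exact len_mrg ℓ s)).1.hasSum
  have h2 := (spl.hasSum_iff.2 h1).prod_fiberwise (g := fun s => trw e s * g s) fun s => by
    simp only [Function.comp_apply, mrg_spl]
    refine HasSum.mul_right _ ?_
    have := hasSum_conv he (s 0) (List.ofFn fun i : Fin m => E e (s i.succ)).prod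
    simp only [trw, List.ofFn_succ, List.prod_cons]
    exact this
  rwa [h2.unique h] at h1

open Classical in
theorem hasSum_ind (hγ : 0 ≤ γ) (he : IsL1IdempotentMatrix e) (hs : WSum ℓ γ e) (C : Set G)
    (m : ℕ) : HasSum (fun s : Fin (m + 1) → G => trw e s * if pc s ∈ C then 1 else 0)
      (classTrace e C) := by
  have hb : ∀ (m : ℕ) (s : Fin (m + 1) → G), ‖if pc s ∈ C then (1 : ℂ) else 0‖ ≤
      1 * Real.exp (γ * (∑ i, ℓ.len (s i) : ℕ)) := by
    intro m s
    rw [one_mul]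
    refine le_trans ?_ (Real.one_le_exp (by positivity))
    split_ifs <;> simp
  induction m with
  | zero =>
    have h1 := (bound hs zero_le_one (hb 0)).1.hasSum
    convert h1 using 1
    rw [classTrace, tsum_subtype C fun g => ∑ i, e i i g,
      ← (Equiv.funUnique (Fin 1) G).tsum_eq]
    refine tsum_congr fun s => ?_
    have h2 : pc s = s 0 := px_zero s
    simp [h2, Set.indicator_apply, trw, E, Matrix.trace]
  | succ m ih => simpa only [pc_mrg] using hasSum_mrg hγ he hs zero_le_one (hb m) ih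

end PairAux

open PairAux in
theorem pairing {G : Type} [Group G] (ℓ : Len G) {q : ℕ} (e : Fin q → Fin q → G → ℂ) (γ : ℝ)
    (hγ : 0 ≤ γ) (he : IsL1IdempotentMatrix e) (hs : WSum ℓ γ e) (C : Set G) (hC : ConjInv C)
    (n : ℕ) (φ : G → (Fin (n + 2) → G) → ℝ) (ψ : G → (Fin (n + 1) → G) → ℝ) (κ : ℝ)
    (ε : Fin (n + 2) → ℝ) (K b : ℝ) (hb : 0 ≤ b)
    (hinv : ∀ c ∈ C, ∀ x (h : G), ψ (h * c * h⁻¹) (fun i => h * x i) = ψ c x)
    (hrot : ∀ c ∈ C, ∀ x, ψ c (rotx c x) = -ψ c x)
    (hrel : ∀ c ∈ C, ∀ x, φ c x = κ + ∑ p, ε p * ψ c fun i => x (p.succAbove i))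
    (hψ : ∀ c ∈ C, ∀ x, |ψ c x| ≤ K * Real.exp (γ * tlen ℓ c x))
    (hφ : ∀ c ∈ C, ∀ x, |φ c x| ≤ b * Real.exp (γ * tlen ℓ c x)) :
    |κ| * ‖classTrace e C‖ ≤ b * wnorm ℓ γ e ^ (n + 2) := by
  classical
  have hC' : ∀ {m : ℕ} (s : Fin (m + 1) → G), pc (rot s) ∈ C ↔ pc s ∈ C := fun s => by
    rw [pc_rot]
    exact ⟨fun h => by simpa [mul_assoc] using hC _ h (s 0), fun h => hC _ h _⟩
  have hb0 : ∀ s : Fin (n + 1) → G, ‖if pc s ∈ C then (ψ (pc s) (px s) : ℂ) else 0‖ ≤
      |K| * Real.exp (γ * (∑ i, ℓ.len (s i) : ℕ)) := by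
    intro s
    split_ifs with h
    · rw [Complex.norm_real, ← tlen_eq]
      exact (hψ _ h _).trans (mul_le_mul_of_nonneg_right (le_abs_self K) (Real.exp_pos _).le)
    · rw [norm_zero]
      positivity
  have h0 : HasSum (fun s : Fin (n + 1) → G =>
      trw e s * if pc s ∈ C then (ψ (pc s) (px s) : ℂ) else 0) 0 := by
    have h1 := (bound hs (abs_nonneg K) hb0).1.hasSum
    have h2 := (hasSum_rot h1).neg
    have h3 : ∀ s : Fin (n + 1) → G, -(trw e s * if pc (rot s) ∈ C then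
        (ψ (pc (rot s)) (px (rot s)) : ℂ) else 0) =
        trw e s * if pc s ∈ C then (ψ (pc s) (px s) : ℂ) else 0 := by
      intro s
      by_cases h : pc s ∈ C
      · rw [if_pos h, if_pos ((hC' s).2 h), pc_rot, funext (px_rot s), hinv _ h, hrot _ h,
          Complex.ofReal_neg, mul_neg, neg_neg]
      · rw [if_neg h, if_neg (mt (hC' s).1 h), mul_zero, neg_zero]
    simp only [h3] at h2
    rwa [self_eq_neg.1 (h1.unique h2)] at h1
  have h1 : ∀ p : Fin (n + 2), HasSum (fun s : Fin (n + 2) → G => trw e s *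
      if pc s ∈ C then (ψ (pc s) (fun i => px s (p.succAbove i)) : ℂ) else 0) 0 := by
    intro p
    induction p using Fin.induction with
    | zero =>
      simpa only [pc_mrg, funext (px_mrg _), Fin.succAbove_zero] using
        hasSum_mrg hγ he hs (abs_nonneg K) hb0 h0
    | succ p ih =>
      have h2 := (hasSum_rot ih).neg
      rw [neg_zero] at h2
      refine h2.congr_fun fun s => ?_
      by_cases h : pc s ∈ C
      · simp only [px_rot]
        rw [if_pos h, if_pos ((hC' s).2 h), pc_rot, hinv _ h, rotx_succAbove, hrot _ h,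
          Complex.ofReal_neg, mul_neg, neg_neg]
      · rw [if_neg h, if_neg (mt (hC' s).1 h), mul_zero, neg_zero]
  have h2 := ((hasSum_ind hγ he hs C (n + 1)).mul_left (κ : ℂ)).add
    (hasSum_sum (s := Finset.univ) fun p _ => (h1 p).mul_left (ε p : ℂ))
  have h3 := (bound hs (g := fun s : Fin (n + 2) → G =>
    if pc s ∈ C then (φ (pc s) (px s) : ℂ) else 0) hb fun s => by
      split_ifs with h
      · rw [Complex.norm_real, ← tlen_eq]
        exact hφ _ h _
      · rw [norm_zero]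
        positivity).2
  rw [tsum_congr (g := _) fun s => ?_, h2.tsum_eq] at h3
  · simpa using h3
  · by_cases h : pc s ∈ C
    · simp only [if_pos h, hrel _ h, mul_one, mul_left_comm _ (trw e s), ← Finset.mul_sum]
      push_cast
      ring
    · simp [h]

end Crest.Agent.R192
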