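import Crest.Agent.PVc.R192.Pairing_Mg
import Crest.Agent.PVc.R192.Lab3_Mg
import Mathlib
import Crest.Agent.PVc.R192.Defs
import Crest.Agent.PVc.R192.Gibbs_Mg

-- ▼ part PVc/R192/Gen2
section

/-! Row 192: the generic Chern--Weil inequality. -/

set_option autoImplicit false

namespace Crest.Agent.R192

open Crest.AlgebraR.L1 MeasureTheory Matrix
open scoped ContDiff BoundedContinuousFunction

namespace Gen2Aux

theorem meas_int {Λ S : Type} [Fintype S] [MeasurableSpace S] [DiscreteMeasurableSpace S]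
    (P : Measure (Λ → S)) [IsProbabilityMeasure P] {f : (Λ → S) → ℝ}
    (hf : ∃ F : Finset Λ, ∀ w w', (∀ l ∈ F, w l = w' l) → f w = f w') :
    Measurable f ∧ Integrable f P := by
  obtain ⟨F, hF⟩ := hf
  set r : (Λ → S) → (F → S) := fun w l => w l with hr
  have hrm : Measurable r := measurable_pi_lambda _ fun l => measurable_pi_apply _
  have hfac : f.FactorsThrough r := fun w w' h => hF w w' fun l hl => congrFun h ⟨l, hl⟩
  have e := hfac.extend_comp (fun _ => 0)
  rw [← e]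
  exact ⟨(measurable_of_finite _).comp hrm,
    (Integrable.of_finite (μ := P.map r)).comp_measurable hrm⟩

theorem poly_le_exp {γ : ℝ} (hγ : 0 < γ) (k : ℕ) :
    ∃ C : ℝ, 0 ≤ C ∧ ∀ t : ℝ, 0 ≤ t → (1 + t) ^ k ≤ C * Real.exp (γ * t) := by
  refine ⟨k.factorial / γ ^ k * Real.exp γ, by positivity, fun t ht => ?_⟩
  have h := Real.pow_div_factorial_le_exp (γ * (1 + t)) (by positivity) k
  have hk : (0 : ℝ) < k.factorial := by exact_mod_cast k.factorial_pos
  rw [div_le_iff₀ hk, mul_pow, mul_add, mul_one, Real.exp_add] at h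
  rw [div_mul_eq_mul_div, div_mul_eq_mul_div, le_div_iff₀ (by positivity)]
  linarith

theorem abs_int_le {Ω : Type} [MeasurableSpace Ω] (P : Measure Ω) [IsProbabilityMeasure P]
    {d : ℕ} {f : Ω → V d → ℝ} {B : ℝ} (h : ∀ᵐ w ∂P, ∀ y ∈ simplex d, |f w y| ≤ B) :
    |∫ w, (∫ y in simplex d, f w y) ∂P| ≤ B * (volume (simplex d)).toReal := by
  have := norm_integral_le_of_norm_le_const (μ := P) (f := fun w => ∫ y in simplex d, f w y)
    (C := B * (volume (simplex d)).toReal) (by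
      filter_upwards [h] with w hw
      exact norm_setIntegral_le_of_norm_le_const (isCompact_simplex d).measure_lt_top hw)
  simpa using this

theorem fin_dep {G : Type} [Group G] {C : Set G} {Λ S : Type} [MulAction G Λ] {n : ℕ}
    {W : G → (Fin (n + 1) → G) → (Λ → S) → TwoPt n} (h : Fam C n W)
    (T : (V n →L[ℝ] ℝ) → Matrix (Fin n) (Fin n) ℝ → ℝ) {c : G} (hc : c ∈ C)
    (x : Fin (n + 1) → G) : ∃ F : Finset Λ, ∀ w w', (∀ l ∈ F, w l = w' l) →
      ∫ y in simplex n, T (bg (W c x w) y) (curv (bg (W c x w)) y) =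
        ∫ y in simplex n, T (bg (W c x w') y) (curv (bg (W c x w')) y) := by
  obtain ⟨F, hF⟩ := h.fin c hc x
  refine ⟨F, fun w w' hw => setIntegral_congr_fun (measurableSet_simplex n) fun y hy => ?_⟩
  obtain ⟨e1, e2⟩ := bg_congr (hF w w' hw) hy
  simp only [e1, e2]

end Gen2Aux

open Gen2Aux

theorem generic {G : Type} [Group G] (ℓ : Len G) {q : ℕ} (e : Fin q → Fin q → G → ℂ) (γ : ℝ)
    (hγ : 0 < γ) (hγ1 : γ ≤ 1) (he : IsL1IdempotentMatrix e) (hs : WSum ℓ γ e) (C : Set G)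
    (hC : ConjInv C) {Λ S : Type} [MulAction G Λ] [Fintype S] [MeasurableSpace S]
    [DiscreteMeasurableSpace S] (P : Measure (Λ → S)) [IsProbabilityMeasure P]
    (hP : ∀ h : G, MeasurePreserving (act h) P P) (j : ℕ)
    (W₁ : G → (Fin (2 * j + 1 + 1) → G) → (Λ → S) → TwoPt (2 * j + 1))
    (W₂ : G → (Fin (2 * j + 2 + 1) → G) → (Λ → S) → TwoPt (2 * j + 2))
    (h₁ : Fam C _ W₁) (h₂ : Fam C _ W₂)
    (hface : ∀ c ∈ C, ∀ x w p θ θ', W₂ c x w (faceθ p θ) (faceθ p θ') =
      W₁ c (fun i => x (p.succAbove i)) w θ θ')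
    (K ε F : ℝ) (hK : 0 ≤ K) (hε : 0 < ε)
    (hb₁ : ∀ᵐ w ∂P, ∀ c ∈ C, ∀ x, ∀ θ ∈ cell _,
      Ent (W₁ c x w) θ (fun i => slen ℓ c x i) (tlen ℓ c x / (2 * j + 2)) K)
    (hb₂ : ∀ᵐ w ∂P, ∀ c ∈ C, ∀ x, ∀ θ ∈ cell _,
      Ent (W₂ c x w) θ (fun i => slen ℓ c x i) (tlen ℓ c x / (2 * j + 2)) K ∧
      Cost (Mb (W₂ c x w) θ)
        (fun i => ε * (1 + tlen ℓ c x / (2 * j + 2)) * (1 + slen ℓ c x i.succ) ^ 2) F) :
    ‖classTrace e C‖ ≤ √F * (1 + 4 * K ^ 2 * (2 * j + 3) ^ 3 / ε) *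
      (2 * ε * (4 / γ) ^ 8) ^ (j + 1) * wnorm ℓ γ e ^ (2 * j + 3) := by
  obtain ⟨T, ε', CT, hCT, hT, hst, hcy⟩ := stokes j
  set B := √F * (1 + 4 * K ^ 2 * (2 * j + 3) ^ 3 / ε) * (2 * ε * (4 / γ) ^ 8) ^ (j + 1) with hB
  have hB0 : 0 ≤ B := by positivity
  set v1 := (volume (simplex (2 * j + 1))).toReal with hv1
  set v2 := (volume (simplex (2 * j + 2))).toReal with hv2
  have hv2pos : 0 < v2 := volume_simplex_pos _
  set p0 := pfP j (omega (2 * j + 2)) with hp0
  have hp0pos : 0 < |p0| := abs_pos.2 (pfP_omega_ne_zero j)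
  set ψ0 : G → (Fin (2 * j + 1 + 1) → G) → (Λ → S) → ℝ := fun c x w =>
    ∫ y in simplex (2 * j + 1), T (bg (W₁ c x w) y) (curv (bg (W₁ c x w)) y) with hψ0
  set φ0 : G → (Fin (2 * j + 2 + 1) → G) → (Λ → S) → ℝ := fun c x w =>
    ∫ y in simplex (2 * j + 2), pfP j (omega (2 * j + 2) + curv (bg (W₂ c x w)) y) with hφ0
  have hm : ∀ c ∈ C, ∀ x, Measurable (ψ0 c x) ∧ Integrable (ψ0 c x) P := fun c hc x =>
    meas_int P (fin_dep h₁ T hc x)
  obtain ⟨C1, hC1, hpoly⟩ := poly_le_exp hγ (6 * (j + 1))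
  set a0 : ℝ := 8 * (((2 * j + 1 : ℕ) : ℝ) + 1) * (1 + K) ^ 2 with ha0
  have ha1 : 1 ≤ a0 := by
    have h1 : (1 : ℝ) ≤ (1 + K) ^ 2 := one_le_pow₀ (by linarith)
    have h2 : (0 : ℝ) ≤ ((2 * j + 1 : ℕ) : ℝ) := Nat.cast_nonneg _
    nlinarith
  have key := pairing ℓ e γ hγ.le he hs C hC (2 * j + 1) (fun c x => ∫ w, φ0 c x w ∂P)
    (fun c x => ∫ w, ψ0 c x w ∂P) (v2 * p0) ε' (CT * a0 ^ (j + 1) * C1 * v1) (|p0| * B * v2)
    (by positivity) ?_ ?_ ?_ ?_ ?_
  · rw [abs_mul, abs_of_pos hv2pos] at key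
    refine le_of_mul_le_mul_left (key.trans_eq ?_) (mul_pos hv2pos hp0pos)
    ring
  · intro c hc x h
    have h1 := (hm _ (hC c hc h) fun i => h * x i).1
    calc ∫ w, ψ0 (h * c * h⁻¹) (fun i => h * x i) w ∂P
        = ∫ w, ψ0 (h * c * h⁻¹) (fun i => h * x i) w ∂(P.map (act h)) := by rw [(hP h).map_eq]
      _ = ∫ w, ψ0 (h * c * h⁻¹) (fun i => h * x i) (act h w) ∂P :=
        integral_map (hP h).measurable.aemeasurable h1.aestronglyMeasurable
      _ = ∫ w, ψ0 c x w ∂P := by simp only [hψ0, h₁.equiv c hc x]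
  · intro c hc x
    rw [← integral_neg]
    refine integral_congr_ae (Filter.Eventually.of_forall fun w => ?_)
    have := hcy (bg (W₁ c (rotx c x) w)) (bg (W₁ c x w)) (bg_smooth (h₁.smooth c hc _ w))
      (bg_cyc (h₁.smooth c hc _ w) (h₁.rotInv c hc _ w) (h₁.cyc c hc x w))
    simp only [hψ0]
    rw [this, neg_neg]
  · intro c hc x
    have h1 : ∀ w, φ0 c x w = v2 * p0 + ∑ p, ε' p * ψ0 c (fun i => x (p.succAbove i)) w :=
      fun w => hst (bg (W₂ c x w)) (fun p => bg (W₁ c (fun i => x (p.succAbove i)) w))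
        (bg_smooth (h₂.smooth c hc x w))
        fun p => bg_face (h₂.smooth c hc x w) p (hface c hc x w p)
    have h2 : ∀ p ∈ (Finset.univ : Finset (Fin (2 * j + 3))),
        Integrable (fun w => ε' p * ψ0 c (fun i => x (p.succAbove i)) w) P :=
      fun p _ => (hm c hc _).2.const_mul _
    simp only [h1]
    rw [integral_add (integrable_const _) (integrable_finsetSum _ h2), integral_finsetSum _ h2]
    simp only [integral_const, probReal_univ, smul_eq_mul, one_mul, integral_const_mul]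
  · intro c hc x
    set t : ℝ := (tlen ℓ c x : ℝ) with ht
    have ht0 : 0 ≤ t := Nat.cast_nonneg _
    have hsum : ∑ i, (slen ℓ c x i : ℝ) = t := by rw [ht, tlen, Nat.cast_sum]
    have hT0 : 0 ≤ t / (2 * j + 2) := by positivity
    have hT1 : t / (2 * j + 2) ≤ t :=
      div_le_self ht0 (by linarith [(Nat.cast_nonneg j : (0 : ℝ) ≤ j)])
    have hb : ∀ᵐ w ∂P, ∀ y ∈ simplex (2 * j + 1),
        |T (bg (W₁ c x w) y) (curv (bg (W₁ c x w)) y)| ≤
          CT * a0 ^ (j + 1) * C1 * Real.exp (γ * t) := by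
      filter_upwards [hb₁] with w hw y hy
      obtain ⟨e1, e2⟩ := ent_bound (h₁.smooth c hc x w) (h₁.rotInv c hc x w) hy
        (fun i => Nat.cast_nonneg _) hT0 hK (hw c hc x _ hy)
      rw [hsum, ← ha0] at e1 e2
      have hA : ((1 + t / (2 * j + 2)) * (1 + t)) ^ 3 ≤ (1 + t) ^ 6 := by
        calc _ ≤ ((1 + t) * (1 + t)) ^ 3 := by gcongr
          _ = _ := by ring
      have hA' : a0 * ((1 + t / (2 * j + 2)) * (1 + t)) ^ 3 ≤ a0 * (1 + t) ^ 6 :=
        mul_le_mul_of_nonneg_left hA (by linarith)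
      have := hT _ _ (a0 * (1 + t) ^ 6)
        (one_le_mul_of_one_le_of_one_le ha1 (one_le_pow₀ (by linarith)))
        (fun i => (e1 i).trans hA') (fun i i' => (e2 i i').trans hA')
      refine this.trans ?_
      rw [mul_pow, ← pow_mul, mul_assoc, mul_assoc]
      refine mul_le_mul_of_nonneg_left (mul_le_mul_of_nonneg_left (hpoly t ht0) ?_) hCT
      positivity
    exact (abs_int_le P hb).trans_eq (by ring)
  · intro c hc x
    have hsum : ∑ i, (slen ℓ c x i : ℝ) = tlen ℓ c x := by rw [tlen, Nat.cast_sum]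
    have hb : ∀ᵐ w ∂P, ∀ y ∈ simplex (2 * j + 2),
        |pfP j (omega (2 * j + 2) + curv (bg (W₂ c x w)) y)| ≤
          |p0| * B * Real.exp (γ * tlen ℓ c x) := by
      filter_upwards [hb₂] with w hw y hy
      have := pf_bound (h₂.smooth c hc x w) (h₂.rotInv c hc x w) (fun i => Nat.cast_nonneg _)
        (by rw [hsum]) hK hε hγ hγ1 (hw c hc x _ hy).1 (hw c hc x _ hy).2
      rwa [hsum] at this
    exact (abs_int_le P hb).trans_eq (by ring)

end Crest.Agent.R192
end

-- ▼ part PVc/R192/Lab4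
section

/-! Row 192: labels: lower bounds. -/

set_option autoImplicit false
set_option linter.unusedSectionVars false

namespace Crest.Agent.R192

open Crest.AlgebraR.L1 MeasureTheory Matrix
open scoped ContDiff BoundedContinuousFunction

variable {G : Type} [Group G] [TopologicalSpace G] [DiscreteTopology G] {ℓ : Len G} {R : ℕ}
  {p : LP G}

namespace Lab4

/-- an active anchor reads the thresholded shape up to the error `t` -/
theorem fη_close (h : p.Ok ℓ R) (η : p.Sh) {μ : G →₀ ℝ} (hμ : IsProb μ) {x : G}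
    (hx : rr ℓ R p x η (feat ℓ R μ) ≠ 0) (z : G) :
    |fη ℓ R η z - max 0 (feat ℓ R μ (x * z) - 1 / 2)| ≤ p.t := by
  unfold fη
  split_ifs with hz
  · have h1 := abs_sub_lt_of_uu h (uu_gt_of_rr_ne_zero hx) hz
    rw [max_comm, max_comm 0]
    refine (abs_max_sub_max_le_abs _ _ _).trans ?_
    rw [sub_sub_sub_cancel_right, abs_sub_comm]
    exact h1.le
  · have h1 : 1 / 2 < feat ℓ R μ x := by
      by_contra hc
      exact hx (rr_eq_zero h η (not_lt.1 hc))
    have h2 : feat ℓ R μ (x * z) ≤ 1 / 2 := by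
      by_contra hc
      have := majority ℓ R h.R_pos μ hμ x (x * z) h1 (not_le.1 hc)
      rw [inv_mul_cancel_left] at this
      exact hz ((ℓ.mem_ball _ _).2 this)
    rw [max_eq_left (by linarith), sub_zero, abs_zero]
    exact h.t_pos.le

theorem u0_pos : 0 < p.u0 := Real.exp_pos _

theorem rr_le_uu (x : G) (η : G → ℝ) (a : G →ᵇ ℝ) : rr ℓ R p x η a ≤ uu ℓ R p.β x η a :=
  mul_le_of_le_one_right (uu_pos _ _ _ _).le (Real.smoothTransition.le_one _)

theorem uu_sub_le_rr (x : G) (η : G → ℝ) (a : G →ᵇ ℝ) :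
    uu ℓ R p.β x η a - 2 * p.u0 ≤ rr ℓ R p x η a := by
  have h0 := u0_pos (p := p)
  rcases le_total (2 * p.u0) (uu ℓ R p.β x η a) with h | h
  · have : 1 ≤ uu ℓ R p.β x η a / p.u0 - 1 := by
      rw [le_sub_iff_add_le, le_div_iff₀ h0]
      linarith
    rw [rr, Real.smoothTransition.one_of_one_le this]
    linarith
  · have := rr_nonneg (ℓ := ℓ) (R := R) (p := p) x η a
    linarith

theorem one_mem_ball (r : ℕ) : (1 : G) ∈ ℓ.ball r := by
  rw [ℓ.mem_ball, ℓ.len_one]
  exact Nat.zero_le _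

theorem uu_le_two_mul {β : ℝ} (hβ : 0 < β) {x : G} (η : G → ℝ) {a a' : G →ᵇ ℝ}
    (h : ∀ z ∈ ℓ.ball (2 * R), β * |a (x * z) - a' (x * z)| ≤ 1 / 2) :
    uu ℓ R β x η a ≤ 2 * uu ℓ R β x η a' := by
  have he : Real.exp (1 / 2) ≤ 2 := by
    have h1 : Real.exp (1 / 2) ^ 2 = Real.exp 1 := by
      rw [← Real.exp_nat_mul]
      norm_num
    have h2 := Real.exp_one_lt_d9
    refine le_of_pow_le_pow_left₀ two_ne_zero zero_le_two ?_
    rw [h1]
    linarith
  have key : ∀ s s' : ℝ, s' - s ≤ 1 / 2 → Real.exp s' ≤ 2 * Real.exp s := by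
    intro s s' hs
    calc Real.exp s' ≤ Real.exp (1 / 2 + s) := Real.exp_le_exp.2 (by linarith)
      _ = Real.exp (1 / 2) * Real.exp s := Real.exp_add _ _
      _ ≤ _ := mul_le_mul_of_nonneg_right he (Real.exp_pos _).le
  have hpos : ∀ a : G →ᵇ ℝ, 0 < ∑ z ∈ ℓ.ball (2 * R),
      (Real.exp (β * (a (x * z) - η z)) + Real.exp (-(β * (a (x * z) - η z)))) :=
    fun a => inv_pos.1 (uu_pos (ℓ := ℓ) (R := R) β x η a)
  unfold uu
  rw [← div_eq_mul_inv, inv_eq_one_div, div_le_div_iff₀ (hpos a) (hpos a'), one_mul,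
    Finset.mul_sum]
  refine Finset.sum_le_sum fun z hz => ?_
  have h1 := h z hz
  rw [← abs_of_pos hβ, ← abs_mul, abs_le] at h1
  have h2 := key (β * (a (x * z) - η z)) (β * (a' (x * z) - η z)) (by linarith [h1.1])
  have h3 := key (-(β * (a (x * z) - η z))) (-(β * (a' (x * z) - η z))) (by linarith [h1.2])
  linarith

theorem le_uu {β τ : ℝ} (hβ : 0 < β) {x : G} {η : G → ℝ} {a : G →ᵇ ℝ}
    (h : ∀ z ∈ ℓ.ball (2 * R), |a (x * z) - η z| ≤ τ) :
    (2 * (ℓ.ball (2 * R)).card * Real.exp (β * τ))⁻¹ ≤ uu ℓ R β x η a := by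
  refine inv_anti₀ (inv_pos.1 (uu_pos (ℓ := ℓ) (R := R) β x η a)) ?_
  refine (Finset.sum_le_card_nsmul _ _ (2 * Real.exp (β * τ)) fun z hz => ?_).trans (le_of_eq ?_)
  · have h1 := abs_le.1 (h z hz)
    have h2 : Real.exp (β * (a (x * z) - η z)) ≤ Real.exp (β * τ) :=
      Real.exp_le_exp.2 (mul_le_mul_of_nonneg_left h1.2 hβ.le)
    have h3 : Real.exp (-(β * (a (x * z) - η z))) ≤ Real.exp (β * τ) :=
      Real.exp_le_exp.2 (by nlinarith [h1.1])
    linarith
  · rw [nsmul_eq_mul]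
    ring

theorem base_mem {T : Type} (i : OT G T) : i.base ∈ i.s := by
  rw [i.s_eq]
  exact ⟨0, by simp⟩

/-- it is enough to test the event at the base point -/
theorem goodEv_of_base (Sh' : Finset (G → ℝ)) (w' : ℝ) (i : OT G Sh') (v : Lab p → Fin p.Q)
    (hb : ∀ μ : G →₀ ℝ, IsProb μ → 9 / 10 ≤ feat ℓ R μ i.base →
      (∀ z ∈ ℓ.ball (4 * R), |feat ℓ R μ (i.base * z) - (i.tag : G → ℝ) z| ≤ w') →
      ∃ l : Lab p, l.c = i.c ∧ 7 / 10 ≤ share ℓ R p v l (feat ℓ R μ)) :
    GoodEv ℓ R p Sh' w' i v := by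
  intro x hx μ hμ h9 hz
  rw [i.s_eq] at hx
  obtain ⟨m, rfl⟩ := hx
  have e : ∀ z, feat ℓ R (tr (i.c ^ (-m)) μ) (i.base * z) = feat ℓ R μ (i.c ^ m * i.base * z) := by
    intro z
    rw [← feat_tr ℓ R μ (i.c ^ (-m))]
    congr 1
    group
  obtain ⟨l, hl, hs⟩ := hb (tr (i.c ^ (-m)) μ) (NetAux.isProb_tr hμ _)
    (by have := e 1; rw [mul_one, mul_one] at this; rw [this]; exact h9)
    (fun z hz' => by rw [e]; exact hz z hz')
  refine ⟨l, hl, ?_⟩
  rwa [← hl, share_quasi] at hs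

open Classical in
/-- the points near the base point -/
noncomputable def nb (ℓ : Len G) (R : ℕ) (b : G) : Finset G := (ℓ.ball (2 * R)).image (b * ·)

theorem mem_nb {b y : G} : y ∈ nb ℓ R b ↔ ∃ z ∈ ℓ.ball (2 * R), b * z = y := by
  simp only [nb, Finset.mem_image]

theorem card_nb (b : G) : (nb ℓ R b).card ≤ (ℓ.ball (2 * R)).card := by
  classical
  unfold nb
  convert Finset.card_image_le

theorem nb_major (hR : 0 < R) {μ : G →₀ ℝ} (hμ : IsProb μ) {b : G} (hb : 9 / 10 ≤ feat ℓ R μ b)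
    (x : G) (hx : x ∉ nb ℓ R b) : feat ℓ R μ x ≤ 1 / 2 := by
  by_contra hc
  have := majority ℓ R hR μ hμ b x (by linarith) (not_le.1 hc)
  exact hx (mem_nb.2 ⟨_, (ℓ.mem_ball _ _).2 this, mul_inv_cancel_left _ _⟩)

theorem mk'_mem {T : Type} (i : OT G T) {y : G} (hy : y ∈ nb ℓ R i.base) (η : p.Sh) :
    OT.mk' i.c y η ∈ esupp ℓ R p i := by
  obtain ⟨z, hz, rfl⟩ := mem_nb.1 hy
  exact (mem_esupp i _).2 ⟨rfl, _, base_mem i, z, hz, 0, by simp⟩

theorem Xi_eq_sum (h : p.Ok ℓ R) {T : Type} (i : OT G T) (v : Lab p → Fin p.Q) {a : G →ᵇ ℝ}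
    (ha : ∀ x, x ∉ nb ℓ R i.base → a x ≤ 1 / 2) :
    Xi ℓ R p v i.c a = p.T0 + ∑ l ∈ esupp ℓ R p i, pw p.Q p.P (v l) * Sl ℓ R p l a := by
  classical
  rw [Xi_eq h v i.c _ ha]
  congr 1
  simp only [Sl_eq h _ _ ha, Finset.sum_filter, Finset.mul_sum]
  rw [Finset.sum_comm (s := esupp ℓ R p i)]
  refine Finset.sum_congr rfl fun y hy => ?_
  simp only [mul_ite, mul_zero]
  rw [← Finset.sum_filter]
  have e : (esupp ℓ R p i).filter (fun l => y ∈ l.s)
      = Finset.univ.image fun η : p.Sh => OT.mk' i.c y η := by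
    ext l
    simp only [Finset.mem_filter, Finset.mem_image, Finset.mem_univ, true_and]
    constructor
    · rintro ⟨h1, h2⟩
      refine ⟨l.tag, ?_⟩
      rw [← ((mem_esupp i l).1 h1).1]
      exact (mk'_eq_iff_mem l y).2 h2
    · rintro ⟨η, rfl⟩
      exact ⟨mk'_mem i hy η, 0, by simp⟩
  rw [e, Finset.sum_image fun η _ η' _ hη => congrArg OT.tag hη]
  exact Finset.sum_congr rfl fun η _ => mul_comm _ _

end Lab4

open Lab4

/-- a dominant label has a large amplitude if the character is close to `1` on ties -/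
theorem Y1_lower (h : p.Ok ℓ R) (v : Lab p → Fin p.Q) (l : Lab p)
    (hϑ : ∀ m : ℤ, (∀ z, |fη ℓ R l.tag z -
        fη ℓ R l.tag (((l.base⁻¹ * l.c * l.base) ^ m)⁻¹ * z)| ≤ 2 * p.t) →
      ‖ee (ang p l * m) - 1‖ ≤ 1 / 2)
    {μ : G →₀ ℝ} (hμ : IsProb μ) (hs : 7 / 10 ≤ share ℓ R p v l (feat ℓ R μ)) :
    1 / 3 ≤ ‖Y1 ℓ R p v l (feat ℓ R μ)‖ := by
  classical
  obtain ⟨X, hX⟩ := exists_finset_nhds (ℓ := ℓ) h.R_pos μ
  have hX := hX.self_of_nhds
  have hZ : Sl ℓ R p l (feat ℓ R μ) / 2 ≤ ‖Zl ℓ R p l (feat ℓ R μ)‖ := by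
    rw [Sl_eq h l X hX, Zl_eq h l X hX]
    by_cases hex : ∃ x0 ∈ l.s, rr ℓ R p x0 l.tag (feat ℓ R μ) ≠ 0
    · obtain ⟨x0, hx0, hr0⟩ := hex
      have hph : ∀ x ∈ l.s, rr ℓ R p x l.tag (feat ℓ R μ) ≠ 0 →
          ‖ee (ang p l * l.idx x0) - ee (ang p l * l.idx x)‖ ≤ 1 / 2 := by
        intro x hx hr
        have hm : x = l.c ^ (l.idx x - l.idx x0) * x0 := by
          conv_rhs => rw [← l.idx_spec hx0]
          conv_lhs => rw [← l.idx_spec hx]
          rw [l.idx_spec hx0, ← l.idx_spec hx0, l.idx_spec hx0]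
          conv_rhs => enter [2]; rw [← l.idx_spec hx0]
          group
        generalize l.idx x - l.idx x0 = m at hm
        subst hm
        rw [ee_idx h l hx0, norm_sub_rev, ← sub_one_mul, norm_mul, norm_ee, mul_one]
        refine hϑ m fun z => ?_
        have h1 := abs_le.1 (fη_close h l.tag hμ hr0 z)
        have h2 := abs_le.1 (fη_close h l.tag hμ hr (((l.base⁻¹ * l.c * l.base) ^ m)⁻¹ * z))
        have e : l.c ^ m * x0 * (((l.base⁻¹ * l.c * l.base) ^ m)⁻¹ * z) = x0 * z := by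
          rw [← l.conj_eq hx0]
          have := conj_zpow (a := x0⁻¹) (b := l.c) (i := m)
          rw [inv_inv] at this
          rw [this]
          group
        rw [e] at h2
        rw [abs_le]
        constructor <;> linarith [h1.1, h1.2, h2.1, h2.2]
      set S := ∑ x ∈ X.filter (· ∈ l.s), rr ℓ R p x l.tag (feat ℓ R μ) with hS
      have hS0 : 0 ≤ S := Finset.sum_nonneg fun _ _ => rr_nonneg _ _ _
      have h1 : ‖(S : ℂ) * ee (ang p l * l.idx x0) - ∑ x ∈ X.filter (· ∈ l.s),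
          (rr ℓ R p x l.tag (feat ℓ R μ) : ℂ) * ee (ang p l * l.idx x)‖ ≤ S / 2 := by
        rw [hS, Complex.ofReal_sum, Finset.sum_mul, ← Finset.sum_sub_distrib, Finset.sum_div]
        refine (norm_sum_le _ _).trans (Finset.sum_le_sum fun x hx => ?_)
        rw [← mul_sub, norm_mul, Complex.norm_real, Real.norm_of_nonneg (rr_nonneg _ _ _)]
        by_cases hr : rr ℓ R p x l.tag (feat ℓ R μ) = 0
        · simp [hr]
        · rw [div_eq_mul_one_div]
          exact mul_le_mul_of_nonneg_left (hph x (Finset.mem_filter.1 hx).2 hr) (rr_nonneg _ _ _)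
      have h2 := (norm_sub_norm_le _ _).trans h1
      rw [norm_mul, norm_ee, mul_one, Complex.norm_real, Real.norm_of_nonneg hS0] at h2
      linarith
    · push Not at hex
      rw [Finset.sum_eq_zero fun x hx => hex x (Finset.mem_filter.1 hx).2, zero_div]
      exact norm_nonneg _
  have hXi : 0 < Xi ℓ R p v l.c (feat ℓ R μ) := (T0_pos h).trans_le (T0_le_Xi _ _ _)
  have hW : 0 ≤ pw p.Q p.P (v l) / Xi ℓ R p v l.c (feat ℓ R μ) :=
    div_nonneg (zero_le_one.trans (one_le_pw _ _ _)) hXi.le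
  rw [Y1, Real.smoothTransition.one_of_one_le (by linarith), one_mul, norm_mul, Complex.norm_real,
    Real.norm_of_nonneg hW]
  have h3 := mul_le_mul_of_nonneg_left hZ hW
  have e : pw p.Q p.P (v l) / Xi ℓ R p v l.c (feat ℓ R μ) * (Sl ℓ R p l (feat ℓ R μ) / 2)
      = share ℓ R p v l (feat ℓ R μ) / 2 := by
    unfold share
    ring
  linarith

open Classical in
/-- each event has probability at least `1/32` -/
theorem goodEv_prob (h : p.Ok ℓ R) (Sh' : Finset (G → ℝ)) (w' : ℝ)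
    (hnet : ∀ μ : G →₀ ℝ, IsProb μ → ∀ x, 9 / 10 ≤ feat ℓ R μ x →
      ∃ η ∈ p.Sh, ∀ z ∈ ℓ.ball (2 * R), |feat ℓ R μ (x * z) - η z| ≤ p.t / 2)
    (hw' : 4 * p.β * w' ≤ 1) (hQ : 32 * p.N1 ≤ p.Q) (hP : 22 * p.N1 ≤ 2 ^ p.P)
    (hβ : 2 * (ℓ.ball (2 * R)).card * p.N1 * (p.Q : ℝ) ^ p.P ≤ Real.exp (p.β * p.t / 2))
    (i : OT G Sh') (w0 : Lab p → Fin p.Q) :
    Fintype.card (Fin p.Q) ^ (esupp ℓ R p i).card ≤ 32 *
      (Finset.univ.filter fun f : esupp ℓ R p i → Fin p.Q => GoodEv ℓ R p Sh' w' i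
        fun a => if ha : a ∈ esupp ℓ R p i then f ⟨a, ha⟩ else w0 a).card := by
  by_cases hex : ∃ μ0 : G →₀ ℝ, IsProb μ0 ∧ 9 / 10 ≤ feat ℓ R μ0 i.base ∧
      ∀ z ∈ ℓ.ball (4 * R), |feat ℓ R μ0 (i.base * z) - (i.tag : G → ℝ) z| ≤ w'
  swap
  · rw [Finset.filter_true_of_mem fun f _ => goodEv_of_base Sh' w' i _
      fun μ h1 h2 h3 => absurd ⟨μ, h1, h2, h3⟩ hex, Finset.card_univ, Fintype.card_fun,
      Fintype.card_coe]
    exact Nat.le_mul_of_pos_left _ (by norm_num)
  obtain ⟨μ0, hμ0, h90, hz0⟩ := hex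
  obtain ⟨η0, hη0, hn0⟩ := hnet μ0 hμ0 i.base h90
  have hN1 := h.N1_pos
  have hN1' : (1 : ℝ) ≤ p.N1 := by exact_mod_cast hN1
  have hE := card_esupp h i
  have hP0 : 0 < p.P := by
    by_contra hc
    have : p.P = 0 := by omega
    rw [this] at hP
    omega
  have hbX : i.base ∈ nb ℓ R i.base := mem_nb.2 ⟨1, one_mem_ball _, mul_one _⟩
  have hXc : ((nb ℓ R i.base).card : ℝ) ≤ p.N1 := by
    have h1 := card_nb (ℓ := ℓ) (R := R) i.base
    have h2 : 1 ≤ p.Sh.card := Finset.card_pos.2 ⟨η0, hη0⟩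
    have h3 := h.N1_ge
    have h4 := Nat.mul_le_mul_left (ℓ.ball (2 * R)).card h2
    exact_mod_cast (by omega : (nb ℓ R i.base).card ≤ p.N1)
  let s : esupp ℓ R p i → ℝ := fun l =>
    ∑ y ∈ (nb ℓ R i.base).filter (· ∈ l.1.s), uu ℓ R p.β y l.1.tag (feat ℓ R μ0)
  have hs : ∀ l, 0 ≤ s l := fun l => Finset.sum_nonneg fun _ _ => (uu_pos _ _ _ _).le
  let l0 : esupp ℓ R p i := ⟨OT.mk' i.c i.base ⟨η0, hη0⟩, mk'_mem i hbX _⟩
  have hT0 := T0_pos h
  have hl0 : p.T0 ≤ s l0 := by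
    have h1 : uu ℓ R p.β i.base η0 (feat ℓ R μ0) ≤ s l0 :=
      Finset.single_le_sum (f := fun y => uu ℓ R p.β y η0 (feat ℓ R μ0))
        (fun _ _ => (uu_pos _ _ _ _).le) (Finset.mem_filter.2 ⟨hbX, 0, by simp⟩)
    refine le_trans ?_ ((le_uu h.β_pos hn0).trans h1)
    have hc : (0 : ℝ) < (ℓ.ball (2 * R)).card := by
      exact_mod_cast Finset.card_pos.2 ⟨1, one_mem_ball _⟩
    rw [inv_eq_one_div, le_div_iff₀ (by positivity), LP.T0, LP.u0]
    have e : Real.exp (-(p.β * p.t)) * Real.exp (p.β * (p.t / 2)) * Real.exp (p.β * p.t / 2)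
        = 1 := by
      rw [← Real.exp_add, ← Real.exp_add, ← Real.exp_zero]
      congr 1
      ring
    have h2 := mul_le_mul_of_nonneg_left hβ
      (mul_pos (Real.exp_pos (-(p.β * p.t))) (Real.exp_pos (p.β * (p.t / 2)))).le
    rw [e] at h2
    linarith
  have H := pareto p.Q p.P (L := esupp ℓ R p i) (by rw [Fintype.card_coe]; omega) hP0 s hs l0
    (hT0.trans_le hl0)
  rw [Fintype.card_coe] at H
  rw [Fintype.card_fin]
  refine H.trans (Nat.mul_le_mul_left _ (Finset.card_le_card fun f hf => ?_))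
  simp only [Finset.mem_filter, Finset.mem_univ, true_and] at hf ⊢
  obtain ⟨l, x, hx, hwin, hrest⟩ := hf
  refine goodEv_of_base Sh' w' i _ fun μ hμ h9 hz => ?_
  set v : Lab p → Fin p.Q := fun a => if ha : a ∈ esupp ℓ R p i then f ⟨a, ha⟩ else w0 a with hv
  have hvf : ∀ l' : esupp ℓ R p i, v l' = f l' := fun l' => by simp only [hv, dif_pos l'.2]
  have hlc : l.1.c = i.c := ((mem_esupp i l.1).1 l.2).1
  refine ⟨l, hlc, ?_⟩
  have hmaj := nb_major h.R_pos hμ h9
  have hclose : ∀ y ∈ nb ℓ R i.base, ∀ z ∈ ℓ.ball (2 * R),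
      p.β * |feat ℓ R μ (y * z) - feat ℓ R μ0 (y * z)| ≤ 1 / 2 := by
    intro y hy z hz'
    obtain ⟨z', hz'', rfl⟩ := mem_nb.1 hy
    have h1 : z' * z ∈ ℓ.ball (4 * R) := by
      rw [ℓ.mem_ball] at hz' hz'' ⊢
      have := ℓ.len_mul z' z
      omega
    have h2 := abs_le.1 (hz _ h1)
    have h3 := abs_le.1 (hz0 _ h1)
    have h4 : |feat ℓ R μ (i.base * z' * z) - feat ℓ R μ0 (i.base * z' * z)| ≤ 2 * w' := by
      rw [mul_assoc, abs_le]
      constructor <;> linarith [h2.1, h2.2, h3.1, h3.2]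
    have := mul_le_mul_of_nonneg_left h4 h.β_pos.le
    linarith
  have hup : ∀ l' : esupp ℓ R p i, Sl ℓ R p l' (feat ℓ R μ) ≤ 2 * s l' := by
    intro l'
    rw [Sl_eq h _ _ hmaj, Finset.mul_sum]
    exact Finset.sum_le_sum fun y hy => (rr_le_uu _ _ _).trans
      (uu_le_two_mul h.β_pos _ (hclose y (Finset.mem_filter.1 hy).1))
  have hlow : s l / 2 - 2 * p.u0 * p.N1 ≤ Sl ℓ R p l (feat ℓ R μ) := by
    rw [Sl_eq h _ _ hmaj]
    have h1 : s l / 2 ≤ ∑ y ∈ (nb ℓ R i.base).filter (· ∈ l.1.s),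
        (rr ℓ R p y l.1.tag (feat ℓ R μ) + 2 * p.u0) := by
      rw [Finset.sum_div]
      refine Finset.sum_le_sum fun y hy => ?_
      have h2 := uu_le_two_mul (a := feat ℓ R μ0) (a' := feat ℓ R μ) h.β_pos l.1.tag
        fun z hz' => by
          rw [abs_sub_comm]
          exact hclose y (Finset.mem_filter.1 hy).1 z hz'
      have h3 := uu_sub_le_rr (ℓ := ℓ) (R := R) (p := p) y l.1.tag (feat ℓ R μ)
      linarith
    rw [Finset.sum_add_distrib, Finset.sum_const, nsmul_eq_mul] at h1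
    have h2 : (((nb ℓ R i.base).filter (· ∈ l.1.s)).card : ℝ) ≤ p.N1 :=
      le_trans (by exact_mod_cast Finset.card_filter_le _ _) hXc
    have h3 := mul_le_mul_of_nonneg_right h2 (by linarith [u0_pos (p := p)] : 0 ≤ 2 * p.u0)
    linarith
  have hxT : p.T0 ≤ x := hl0.trans hx
  have hx0 : 0 < x := hT0.trans_le hxT
  have hW1 := one_le_pw p.Q p.P (f l)
  have hW2 := pw_le p.Q p.P (f l)
  have hA : 9 * (p.N1 * x) ≤ pw p.Q p.P (f l) * Sl ℓ R p l (feat ℓ R μ) := by
    have h1 := mul_le_mul_of_nonneg_left hlow (zero_le_one.trans hW1)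
    have h2 : (22 * p.N1 : ℝ) ≤ 2 ^ p.P := by exact_mod_cast hP
    have h3 := mul_le_mul_of_nonneg_right h2 hx0.le
    have h4 : pw p.Q p.P (f l) * (p.u0 * p.N1) ≤ p.T0 := by
      have := mul_le_mul_of_nonneg_right hW2
        (mul_pos (u0_pos (p := p)) (by linarith : (0 : ℝ) < p.N1)).le
      unfold LP.T0
      linarith
    have h5 : x ≤ p.N1 * x := le_mul_of_one_le_left hx0.le hN1'
    linarith
  have hXi : Xi ℓ R p v i.c (feat ℓ R μ) ≤
      pw p.Q p.P (f l) * Sl ℓ R p l (feat ℓ R μ) + 3 * (p.N1 * x) := by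
    rw [Xi_eq_sum h i v hmaj, ← Finset.sum_coe_sort, ← Finset.add_sum_erase _ _ (Finset.mem_univ l),
      hvf]
    have h1 : ∑ l' ∈ Finset.univ.erase l, pw p.Q p.P (v l') * Sl ℓ R p l' (feat ℓ R μ)
        ≤ (Finset.univ.erase l).card • (2 * x) := by
      refine Finset.sum_le_card_nsmul _ _ _ fun l' hl' => ?_
      have h2 := hrest l' (Finset.ne_of_mem_erase hl')
      have h3 := mul_le_mul_of_nonneg_left (hup l') (zero_le_one.trans (one_le_pw p.Q p.P (f l')))
      rw [hvf]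
      linarith
    have h2 : ((Finset.univ.erase l).card : ℝ) ≤ p.N1 := by
      have h3 : (Finset.univ.erase l).card ≤ p.N1 := by
        refine (Finset.card_erase_le.trans (le_of_eq ?_)).trans hE
        rw [Finset.card_univ, Fintype.card_coe]
      exact_mod_cast h3
    rw [nsmul_eq_mul] at h1
    have h3 := mul_le_mul_of_nonneg_right h2 (by linarith : 0 ≤ 2 * x)
    have h5 : x ≤ p.N1 * x := le_mul_of_one_le_left hx0.le hN1'
    linarith
  have hXi0 : 0 < Xi ℓ R p v i.c (feat ℓ R μ) := hT0.trans_le (T0_le_Xi _ _ _)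
  rw [share, hlc, hvf, le_div_iff₀ hXi0]
  have : 0 < p.N1 * x := by positivity
  linarith

end Crest.Agent.R192
end

-- ▼ part PVc/Lib/CountLLL/Basic
section

/-! A counting form of the local lemma (Rosenfeld / Wanless--Wood style).
Colourings `V → α`; bad events `e ∈ I` depend only on the values on `E e`;
if for every vertex the weighted number of bad configurations through it is at most
`card α - β`, some colouring avoids all bad events. -/

set_option autoImplicit false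

namespace Crest.Agent.Lib.CountLLL

open Finset

variable {V α ι : Type*} [Fintype V] [DecidableEq V] [Fintype α] [DecidableEq α] [Inhabited α]

open Classical in
/-- colourings supported in `A` with no bad event inside `A` -/
noncomputable def good (I : Finset ι) (E : ι → Finset V) (bad : ι → (V → α) → Prop)
    (A : Finset V) : Finset (V → α) :=
  univ.filter (fun f => (∀ v, v ∉ A → f v = default) ∧ ∀ e ∈ I, E e ⊆ A → ¬ bad e f)

theorem mem_good {I : Finset ι} {E : ι → Finset V} {bad : ι → (V → α) → Prop}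
    {A : Finset V} {f : V → α} :
    f ∈ good I E bad A ↔ (∀ v, v ∉ A → f v = default) ∧ ∀ e ∈ I, E e ⊆ A → ¬ bad e f := by
  simp [good]

theorem iter_of_step (I : Finset ι) (E : ι → Finset V) (bad : ι → (V → α) → Prop) (β : ℝ)
    (hβ : 0 < β) (n : ℕ)
    (step : ∀ A : Finset V, A.card < n → ∀ v, v ∉ A →
      β * ((good I E bad A).card : ℝ) ≤ (good I E bad (insert v A)).card)
    (A : Finset V) (hA : A.card ≤ n) (S : Finset V) (hS : S ⊆ A) :
    β ^ S.card * ((good I E bad (A \ S)).card : ℝ) ≤ (good I E bad A).card := by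
  induction S using Finset.induction_on with
  | empty => simp
  | insert u S hu ih =>
    have hS' : S ⊆ A := (subset_insert u S).trans hS
    have huA : u ∈ A := hS (mem_insert_self u S)
    have h1 := ih hS'
    have hcard : (A \ insert u S).card < n := by
      have : A \ insert u S ⊂ A := by
        refine ⟨sdiff_subset, fun h => ?_⟩
        have := h huA
        simp at this
      exact lt_of_lt_of_le (card_lt_card this) hA
    have h2 := step (A \ insert u S) hcard u (by simp)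
    have h3 : insert u (A \ insert u S) = A \ S := by
      ext w
      simp only [mem_insert, mem_sdiff, not_or]
      constructor
      · rintro (rfl | h)
        · exact ⟨huA, hu⟩
        · exact ⟨h.1, h.2.2⟩
      · intro h
        by_cases hw : w = u
        · exact Or.inl hw
        · exact Or.inr ⟨h.1, hw, h.2⟩
    rw [h3] at h2
    rw [card_insert_of_notMem hu, pow_succ, mul_assoc]
    exact le_trans (mul_le_mul_of_nonneg_left h2 (by positivity)) h1

open Classical in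
theorem step (I : Finset ι) (E : ι → Finset V) (bad : ι → (V → α) → Prop)
    (hdep : ∀ e ∈ I, ∀ f g : V → α, (∀ v ∈ E e, f v = g v) → bad e f → bad e g)
    (B : ι → ℝ)
    (hB : ∀ e ∈ I, ((univ.filter (fun f : V → α =>
      (∀ v, v ∉ E e → f v = default) ∧ bad e f)).card : ℝ) ≤ B e)
    (β : ℝ) (hβ : 0 < β)
    (hsum : ∀ v, ∑ e ∈ I.filter (fun e => v ∈ E e), B e * β / β ^ (E e).card
      ≤ Fintype.card α - β) (n : ℕ) :
    ∀ A : Finset V, A.card < n → ∀ v, v ∉ A →
      β * ((good I E bad A).card : ℝ) ≤ (good I E bad (insert v A)).card := by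
  induction n with
  | zero => intro A hA; omega
  | succ n ih =>
    intro A hA v hv
    have hAn : A.card ≤ n := by omega
    have iter := iter_of_step I E bad β hβ n ih A hAn
    set S : Finset (V → α) := univ.filter (fun f => Function.update f v default ∈ good I E bad A)
      with hSdef
    have hS1 : Fintype.card α * (good I E bad A).card ≤ S.card := by
      rw [← Finset.card_univ, ← Finset.card_product]
      refine Finset.card_le_card_of_injOn (fun p => Function.update p.2 v p.1) ?_ ?_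
      · rintro ⟨a, h⟩ hp
        simp only [coe_product, Set.mem_prod, mem_coe] at hp
        have hh := hp.2
        have : Function.update (Function.update h v a) v default = h := by
          rw [Function.update_idem, ← (mem_good.1 hh).1 v hv, Function.update_eq_self]
        simp only [hSdef, coe_filter, mem_univ, true_and, Set.mem_ofPred_eq, this]
        exact hh
      · rintro ⟨a, h⟩ hp ⟨a', h'⟩ hp' heq
        simp only [coe_product, Set.mem_prod, mem_coe] at hp hp'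
        have e1 : a = a' := by
          have := congrFun heq v
          simpa using this
        have e2 : h = h' := by
          funext w
          by_cases hw : w = v
          · subst hw
            rw [(mem_good.1 hp.2).1 w hv, (mem_good.1 hp'.2).1 w hv]
          · have := congrFun heq w
            simpa [Function.update_of_ne hw] using this
        rw [e1, e2]
    set J := I.filter (fun e => v ∈ E e ∧ E e ⊆ insert v A) with hJ
    have hS2 : S ⊆ good I E bad (insert v A) ∪ J.biUnion (fun e => S.filter (bad e)) := by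
      intro f hf
      have hf' : Function.update f v default ∈ good I E bad A := by simpa [hSdef] using hf
      by_cases hg : ∀ e ∈ I, E e ⊆ insert v A → ¬ bad e f
      · refine mem_union_left _ (mem_good.2 ⟨fun w hw => ?_, hg⟩)
        have hwv : w ≠ v := fun h => hw (h ▸ mem_insert_self v A)
        have hwA : w ∉ A := fun h => hw (mem_insert_of_mem h)
        have := (mem_good.1 hf').1 w hwA
        rwa [Function.update_of_ne hwv] at this
      · push Not at hg
        obtain ⟨e, heI, heA, hbad⟩ := hg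
        refine mem_union_right _ (mem_biUnion.2 ⟨e, ?_, mem_filter.2 ⟨hf, hbad⟩⟩)
        refine mem_filter.2 ⟨heI, ?_, heA⟩
        by_contra hve
        have hsub : E e ⊆ A := by
          intro w hw
          rcases mem_insert.1 (heA hw) with h | h
          · exact absurd (h ▸ hw) hve
          · exact h
        refine (mem_good.1 hf').2 e heI hsub (hdep e heI f _ (fun w hw => ?_) hbad)
        have hwv : w ≠ v := fun h => hve (h ▸ hw)
        rw [Function.update_of_ne hwv]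
    have hS3 : ∀ e ∈ J, ((S.filter (bad e)).card : ℝ) ≤
        B e * β / β ^ (E e).card * (good I E bad A).card := by
      intro e he
      obtain ⟨heI, hve, heA⟩ := mem_filter.1 he
      have h1 : (S.filter (bad e)).card ≤ (univ.filter (fun f : V → α =>
          (∀ v, v ∉ E e → f v = default) ∧ bad e f)).card *
          (good I E bad (A \ (E e).erase v)).card := by
        rw [← Finset.card_product]
        refine Finset.card_le_card_of_injOn
          (fun f => (fun w => if w ∈ E e then f w else default,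
            fun w => if w ∈ E e then default else f w)) ?_ ?_
        · intro f hf
          obtain ⟨hfS, hfb⟩ := mem_filter.1 (mem_coe.1 hf)
          have hf' : Function.update f v default ∈ good I E bad A := by simpa [hSdef] using hfS
          simp only [coe_product, Set.mem_prod, mem_coe, mem_filter, mem_univ, true_and]
          refine ⟨⟨fun w hw => by simp [hw], hdep e heI f _ (fun w hw => by simp [hw]) hfb⟩, ?_⟩
          refine mem_good.2 ⟨fun w hw => ?_, fun e' he' hsub hb => ?_⟩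
          · by_cases hwE : w ∈ E e
            · simp [hwE]
            · have hwv : w ≠ v := fun h => hwE (h ▸ hve)
              have hwA : w ∉ A := by
                intro h
                exact hw (mem_sdiff.2 ⟨h, fun h' => hwE (mem_of_mem_erase h')⟩)
              have := (mem_good.1 hf').1 w hwA
              rw [Function.update_of_ne hwv] at this
              simp [hwE, this]
          · refine (mem_good.1 hf').2 e' he' (hsub.trans sdiff_subset)
              (hdep e' he' _ _ (fun w hw => ?_) hb)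
            have hw' := mem_sdiff.1 (hsub hw)
            have hwv : w ≠ v := fun h => hv (h ▸ hw'.1)
            have hwE : w ∉ E e := fun h => hw'.2 (mem_erase.2 ⟨hwv, h⟩)
            simp [hwE, Function.update_of_ne hwv]
        · intro f _ g _ hfg
          have e1 := congrArg Prod.fst hfg
          have e2 := congrArg Prod.snd hfg
          funext w
          by_cases hw : w ∈ E e
          · have := congrFun e1 w
            simpa [hw] using this
          · have := congrFun e2 w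
            simpa [hw] using this
      have hsub : (E e).erase v ⊆ A := by
        intro w hw
        rcases mem_insert.1 (heA (mem_of_mem_erase hw)) with h | h
        · exact absurd h (ne_of_mem_erase hw)
        · exact h
      have h2 := iter _ hsub
      have hc : (E e).card = ((E e).erase v).card + 1 := (card_erase_add_one hve).symm
      have hB0 : 0 ≤ B e := le_trans (Nat.cast_nonneg _) (hB e heI)
      have hpow : 0 < β ^ ((E e).erase v).card := by positivity
      have h3 : ((good I E bad (A \ (E e).erase v)).card : ℝ) ≤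
          (good I E bad A).card / β ^ ((E e).erase v).card := by
        rw [le_div_iff₀ hpow, mul_comm]; exact h2
      calc ((S.filter (bad e)).card : ℝ) ≤ ((univ.filter (fun f : V → α =>
          (∀ v, v ∉ E e → f v = default) ∧ bad e f)).card : ℝ) *
          (good I E bad (A \ (E e).erase v)).card := by exact_mod_cast h1
        _ ≤ B e * ((good I E bad A).card / β ^ ((E e).erase v).card) :=
          mul_le_mul (hB e heI) h3 (Nat.cast_nonneg _) hB0
        _ = B e * β / β ^ (E e).card * (good I E bad A).card := by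
          rw [hc, pow_succ]; field_simp
    have hS4 : (S.card : ℝ) ≤ (good I E bad (insert v A)).card +
        ∑ e ∈ J, ((S.filter (bad e)).card : ℝ) := by
      have := (card_le_card hS2).trans ((card_union_le _ _).trans
        (Nat.add_le_add_left card_biUnion_le _))
      exact_mod_cast this
    have hS5 : ∑ e ∈ J, ((S.filter (bad e)).card : ℝ) ≤
        (Fintype.card α - β) * (good I E bad A).card := by
      refine (sum_le_sum hS3).trans ?_
      rw [← sum_mul]
      refine mul_le_mul_of_nonneg_right (le_trans ?_ (hsum v)) (Nat.cast_nonneg _)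
      refine sum_le_sum_of_subset_of_nonneg ?_ ?_
      · intro e he
        obtain ⟨heI, hve, -⟩ := mem_filter.1 he
        exact mem_filter.2 ⟨heI, hve⟩
      · intro e he _
        have hB0 : 0 ≤ B e := le_trans (Nat.cast_nonneg _) (hB e (mem_filter.1 he).1)
        positivity
    have hS1' : (Fintype.card α : ℝ) * (good I E bad A).card ≤ S.card := by exact_mod_cast hS1
    nlinarith

open Classical in
/-- The counting local lemma. -/
theorem exists_good (I : Finset ι) (E : ι → Finset V) (bad : ι → (V → α) → Prop)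
    (hdep : ∀ e ∈ I, ∀ f g : V → α, (∀ v ∈ E e, f v = g v) → bad e f → bad e g)
    (hne : ∀ e ∈ I, (E e).Nonempty)
    (B : ι → ℝ)
    (hB : ∀ e ∈ I, ((univ.filter (fun f : V → α =>
      (∀ v, v ∉ E e → f v = default) ∧ bad e f)).card : ℝ) ≤ B e)
    (β : ℝ) (hβ : 0 < β)
    (hsum : ∀ v, ∑ e ∈ I.filter (fun e => v ∈ E e), B e * β / β ^ (E e).card
      ≤ Fintype.card α - β) :
    ∃ f : V → α, ∀ e ∈ I, ¬ bad e f := by
  have h := iter_of_step I E bad β hβ (Fintype.card V)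
    (step I E bad hdep B hB β hβ hsum _) univ (by simp) univ subset_rfl
  have h0 : 0 < (good I E bad (univ \ univ)).card := by
    refine card_pos.2 ⟨fun _ => default, mem_good.2 ⟨fun _ _ => rfl, fun e he hsub => ?_⟩⟩
    obtain ⟨w, hw⟩ := hne e he
    simpa using hsub hw
  have h1 : (0 : ℝ) < (good I E bad (univ : Finset V)).card :=
    lt_of_lt_of_le (mul_pos (by positivity) (by exact_mod_cast h0)) h
  obtain ⟨f, hf⟩ := card_pos.1 (by exact_mod_cast h1 : 0 < (good I E bad (univ : Finset V)).card)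
  exact ⟨f, fun e he => (mem_good.1 hf).2 e he (subset_univ _)⟩

end Crest.Agent.Lib.CountLLL
end

-- ▼ part PVc/R192/LLLAux
section

/-! Row 192: auxiliary results for the invariant local lemma. -/

set_option autoImplicit false

namespace Crest.Agent.R192.LLLAux

open MeasureTheory ProbabilityTheory Filter
open scoped ENNReal

section prob

variable {Λ T : Type} [MeasurableSpace T] [DiscreteMeasurableSpace T] [Fintype T]

omit [MeasurableSpace T] [DiscreteMeasurableSpace T] [Fintype T] in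
theorem eq_preimage {F : Finset Λ} {A : Set (Λ → T)}
    (h : ∀ w w', (∀ a ∈ F, w a = w' a) → w ∈ A → w' ∈ A) :
    A = F.restrict ⁻¹' (F.restrict (π := fun _ => T) '' A) := by
  ext w
  refine ⟨fun hw => ⟨w, hw, rfl⟩, ?_⟩
  rintro ⟨w', hw', he⟩
  exact h w' w (fun a ha => congrFun he ⟨a, ha⟩) hw'

theorem meas_of_dep {F : Finset Λ} {A : Set (Λ → T)}
    (h : ∀ w w', (∀ a ∈ F, w a = w' a) → w ∈ A → w' ∈ A) : MeasurableSet A := by
  rw [eq_preimage h]
  exact F.measurable_restrict (Set.toFinite _).measurableSet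

theorem indep_of_dep (u : Measure T) [IsProbabilityMeasure u] {F F' : Finset Λ}
    (hd : Disjoint F F') {A A' : Set (Λ → T)}
    (h : ∀ w w', (∀ a ∈ F, w a = w' a) → w ∈ A → w' ∈ A)
    (h' : ∀ w w', (∀ a ∈ F', w a = w' a) → w ∈ A' → w' ∈ A') :
    Measure.infinitePi (fun _ : Λ => u) (A ∩ A') =
      Measure.infinitePi (fun _ : Λ => u) A * Measure.infinitePi (fun _ : Λ => u) A' := by
  have h1 : iIndepFun (fun (a : Λ) (w : Λ → T) => w a) (Measure.infinitePi fun _ : Λ => u) :=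
    iIndepFun_infinitePi (X := fun _ x => x) (by fun_prop)
  have h2 := h1.indepFun_finset F F' hd (fun a => measurable_pi_apply a)
  have h3 := h2.measure_inter_preimage_eq_mul (F.restrict (π := fun _ => T) '' A)
    (F'.restrict (π := fun _ => T) '' A') (Set.toFinite _).measurableSet
    (Set.toFinite _).measurableSet
  rw [eq_preimage h, eq_preimage h']
  exact h3

theorem meas_restrict [DecidableEq Λ] (u : Measure T) [IsProbabilityMeasure u]
    (hu : ∀ x, u {x} = (Fintype.card T : ℝ≥0∞)⁻¹) (F : Finset Λ) (B : Finset (F → T)) :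
    Measure.infinitePi (fun _ : Λ => u) (F.restrict ⁻¹' (B : Set (F → T))) =
      B.card * ((Fintype.card T : ℝ≥0∞)⁻¹) ^ F.card := by
  rw [← Measure.map_apply F.measurable_restrict (Set.toFinite _).measurableSet,
    Measure.infinitePi_map_restrict, ← sum_measure_singleton]
  have : ∀ f : F → T, Measure.pi (fun _ : F => u) {f} =
      ((Fintype.card T : ℝ≥0∞)⁻¹) ^ F.card := by
    intro f
    rw [← Set.univ_pi_singleton, Measure.pi_pi]
    simp [hu]
  simp [this]

theorem pos_of_dep (u : Measure T) [IsProbabilityMeasure u]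
    (hu : ∀ x, u {x} = (Fintype.card T : ℝ≥0∞)⁻¹) {F : Finset Λ} {A : Set (Λ → T)}
    (h : ∀ w w', (∀ a ∈ F, w a = w' a) → w ∈ A → w' ∈ A) (hne : A.Nonempty) :
    Measure.infinitePi (fun _ : Λ => u) A ≠ 0 := by
  obtain ⟨w₀, hw₀⟩ := hne
  have h1 : Set.pi (F : Set Λ) (fun a => {w₀ a}) ⊆ A :=
    fun w hw => h w₀ w (fun a ha => (hw a ha).symm) hw₀
  intro h0
  have h2 := measure_mono_null h1 h0
  rw [Measure.infinitePi_pi _ (fun _ _ => MeasurableSet.singleton _), Finset.prod_eq_zero_iff] at h2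
  obtain ⟨a, -, ha⟩ := h2
  rw [hu] at ha
  simp at ha

omit [DiscreteMeasurableSpace T] [Fintype T] in
theorem ae_exists_mem (ν : Measure T) [IsProbabilityMeasure ν] {A : Set T} (hA : MeasurableSet A)
    (h : ν A ≠ 0) : ∀ᵐ ω ∂Measure.infinitePi (fun _ : ℕ => ν), ∃ t, ω t ∈ A := by
  rw [ae_iff]
  have h1 : ν Aᶜ < 1 := by
    rw [prob_compl_eq_one_sub hA]
    exact ENNReal.sub_lt_self ENNReal.one_ne_top one_ne_zero h
  refine le_antisymm (ge_of_tendsto' (ENNReal.tendsto_pow_atTop_nhds_zero_of_lt_one h1)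
    fun N => ?_) zero_le
  have h2 : {ω : ℕ → T | ¬ ∃ t, ω t ∈ A} ⊆ Set.pi (Finset.range N : Set ℕ) fun _ => Aᶜ :=
    fun ω hω t _ ht => hω ⟨t, ht⟩
  refine (measure_mono h2).trans ?_
  rw [Measure.infinitePi_pi _ (fun _ _ => hA.compl)]
  simp

/-- union bound over chains of bad events with disjoint supports -/
theorem perc {I : Type} (u : Measure T) [IsProbabilityMeasure u] (supp : I → Finset Λ)
    (Bad : I → Set (Λ → T))
    (hdep : ∀ i w w', (∀ a ∈ supp i, w a = w' a) → w ∈ Bad i → w' ∈ Bad i) (nb : I → Finset I)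
    (D : ℕ) (hD : ∀ i, (nb i).card ≤ D) (p : ℝ≥0∞)
    (hp : ∀ i, Measure.infinitePi (fun _ : Λ => u) (Bad i) ≤ p) (N : ℕ) :
    ∀ (i : I) (F : Finset Λ), ∃ (A : Set (Λ → T)) (F' : Finset Λ), Disjoint F' F ∧
      (∀ w w', (∀ a ∈ F', w a = w' a) → w ∈ A → w' ∈ A) ∧
      Measure.infinitePi (fun _ : Λ => u) A ≤ (D * p) ^ N ∧
      ∀ (w : Λ → T) (s : ℕ → I), s 0 = i →
        (∀ k < N, s (k + 1) ∈ nb (s k) ∧ w ∈ Bad (s (k + 1)) ∧ Disjoint (supp (s (k + 1))) F) →
        (∀ k l, k < l → l < N → Disjoint (supp (s (l + 1))) (supp (s (k + 1)))) → w ∈ A := by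
  classical
  induction N with
  | zero =>
    intro i F
    exact ⟨Set.univ, ∅, by simp, fun _ _ _ _ => trivial, by simp, fun _ _ _ _ _ => trivial⟩
  | succ N ih =>
    intro i F
    choose A F' h1 h2 h3 h4 using ih
    refine ⟨⋃ j ∈ (nb i).filter fun j => Disjoint (supp j) F, Bad j ∩ A j (F ∪ supp j),
      ((nb i).filter fun j => Disjoint (supp j) F).biUnion fun j => supp j ∪ F' j (F ∪ supp j),
      ?_, ?_, ?_, ?_⟩
    · rw [Finset.disjoint_biUnion_left]
      intro j hj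
      rw [Finset.disjoint_union_left]
      exact ⟨(Finset.mem_filter.1 hj).2, (Finset.disjoint_union_right.1 (h1 j _)).1⟩
    · intro w w' hw hA
      simp only [Set.mem_iUnion] at hA ⊢
      obtain ⟨j, hj, hA1, hA2⟩ := hA
      refine ⟨j, hj, hdep j w w' (fun a ha => hw a ?_) hA1, h2 _ _ w w' (fun a ha => hw a ?_) hA2⟩
      · exact Finset.mem_biUnion.2 ⟨j, hj, Finset.mem_union_left _ ha⟩
      · exact Finset.mem_biUnion.2 ⟨j, hj, Finset.mem_union_right _ ha⟩
    · refine (measure_biUnion_finset_le _ _).trans ?_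
      refine (Finset.sum_le_card_nsmul _ _ (p * (D * p) ^ N) fun j _ => ?_).trans ?_
      · rw [indep_of_dep u (Finset.disjoint_union_right.1 (h1 j (F ∪ supp j))).2.symm (hdep j)
          (h2 _ _)]
        exact mul_le_mul' (hp j) (h3 _ _)
      · rw [nsmul_eq_mul, pow_succ', ← mul_assoc]
        gcongr
        exact_mod_cast (Finset.card_filter_le _ _).trans (hD i)
    · intro w s hs0 hs1 hs2
      simp only [Set.mem_iUnion]
      obtain ⟨h5, h6, h7⟩ := hs1 0 (by omega)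
      refine ⟨s 1, Finset.mem_filter.2 ⟨hs0 ▸ h5, h7⟩, h6,
        h4 _ _ w (fun k => s (k + 1)) rfl (fun k hk => ?_) fun k l hkl hl => ?_⟩
      · obtain ⟨h8, h9, h10⟩ := hs1 (k + 1) (by omega)
        exact ⟨h8, h9, Finset.disjoint_union_right.2 ⟨h10, hs2 0 (k + 1) (by omega) (by omega)⟩⟩
      · exact hs2 (k + 1) (l + 1) (by omega) (by omega)

end prob

section graph

variable {I : Type} {r : I → I → Prop}

theorem exists_path {x y : I} (h : Relation.ReflTransGen r x y) :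
    ∃ (n : ℕ) (s : ℕ → I), s 0 = x ∧ s n = y ∧ ∀ k < n, r (s k) (s (k + 1)) := by
  induction h with
  | refl => exact ⟨0, fun _ => x, rfl, rfl, fun _ h => by omega⟩
  | @tail b c _ hbc ih =>
    obtain ⟨n, s, h0, hn, hs⟩ := ih
    refine ⟨n + 1, fun k => if k ≤ n then s k else c, by simpa using h0, by simp, fun k hk => ?_⟩
    rcases (Nat.lt_succ_iff.1 hk).lt_or_eq with h | h
    · simpa [h.le, Nat.succ_le_of_lt h] using hs k h
    · subst h
      simpa [hn] using hbc

theorem finite_lev (nb : I → Finset I) (hnb : ∀ x y, r x y → y ∈ nb x) (x : I) (n : ℕ) :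
    {y | ∃ s : ℕ → I, s 0 = x ∧ s n = y ∧ ∀ k < n, r (s k) (s (k + 1))}.Finite := by
  induction n with
  | zero =>
    refine (Set.finite_singleton x).subset ?_
    rintro y ⟨s, h0, rfl, -⟩
    exact h0
  | succ n ih =>
    refine (ih.biUnion fun y _ => (nb y).finite_toSet).subset ?_
    rintro y ⟨s, h0, rfl, hs⟩
    exact Set.mem_biUnion ⟨s, h0, rfl, fun k hk => hs k (by omega)⟩ (hnb _ _ (hs n (by omega)))

/-- an infinite component of a locally finite graph contains long induced paths -/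
theorem exists_induced (nb : I → Finset I) (hnb : ∀ x y, r x y → y ∈ nb x) (x : I)
    (hinf : {y | Relation.ReflTransGen r x y}.Infinite) (M : ℕ) :
    ∃ s : ℕ → I, s 0 = x ∧ (∀ k < M, r (s k) (s (k + 1))) ∧
      ∀ k l, k + 2 ≤ l → l ≤ M → ¬ r (s k) (s l) := by
  classical
  have hfin := (Finset.range M).finite_toSet.biUnion fun n _ => finite_lev nb hnb x n
  obtain ⟨y, hy1, hy2⟩ := (hinf.sdiff hfin).nonempty
  have hex := exists_path hy1
  obtain ⟨s, h0, hn, hs⟩ := Nat.find_spec hex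
  have hM : M ≤ Nat.find hex := by
    by_contra h
    exact hy2 (Set.mem_biUnion (Finset.mem_coe.2 (Finset.mem_range.2 (not_le.1 h))) ⟨s, h0, hn, hs⟩)
  refine ⟨s, h0, fun k hk => hs k (by omega), fun k l hkl hl hr => ?_⟩
  obtain ⟨e, rfl⟩ : ∃ e, l = k + 1 + (e + 1) := ⟨l - k - 2, by omega⟩
  obtain ⟨n, hn'⟩ : ∃ n, Nat.find hex = n + (e + 1) := ⟨Nat.find hex - (e + 1), by omega⟩
  refine Nat.find_min hex (m := n) (by omega)
    ⟨fun j => if j ≤ k then s j else s (j + (e + 1)), by simpa using h0, ?_, fun j hj => ?_⟩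
  · have : ¬ n ≤ k := by omega
    simp only [this, if_false]
    rw [← hn', hn]
  · rcases lt_trichotomy j k with h | h | h
    · simpa [h.le, Nat.succ_le_of_lt h] using hs j (by omega)
    · subst h
      simpa using hr
    · have h1 : ¬ j ≤ k := by omega
      have h2 : ¬ j + 1 ≤ k := by omega
      simp only [h1, h2, if_false]
      rw [show j + 1 + (e + 1) = j + (e + 1) + 1 by omega]
      exact hs _ (by omega)

theorem meas_rtg {Ω : Type} [MeasurableSpace Ω] [Countable I] {R : Ω → I → I → Prop}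
    (hR : ∀ x y, Measurable fun ω => R ω x y) (x y : I) :
    Measurable fun ω => Relation.ReflTransGen (R ω) x y := by
  have h1 : ∀ (l : List I) (x : I), Measurable fun ω => List.IsChain (R ω) (x :: l) := by
    intro l
    induction l with
    | nil => intro x; simp
    | cons z l ih =>
      intro x
      simp only [List.isChain_cons_cons]
      exact (hR x z).and (ih z)
  have h2 : (fun ω => Relation.ReflTransGen (R ω) x y) = fun ω => ∃ l : List I,
      List.IsChain (R ω) (x :: l) ∧ (x :: l).getLast (List.cons_ne_nil _ _) = y := by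
    funext ω
    exact propext ⟨List.exists_isChain_cons_of_relationReflTransGen, fun ⟨l, h, h'⟩ =>
      List.relationReflTransGen_of_exists_isChain_cons l h h'⟩
  rw [h2]
  exact Measurable.exists fun l => (h1 l x).and measurable_const

theorem meas_sInf : Measurable fun P : ℕ → Prop => sInf {t | P t} := by
  refine measurable_to_countable' fun k => ?_
  have : (fun P : ℕ → Prop => sInf {t | P t}) ⁻¹' {k} =
      {P | (P k ∧ ∀ j < k, ¬ P j) ∨ (k = 0 ∧ ∀ j, ¬ P j)} := by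
    ext P
    simp only [Set.mem_preimage, Set.mem_singleton_iff, Set.mem_ofPred_eq]
    constructor
    · rintro rfl
      by_cases h : ∃ j, P j
      · exact Or.inl ⟨Nat.sInf_mem (s := {t | P t}) h, fun j hj => Nat.notMem_of_lt_sInf hj⟩
      · refine Or.inr ⟨Nat.sInf_eq_zero.2 (Or.inr ?_), fun j hj => h ⟨j, hj⟩⟩
        exact Set.eq_empty_of_forall_notMem fun j hj => h ⟨j, hj⟩
    · rintro (⟨h1, h2⟩ | ⟨rfl, h2⟩)
      · refine le_antisymm (Nat.sInf_le h1) (not_lt.1 fun h => ?_)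
        exact h2 _ h (Nat.sInf_mem (s := {t | P t}) ⟨k, h1⟩)
      · exact Nat.sInf_eq_zero.2 (Or.inr (Set.eq_empty_of_forall_notMem h2))
  rw [this]
  refine Measurable.setOf ?_
  refine ((measurable_pi_apply k).and (Measurable.forall fun j => measurable_const.imp
    (measurable_pi_apply j).not)).or (measurable_const.and
      (Measurable.forall fun j => (measurable_pi_apply j).not))

end graph

section count

variable {Λ I T : Type} [DecidableEq Λ] [Fintype T] [Nonempty T]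

theorem exists_good_one (F : Finset Λ) (Q : (Λ → T) → Prop) (p : ℝ) (hp1 : p < 1)
    (B : Finset (F → T)) (hB : (B.card : ℝ) ≤ p * (Fintype.card T : ℝ) ^ F.card)
    (hQ : ∀ w, ¬ Q w → F.restrict w ∈ B) : ∃ w, Q w := by
  classical
  by_contra h
  have h1 : B = Finset.univ := by
    refine Finset.eq_univ_of_forall fun f => ?_
    have := hQ (fun a => if ha : a ∈ F then f ⟨a, ha⟩ else Classical.arbitrary T) fun h' => h ⟨_, h'⟩
    convert this
    funext a
    simp
  rw [h1, Finset.card_univ, Fintype.card_fun, Fintype.card_coe] at hB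
  push_cast at hB
  have h2 : (0 : ℝ) < (Fintype.card T : ℝ) ^ F.card := by
    have : (0 : ℝ) < Fintype.card T := by exact_mod_cast Fintype.card_pos
    positivity
  nlinarith

theorem pow_le_three (m k : ℕ) (hk : k ≤ m + 1) : (((m : ℝ) + 2) / (m + 1)) ^ k ≤ 3 := by
  have h1 : ((m : ℝ) + 2) / (m + 1) ≤ Real.exp (1 / (m + 1)) := by
    refine le_trans (le_of_eq ?_) (Real.add_one_le_exp _)
    field_simp
    ring
  refine (pow_le_pow_left₀ (by positivity) h1 k).trans ?_
  rw [← Real.exp_nat_mul]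
  refine le_trans (Real.exp_le_exp.2 ?_) (Real.exp_one_lt_d9.le.trans (by norm_num))
  rw [mul_one_div, div_le_one (by positivity)]
  exact_mod_cast hk

theorem lll (supp : I → Finset Λ) (Gd : I → (Λ → T) → Prop)
    (hdep : ∀ i w w', (∀ a ∈ supp i, w a = w' a) → Gd i w → Gd i w') (d m : ℕ)
    (hm : ∀ i, (supp i).card ≤ m)
    (hd : ∀ i, ∃ t : Finset I, t.card ≤ d ∧ ∀ i', ¬ Disjoint (supp i) (supp i') → i' ∈ t)
    (p : ℝ) (hp0 : 0 ≤ p) (hp : ∀ i, ∃ B : Finset (supp i → T),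
      (B.card : ℝ) ≤ p * (Fintype.card T : ℝ) ^ (supp i).card ∧
        ∀ w, ¬ Gd i w → (supp i).restrict w ∈ B)
    (hJ : p * (8 * (d + 1) ^ 2 * (m + 1)) ≤ 1) (K : Finset I) : ∃ w, ∀ i ∈ K, Gd i w := by
  classical
  let _ : Inhabited T := Classical.inhabited_of_nonempty inferInstance
  have hT : (0 : ℝ) < Fintype.card T := by exact_mod_cast Fintype.card_pos
  have hd0 : (0 : ℝ) ≤ d := Nat.cast_nonneg _
  have hm0 : (0 : ℝ) ≤ m := Nat.cast_nonneg _
  have hp1 : p < 1 := by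
    have : (1 : ℝ) ≤ (d + 1) ^ 2 * (m + 1) := by nlinarith [mul_nonneg hd0 hm0]
    nlinarith
  obtain ⟨F, hF⟩ : ∃ F : Finset Λ, ∀ i ∈ K, supp i ⊆ F :=
    ⟨K.biUnion supp, fun i hi => Finset.subset_biUnion_of_mem supp hi⟩
  let ext : (F → T) → Λ → T := fun f a => if ha : a ∈ F then f ⟨a, ha⟩ else default
  have hext : ∀ f (a : F), ext f a = f a := fun f a => dif_pos a.2
  have hcard : ∀ i ∈ K, ((supp i).subtype (· ∈ F)).card = (supp i).card := by
    intro i hi
    rw [Finset.card_subtype, Finset.filter_true_of_mem fun a ha => hF i hi ha]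
  have hex := Lib.CountLLL.exists_good (V := F) (α := T)
    (K.filter fun i => (supp i).Nonempty) (fun i => (supp i).subtype (· ∈ F))
    (fun i f => ¬ Gd i (ext f)) ?_ ?_ (fun i => p * (Fintype.card T : ℝ) ^ (supp i).card) ?_
    (Fintype.card T * ((m + 1) / (m + 2))) (by positivity) ?_
  · obtain ⟨f, hf⟩ := hex
    refine ⟨ext f, fun i hi => ?_⟩
    by_cases hne : (supp i).Nonempty
    · exact not_not.1 (hf i (Finset.mem_filter.2 ⟨hi, hne⟩))
    · obtain ⟨B, hB1, hB2⟩ := hp i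
      obtain ⟨w, hw⟩ := exists_good_one (supp i) (Gd i) p hp1 B hB1 hB2
      exact hdep i w _ (fun a ha => (hne ⟨a, ha⟩).elim) hw
  · intro i hi f g hfg h1 h2
    refine h1 (hdep i _ _ (fun a ha => ?_) h2)
    have ha' := hF i (Finset.mem_filter.1 hi).1 ha
    rw [hext g ⟨a, ha'⟩, hext f ⟨a, ha'⟩, hfg ⟨a, ha'⟩ (Finset.mem_subtype.2 ha)]
  · intro i hi
    obtain ⟨hi, a, ha⟩ := Finset.mem_filter.1 hi
    exact ⟨⟨a, hF i hi ha⟩, Finset.mem_subtype.2 ha⟩
  · intro i hi
    obtain ⟨B, hB1, hB2⟩ := hp i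
    refine le_trans ?_ hB1
    norm_cast
    refine Finset.card_le_card_of_injOn (fun f => (supp i).restrict (ext f)) ?_ ?_
    · intro f hf
      simp only [Finset.coe_filter, Set.mem_ofPred_eq] at hf
      exact hB2 _ hf.2.2
    · intro f hf g hg he
      simp only [Finset.coe_filter, Set.mem_ofPred_eq] at hf hg
      funext a
      by_cases ha : (a : Λ) ∈ supp i
      · have := congrFun he ⟨a, ha⟩
        simpa only [Finset.restrict, hext] using this
      · rw [hf.2.1 a (by simpa using ha), hg.2.1 a (by simpa using ha)]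
  · intro v
    have hc : (((K.filter fun i => (supp i).Nonempty).filter
        fun e => v ∈ (supp e).subtype (· ∈ F)).card : ℝ) ≤ d := by
      norm_cast
      rcases ((K.filter fun i => (supp i).Nonempty).filter
        fun e => v ∈ (supp e).subtype (· ∈ F)).eq_empty_or_nonempty with h | ⟨i, hi⟩
      · rw [h]
        simp
      · obtain ⟨t, ht1, ht2⟩ := hd i
        refine le_trans (Finset.card_le_card fun j hj => ht2 j ?_) ht1
        rw [Finset.not_disjoint_iff]
        exact ⟨v, Finset.mem_subtype.1 (Finset.mem_filter.1 hi).2,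
          Finset.mem_subtype.1 (Finset.mem_filter.1 hj).2⟩
    refine (Finset.sum_le_card_nsmul _ _ (3 * p * Fintype.card T) fun i hi => ?_).trans ?_
    · rw [hcard i (Finset.mem_filter.1 (Finset.mem_filter.1 hi).1).1]
      have h1 := pow_le_three m (supp i).card ((hm i).trans (Nat.le_succ m))
      have h2 : p * (Fintype.card T : ℝ) ^ (supp i).card * (Fintype.card T * ((m + 1) / (m + 2))) /
          (Fintype.card T * ((m + 1) / (m + 2))) ^ (supp i).card =
          (((m : ℝ) + 2) / (m + 1)) ^ (supp i).card * p * Fintype.card T * ((m + 1) / (m + 2)) := by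
        rw [mul_pow, div_pow, div_pow]
        field_simp
      rw [h2]
      have h3 : ((m : ℝ) + 1) / (m + 2) ≤ 1 := by
        rw [div_le_one (by positivity)]
        linarith
      calc _ ≤ 3 * p * Fintype.card T * 1 := by gcongr
        _ = _ := mul_one _
    · rw [nsmul_eq_mul]
      have h1 : (Fintype.card T : ℝ) - Fintype.card T * ((m + 1) / (m + 2)) =
          1 / (m + 2) * Fintype.card T := by
        field_simp
        ring
      rw [h1]
      have h2 : d * (3 * p) ≤ 1 / ((m : ℝ) + 2) := by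
        rw [le_div_iff₀ (by positivity)]
        refine le_trans ?_ hJ
        have : (d : ℝ) * 3 * (m + 2) ≤ 8 * (d + 1) ^ 2 * (m + 1) := by
          nlinarith [mul_nonneg hd0 hm0, mul_nonneg (mul_nonneg hd0 hd0) hm0]
        nlinarith
      calc _ ≤ d * (3 * p * Fintype.card T) := by gcongr
        _ = d * (3 * p) * Fintype.card T := by ring
        _ ≤ _ := by gcongr

open Classical in
omit [Fintype T] [Nonempty T] in
theorem count_pow {S : Type} [Fintype S] [Nonempty S] (F : Finset Λ) (Q : (Λ → S) → Prop)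
    (hdep : ∀ w w', (∀ a ∈ F, w a = w' a) → Q w → Q w') (w0 : Λ → S)
    (hp : Fintype.card S ^ F.card ≤ 32 * (Finset.univ.filter fun f : F → S =>
      Q fun a => if ha : a ∈ F then f ⟨a, ha⟩ else w0 a).card) (J : ℕ) :
    ∃ B : Finset (F → Fin J → S),
      (B.card : ℝ) ≤ (31 / 32 : ℝ) ^ J * (Fintype.card (Fin J → S) : ℝ) ^ F.card ∧
        ∀ w : Λ → Fin J → S, ¬ (∃ j, Q fun a => w a j) → F.restrict w ∈ B := by
  have h1 := Finset.card_filter_add_card_filter_not (s := (Finset.univ : Finset (F → S)))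
    (fun f => Q fun a => if ha : a ∈ F then f ⟨a, ha⟩ else w0 a)
  rw [Finset.card_univ, Fintype.card_fun, Fintype.card_coe] at h1
  generalize hB : (Finset.univ.filter fun f : F → S =>
    ¬ Q fun a => if ha : a ∈ F then f ⟨a, ha⟩ else w0 a) = B at h1
  have h2 : (B.card : ℝ) ≤ 31 / 32 * (Fintype.card S : ℝ) ^ F.card := by
    have h3 : 32 * B.card ≤ 31 * Fintype.card S ^ F.card := by omega
    have h4 : (32 : ℝ) * B.card ≤ 31 * (Fintype.card S : ℝ) ^ F.card := by exact_mod_cast h3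
    linarith
  refine ⟨(Fintype.piFinset fun _ : Fin J => B).image fun g a j => g j a, ?_, fun w hw => ?_⟩
  · refine (Nat.cast_le.2 Finset.card_image_le).trans ?_
    rw [Fintype.card_piFinset, Finset.prod_const, Finset.card_univ, Fintype.card_fin,
      Fintype.card_fun, Fintype.card_fin]
    push_cast
    rw [← pow_mul, mul_comm J, pow_mul, ← mul_pow]
    gcongr
  · refine Finset.mem_image.2 ⟨fun j a => w a j, Fintype.mem_piFinset.2 fun j => ?_, rfl⟩
    rw [← hB, Finset.mem_filter]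
    refine ⟨Finset.mem_univ _, fun h => hw ⟨j, hdep _ _ (fun a ha => ?_) h⟩⟩
    rw [dif_pos ha]

end count

section clusters

variable {Λ I T : Type} [DecidableEq Λ] [MeasurableSpace T] [DiscreteMeasurableSpace T]
  [Fintype T] [Nonempty T]

theorem bad_prob (u : Measure T) [IsProbabilityMeasure u]
    (hu : ∀ x, u {x} = (Fintype.card T : ℝ≥0∞)⁻¹) (F : Finset Λ) (Q : (Λ → T) → Prop) (p : ℝ)
    (hp0 : 0 ≤ p) (B : Finset (F → T)) (hB : (B.card : ℝ) ≤ p * (Fintype.card T : ℝ) ^ F.card)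
    (hQ : ∀ w, ¬ Q w → F.restrict w ∈ B) :
    Measure.infinitePi (fun _ : Λ => u) {w | ¬ Q w} ≤ ENNReal.ofReal p := by
  have h0 : {w | ¬ Q w} ⊆ F.restrict ⁻¹' (B : Set (F → T)) := fun w hw => hQ w hw
  refine (measure_mono h0).trans ?_
  rw [meas_restrict u hu]
  have h1 : (B.card : ℝ≥0∞) ≤ ENNReal.ofReal p * (Fintype.card T : ℝ≥0∞) ^ F.card := by
    have := ENNReal.ofReal_le_ofReal hB
    rwa [ENNReal.ofReal_natCast, ENNReal.ofReal_mul hp0, ENNReal.ofReal_pow (Nat.cast_nonneg _),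
      ENNReal.ofReal_natCast] at this
  refine (mul_le_mul_left h1 _).trans ?_
  rw [mul_assoc, ← mul_pow, ENNReal.mul_inv_cancel (by simp) (by simp), one_pow, mul_one]

omit [Nonempty T] in
theorem ae_finite [Countable I] (u : Measure T) [IsProbabilityMeasure u] (supp : I → Finset Λ)
    (Gd : I → (Λ → T) → Prop)
    (hdep : ∀ i w w', (∀ a ∈ supp i, w a = w' a) → Gd i w → Gd i w') (d : ℕ)
    (hd : ∀ i, ∃ t : Finset I, t.card ≤ d ∧ ∀ i', ¬ Disjoint (supp i) (supp i') → i' ∈ t)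
    (p : ℝ≥0∞) (hp : ∀ i, Measure.infinitePi (fun _ : Λ => u) {w | ¬ Gd i w} ≤ p)
    (hJ : ((d * d : ℕ) : ℝ≥0∞) * p < 1) :
    ∀ᵐ w ∂Measure.infinitePi (fun _ : Λ => u), ∀ i, {j | Relation.ReflTransGen
      (fun x y => ¬ Gd x w ∧ ¬ Gd y w ∧ ¬ Disjoint (supp x) (supp y)) i j}.Finite := by
  classical
  choose nb hnb1 hnb2 using hd
  rw [ae_all_iff]
  intro i
  rw [ae_iff]
  refine le_antisymm (ge_of_tendsto' (ENNReal.tendsto_pow_atTop_nhds_zero_of_lt_one hJ)
    fun N => ?_) zero_le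
  obtain ⟨A, F', -, -, h1, h2⟩ := perc u supp (fun i => {w | ¬ Gd i w})
    (fun i w w' h h1 h2 => h1 (hdep i w' w (fun a ha => (h a ha).symm) h2))
    (fun i => (nb i).biUnion nb) (d * d)
    (fun i => (Finset.card_biUnion_le_card_mul _ _ d fun j _ => hnb1 j).trans
      (Nat.mul_le_mul_right _ (hnb1 i))) p hp N i ∅
  refine le_trans (measure_mono fun w hw => ?_) h1
  obtain ⟨s, hs0, hs1, hs2⟩ := exists_induced nb (fun x y h => hnb2 x y h.2.2) i hw (2 * N + 1)
  refine h2 w (fun k => s (2 * k)) hs0 (fun k hk => ⟨?_, ?_, by simp⟩) fun k l hkl hl => ?_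
  · exact Finset.mem_biUnion.2 ⟨s (2 * k + 1), hnb2 _ _ (hs1 _ (by omega)).2.2,
      hnb2 _ _ (hs1 (2 * k + 1) (by omega)).2.2⟩
  · exact (hs1 (2 * (k + 1)) (by omega)).1
  · by_contra h
    exact hs2 (2 * (k + 1)) (2 * (l + 1)) (by omega) (by omega)
      ⟨(hs1 _ (by omega)).1, (hs1 _ (by omega)).1, fun h' => h h'.symm⟩

end clusters

end Crest.Agent.R192.LLLAux
end

-- ▼ part PVc/R192/LLL
section

/-! Row 192: an invariant local lemma (two-stage shattering). -/

set_option autoImplicit false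

namespace Crest.Agent.R192

open Crest.AlgebraR.L1 MeasureTheory Matrix
open scoped ContDiff BoundedContinuousFunction

namespace LLLAux

open scoped ENNReal

theorem act_preserving {G Λ T : Type} [Group G] [MulAction G Λ] [MeasurableSpace T]
    (u : Measure T) [IsProbabilityMeasure u] (h : G) :
    MeasurePreserving (act h) (Measure.infinitePi fun _ : Λ => u)
      (Measure.infinitePi fun _ : Λ => u) :=
  ⟨measurable_pi_lambda _ fun _ => measurable_pi_apply _,
    Measure.map_infinitePi_infinitePi_of_inj (P := fun _ : Λ => u) (MulAction.injective h⁻¹)⟩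

theorem core {G Λ I T : Type} [Group G] [MulAction G Λ] [MulAction G I] [DecidableEq Λ]
    [Countable I] [Fintype T] [Nonempty T] [MeasurableSpace T] [DiscreteMeasurableSpace T]
    (supp : I → Finset Λ) (Gd : I → (Λ → T) → Prop)
    (hdep : ∀ i w w', (∀ a ∈ supp i, w a = w' a) → Gd i w → Gd i w')
    (hsupp : ∀ (h : G) i a, h • a ∈ supp (h • i) ↔ a ∈ supp i)
    (hgood : ∀ (h : G) i w, Gd (h • i) (act h w) ↔ Gd i w)
    (d m : ℕ) (hm : ∀ i, (supp i).card ≤ m)
    (hd : ∀ i, ∃ t : Finset I, t.card ≤ d ∧ ∀ i', ¬ Disjoint (supp i) (supp i') → i' ∈ t)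
    (p : ℝ) (hp0 : 0 ≤ p) (hp : ∀ i, ∃ B : Finset (supp i → T),
      (B.card : ℝ) ≤ p * (Fintype.card T : ℝ) ^ (supp i).card ∧
        ∀ w, ¬ Gd i w → (supp i).restrict w ∈ B)
    (hJ : p * (8 * (d + 1) ^ 2 * (m + 1)) ≤ 1) :
    ∃ (μ : Measure (ℕ → Λ → T)) (τ : (ℕ → Λ → T) → Λ → ℕ), IsProbabilityMeasure μ ∧
      (∀ h : G, MeasurePreserving (fun (ϖ : ℕ → Λ → T) t => act h (ϖ t)) μ μ) ∧
      (∀ a, Measurable fun ϖ => τ ϖ a) ∧
      (∀ (h : G) ϖ a, τ (fun t => act h (ϖ t)) (h • a) = τ ϖ a) ∧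
      ∀ᵐ ϖ ∂μ, ∀ i, Gd i (ϖ 0) ∨ Gd i fun a => ϖ (τ ϖ a) a := by
  classical
  obtain ⟨u, hu0, hu⟩ : ∃ u : Measure T, IsProbabilityMeasure u ∧
      ∀ x, u {x} = (Fintype.card T : ℝ≥0∞)⁻¹ :=
    ⟨ProbabilityTheory.uniformOn Set.univ, inferInstance, fun x => by
      simp [ProbabilityTheory.uniformOn_univ]⟩
  have hmG : ∀ i, Measurable (Gd i) := fun i =>
    measurableSet_setOfPred.1 (meas_of_dep (A := {w | Gd i w}) (hdep i))
  have hmG' : ∀ i t, Measurable fun ϖ : ℕ → Λ → T => Gd i (ϖ t) := fun i t =>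
    (hmG i).comp (measurable_pi_apply t)
  obtain ⟨r, hr⟩ : ∃ r : (Λ → T) → I → I → Prop, ∀ w,
      r w = fun x y => ¬ Gd x w ∧ ¬ Gd y w ∧ ¬ Disjoint (supp x) (supp y) := ⟨_, fun _ => rfl⟩
  have hr1 : ∀ (h : G) w x y, r (act h w) (h • x) (h • y) ↔ r w x y := by
    intro h w x y
    simp only [hr, hgood, Finset.disjoint_left]
    rw [(MulAction.surjective h).forall]
    simp only [hsupp]
  have hr2 : ∀ (h : G) w x y, Relation.ReflTransGen (r (act h w)) (h • x) (h • y) ↔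
      Relation.ReflTransGen (r w) x y := by
    intro h w x y
    refine ⟨fun H => ?_, fun H => H.lift (h • ·) fun a b hab => (hr1 h w a b).2 hab⟩
    have : Relation.ReflTransGen (r w) (h⁻¹ • h • x) (h⁻¹ • h • y) :=
      H.lift (p := r w) (h⁻¹ • ·) fun a b hab => (hr1 h w _ _).1 (by
        rwa [smul_inv_smul, smul_inv_smul])
    simpa only [inv_smul_smul] using this
  refine ⟨Measure.infinitePi fun _ : ℕ => Measure.infinitePi fun _ : Λ => u,
    fun ϖ a => sInf {t | ∀ j, (∃ i, a ∈ supp i ∧ ¬ Gd i (ϖ 0) ∧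
      Relation.ReflTransGen (r (ϖ 0)) i j) → Gd j (ϖ t)}, inferInstance, fun h => ?_,
    fun a => ?_, fun h ϖ a => ?_, ?_⟩
  · have h1 := act_preserving (Λ := Λ) u h
    refine ⟨measurable_pi_lambda _ fun t => h1.measurable.comp (measurable_pi_apply t), ?_⟩
    rw [Measure.infinitePi_map_pi _ (f := fun _ => act h) fun _ => h1.measurable]
    simp only [h1.map_eq]
  · refine meas_sInf.comp (measurable_pi_lambda _ fun t => Measurable.forall fun j => ?_)
    refine Measurable.imp (Measurable.exists fun i => measurable_const.and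
      ((hmG' i 0).not.and (meas_rtg (fun x y => ?_) i j))) (hmG' j t)
    simp only [hr]
    exact (hmG' x 0).not.and ((hmG' y 0).not.and measurable_const)
  · refine congrArg sInf (Set.ext fun t => ?_)
    simp only [Set.mem_ofPred_eq]
    rw [(MulAction.surjective h).forall]
    refine forall_congr' fun j => ?_
    rw [(MulAction.surjective h).exists]
    simp only [hsupp, hgood, hr2]
  · have hd0 : (0 : ℝ) ≤ d := Nat.cast_nonneg _
    have hm0 : (0 : ℝ) ≤ m := Nat.cast_nonneg _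
    have h1 := ae_finite u supp Gd hdep d hd (ENNReal.ofReal p) (fun i => by
      obtain ⟨B, hB1, hB2⟩ := hp i
      exact bad_prob u hu _ _ p hp0 B hB1 hB2) (by
      rw [← ENNReal.ofReal_natCast, ← ENNReal.ofReal_mul (Nat.cast_nonneg _),
        ENNReal.ofReal_lt_one]
      push_cast
      have : 2 * ((d : ℝ) * d) ≤ 8 * (d + 1) ^ 2 * (m + 1) := by
        nlinarith [mul_nonneg hd0 hm0, mul_nonneg (mul_nonneg hd0 hd0) hm0]
      nlinarith)
    have h2 := (measurePreserving_eval_infinitePi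
      (fun _ : ℕ => Measure.infinitePi fun _ : Λ => u) 0).quasiMeasurePreserving.ae h1
    have h3 : ∀ᵐ ϖ ∂Measure.infinitePi fun _ : ℕ => Measure.infinitePi fun _ : Λ => u,
        ∀ K : Finset I, ∃ t, ϖ t ∈ {w | ∀ i ∈ K, Gd i w} := by
      rw [ae_all_iff]
      intro K
      have h4 : ∀ w w', (∀ a ∈ K.biUnion supp, w a = w' a) → w ∈ {w | ∀ i ∈ K, Gd i w} →
          w' ∈ {w | ∀ i ∈ K, Gd i w} := fun w w' h h' i hi =>
        hdep i w w' (fun a ha => h a (Finset.mem_biUnion.2 ⟨i, hi, ha⟩)) (h' i hi)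
      exact ae_exists_mem _ (meas_of_dep h4)
        (pos_of_dep u hu h4 (lll supp Gd hdep d m hm hd p hp0 hp hJ K))
    filter_upwards [h2, h3] with ϖ h4 h5 i
    by_cases hi : Gd i (ϖ 0)
    · exact Or.inl hi
    right
    obtain ⟨t, ht⟩ := h5 (h4 i).toFinset
    have h6 : {t | ∀ j, Relation.ReflTransGen (r (ϖ 0)) i j → Gd j (ϖ t)}.Nonempty :=
      ⟨t, fun j hj => ht j ((Set.Finite.mem_toFinset _).2 (by rwa [hr] at hj))⟩
    refine hdep i _ _ (fun a ha => ?_) (Nat.sInf_mem h6 i Relation.ReflTransGen.refl)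
    congr 2
    ext t
    refine forall_congr' fun j => imp_congr_left ⟨fun hj => ⟨i, ha, hi, hj⟩, ?_⟩
    rintro ⟨i', h7, h8, h9⟩
    refine Relation.ReflTransGen.head ?_ h9
    rw [hr]
    exact ⟨hi, h8, Finset.not_disjoint_iff.2 ⟨a, ha, h7⟩⟩

end LLLAux

open Classical in
/-- `Good i` depends only on the coordinates in `supp i`, holds for a fraction `≥ 1/32` of the
assignments, and meets at most `d` other supports.  Then there is an invariant random family of `2 J`
assignments such that almost surely every `Good i` holds for one of them. -/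
theorem invariant_lll {G Λ I S : Type} [Group G] [MulAction G Λ] [MulAction G I] [Countable Λ]
    [Countable I] [Fintype S] [Nonempty S] [MeasurableSpace S] [DiscreteMeasurableSpace S]
    (supp : I → Finset Λ) (Good : I → (Λ → S) → Prop)
    (hdep : ∀ i w w', (∀ a ∈ supp i, w a = w' a) → Good i w → Good i w')
    (hsupp : ∀ (h : G) i a, h • a ∈ supp (h • i) ↔ a ∈ supp i)
    (hgood : ∀ (h : G) i w, Good (h • i) (act h w) ↔ Good i w)
    (d m J : ℕ) (hm : ∀ i, (supp i).card ≤ m)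
    (hd : ∀ i, ∃ t : Finset I, t.card ≤ d ∧ ∀ i', ¬ Disjoint (supp i) (supp i') → i' ∈ t)
    (hp : ∀ i (w0 : Λ → S), Fintype.card S ^ (supp i).card ≤ 32 *
      (Finset.univ.filter fun f : supp i → S =>
        Good i fun a => if ha : a ∈ supp i then f ⟨a, ha⟩ else w0 a).card)
    (hJ : (31 / 32 : ℝ) ^ J * (8 * (d + 1) ^ 2 * (m + 1)) ≤ 1) :
    ∃ P : Measure (Λ → Fin (2 * J) → S), IsProbabilityMeasure P ∧
      (∀ h : G, MeasurePreserving (act h) P P) ∧
      ∀ᵐ w ∂P, ∀ i, ∃ j, Good i fun a => w a j := by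
  obtain ⟨μ, τ, hμ, hinv, hτm, hτ, hae⟩ := LLLAux.core (G := G) (T := Fin J → S) supp
    (fun i w => ∃ j, Good i fun a => w a j)
    (fun i w w' h ⟨j, hj⟩ => ⟨j, hdep i _ _ (fun a ha => by rw [h a ha]) hj⟩) hsupp
    (fun h i w => exists_congr fun j => hgood h i fun a => w a j) d m hm hd ((31 / 32 : ℝ) ^ J)
    (by positivity) (fun i => LLLAux.count_pow (supp i) (Good i) (hdep i) _
      (hp i fun _ => Classical.arbitrary S) J) hJ
  let Φ : (ℕ → Λ → Fin J → S) → Λ → Fin (2 * J) → S := fun ϖ a j =>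
    if hj : (j : ℕ) < J then ϖ 0 a ⟨j, hj⟩ else ϖ (τ ϖ a) a ⟨j - J, by omega⟩
  have hΦ : Measurable Φ := by
    refine measurable_pi_lambda _ fun a => measurable_pi_lambda _ fun j => ?_
    by_cases hj : (j : ℕ) < J
    · simp only [Φ, dif_pos hj]
      fun_prop
    · simp only [Φ, dif_neg hj]
      have h1 : Measurable fun p : (ℕ → Λ → Fin J → S) × ℕ => p.1 p.2 a ⟨j - J, by omega⟩ :=
        measurable_from_prod_countable_left fun t => by fun_prop
      exact h1.comp (measurable_id.prodMk (hτm a))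
  refine ⟨μ.map Φ, Measure.isProbabilityMeasure_map hΦ.aemeasurable, fun h => ?_, ?_⟩
  · have h1 : Measurable (act h : (Λ → Fin (2 * J) → S) → Λ → Fin (2 * J) → S) :=
      measurable_pi_lambda _ fun _ => measurable_pi_apply _
    refine ⟨h1, ?_⟩
    have h2 : act h ∘ Φ = Φ ∘ fun ϖ t => act h (ϖ t) := by
      funext ϖ a j
      have h3 := hτ h ϖ (h⁻¹ • a)
      rw [smul_inv_smul] at h3
      simp only [Function.comp, Φ, h3]
      rfl
    rw [Measure.map_map h1 hΦ, h2, ← Measure.map_map hΦ (hinv h).measurable, (hinv h).map_eq]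
  · rw [ae_map_iff hΦ.aemeasurable]
    · filter_upwards [hae] with ϖ hϖ i
      rcases hϖ i with ⟨j, hj⟩ | ⟨j, hj⟩
      · refine ⟨⟨j, by omega⟩, ?_⟩
        simpa only [Φ, dif_pos j.2] using hj
      · refine ⟨⟨J + j, by omega⟩, ?_⟩
        have h1 : ¬ J + j < J := by omega
        simpa only [Φ, dif_neg h1, Nat.add_sub_cancel_left] using hj
    · refine measurableSet_setOfPred.2 (Measurable.forall fun i => ?_)
      refine measurableSet_setOfPred.1 (LLLAux.meas_of_dep (F := supp i)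
        (A := {w : Λ → Fin (2 * J) → S | ∃ j, Good i fun a => w a j}) ?_)
      rintro w w' h ⟨j, hj⟩
      exact ⟨j, hdep i _ _ (fun a ha => by rw [h a ha]) hj⟩

end Crest.Agent.R192
end

-- ▼ part PVc/R192/Lab5
section

/-! Row 192: existence of labels with polynomial constants. -/

set_option autoImplicit false

namespace Crest.Agent.R192

open Crest.AlgebraR.L1 MeasureTheory Matrix
open scoped ContDiff BoundedContinuousFunction

variable {G : Type} [Group G] [TopologicalSpace G] [DiscreteTopology G]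

namespace Lab5

omit [TopologicalSpace G] [DiscreteTopology G] in
theorem exists_rho (f : G → ℝ) (C : ℝ) (hf : ∀ z, |f z| ≤ C) :
    ∃ ϱ : G → ℝ, (∀ g, 0 ≤ ϱ g) ∧ ϱ 1 = 0 ∧ (∀ g, ϱ g⁻¹ = ϱ g) ∧
      (∀ g g', ϱ (g * g') ≤ ϱ g + ϱ g') ∧ (∀ g z, |f z - f (g⁻¹ * z)| ≤ ϱ g) ∧
      ∀ g a, (∀ z, |f z - f (g⁻¹ * z)| ≤ a) → ϱ g ≤ a := by
  have h1 : ∀ g z : G, |f z - f (g⁻¹ * z)| ≤ ⨆ z, |f z - f (g⁻¹ * z)| := fun g z =>
    le_ciSup (f := fun z => |f z - f (g⁻¹ * z)|) ⟨C + C, by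
      rintro _ ⟨y, rfl⟩
      exact (abs_sub _ _).trans (add_le_add (hf _) (hf _))⟩ z
  have h2 : ∀ g : G, ⨆ z, |f z - f (g⁻¹⁻¹ * z)| ≤ ⨆ z, |f z - f (g⁻¹ * z)| := fun g =>
    ciSup_le fun z => by
      have := h1 g (g * z)
      rwa [inv_mul_cancel_left, abs_sub_comm, ← inv_inv g, inv_inv g⁻¹] at this
  refine ⟨fun g => ⨆ z, |f z - f (g⁻¹ * z)|, fun g => (abs_nonneg _).trans (h1 g 1), ?_,
    fun g => le_antisymm (h2 g) ?_, fun g g' => ciSup_le fun z => ?_, h1,
    fun g a ha => ciSup_le ha⟩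
  · simp
  · simpa only [inv_inv] using h2 g⁻¹
  · have a1 := h1 g z
    have a2 := h1 g' (g⁻¹ * z)
    have a3 := abs_sub_le (f z) (f (g⁻¹ * z)) (f (g'⁻¹ * (g⁻¹ * z)))
    rw [_root_.mul_inv_rev, mul_assoc]
    linarith

/-- labels with the number of the system -/
def PL (Λ T : Type) : Type := Λ × T

instance {Λ T : Type} [MulAction G Λ] : MulAction G (PL Λ T) where
  smul h l := (h • l.1, l.2)
  one_smul l := Prod.ext (one_smul G l.1) rfl
  mul_smul a b l := Prod.ext (mul_smul a b l.1) rfl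

/-- polynomially bounded -/
def PB (f : ℕ → ℕ) : Prop := ∃ C k : ℕ, ∀ R, 0 < R → f R ≤ C * R ^ k

theorem PB.const (a : ℕ) : PB fun _ => a := ⟨a, 0, fun _ _ => by simp⟩

theorem PB.id : PB fun R => R := ⟨1, 1, fun _ _ => by simp⟩

theorem PB.add {f g : ℕ → ℕ} (hf : PB f) (hg : PB g) : PB fun R => f R + g R := by
  obtain ⟨C, k, h⟩ := hf
  obtain ⟨C', k', h'⟩ := hg
  refine ⟨C + C', k + k', fun R hR => ?_⟩
  rw [add_mul]
  exact add_le_add ((h R hR).trans (Nat.mul_le_mul_left _ (Nat.pow_le_pow_right hR (by omega))))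
    ((h' R hR).trans (Nat.mul_le_mul_left _ (Nat.pow_le_pow_right hR (by omega))))

theorem PB.mul {f g : ℕ → ℕ} (hf : PB f) (hg : PB g) : PB fun R => f R * g R := by
  obtain ⟨C, k, h⟩ := hf
  obtain ⟨C', k', h'⟩ := hg
  refine ⟨C * C', k + k', fun R hR => (Nat.mul_le_mul (h R hR) (h' R hR)).trans (le_of_eq ?_)⟩
  ring

theorem PB.pow {f : ℕ → ℕ} (hf : PB f) (n : ℕ) : PB fun R => f R ^ n := by
  obtain ⟨C, k, h⟩ := hf
  refine ⟨C ^ n, k * n, fun R hR => (Nat.pow_le_pow_left (h R hR) n).trans (le_of_eq ?_)⟩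
  rw [mul_pow, pow_mul]

def pM (z : ℕ) : ℕ := 512 * z ^ 3
def pz1 (z : ℕ) : ℕ := z * (pM z + 1)
def pE (z : ℕ) : ℕ := 1 + z + pz1 z + (pz1 z + 5) ^ 2
def pB (z : ℕ) : ℕ := 16 * z * pE z
def pM' (z : ℕ) : ℕ := 32 * pB z ^ 2 * z
def pz2 (z : ℕ) : ℕ := z * (pM' z + 1)
def pJ (z : ℕ) : ℕ := 32 * (6 + 2 * pz2 z + pz1 z)
def pZ (K z : ℕ) : ℕ := K * pB z + 2 * pJ z + (13 * z ^ 2 + 1)

theorem PB_pZ (K : ℕ) {f : ℕ → ℕ} (hf : PB f) : PB fun R => pZ K (f R) := by
  have hM : PB fun R => pM (f R) := (PB.const _).mul (hf.pow _)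
  have h1 : PB fun R => pz1 (f R) := hf.mul (hM.add (PB.const _))
  have hE : PB fun R => pE (f R) :=
    (((PB.const _).add hf).add h1).add ((h1.add (PB.const _)).pow _)
  have hB : PB fun R => pB (f R) := ((PB.const _).mul hf).mul hE
  have hM' : PB fun R => pM' (f R) := ((PB.const _).mul (hB.pow _)).mul hf
  have h2 : PB fun R => pz2 (f R) := hf.mul (hM'.add (PB.const _))
  have hJ : PB fun R => pJ (f R) :=
    (PB.const _).mul (((PB.const _).add ((PB.const _).mul h2)).add h1)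
  exact (((PB.const _).mul hB).add ((PB.const _).mul hJ)).add
    (((PB.const _).mul (hf.pow _)).add (PB.const _))

theorem two_pow_lt_exp {n : ℕ} (hn : 0 < n) : (2 : ℝ) ^ n < Real.exp n := by
  rw [← mul_one (n : ℝ), Real.exp_nat_mul]
  exact pow_lt_pow_left₀ (by linarith [Real.exp_one_gt_d9]) (by norm_num) hn.ne'

theorem net_cond {a z : ℕ} (h : a < z) : 2 * (2 : ℝ) ^ a < Real.exp z := by
  refine lt_of_le_of_lt ?_ (two_pow_lt_exp (by omega))
  rw [← pow_succ']
  exact pow_le_pow_right₀ (by norm_num) h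

omit [TopologicalSpace G] [DiscreteTopology G] in
theorem card_le (ℓ : Len G) {r r' n n' M z : ℕ} (h1 : ℓ.D * r ≤ z) (h2 : ℓ.D * r' + 1 ≤ z)
    (h3 : n ≤ 2 ^ ((ℓ.D * r' + 1) * M)) (h4 : n' ≤ n) :
    (ℓ.ball r).card * n' ≤ 2 ^ (z * (M + 1)) := by
  rw [mul_add, mul_one, pow_add, mul_comm (2 ^ (z * M))]
  exact Nat.mul_le_mul ((ℓ.card_ball r).trans (Nat.pow_le_pow_right two_pos h1))
    (h4.trans (h3.trans (Nat.pow_le_pow_right two_pos (Nat.mul_le_mul_right _ h2))))

theorem J_cond {d z1 z2 : ℕ} (hd : d ≤ 2 ^ z2) :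
    (31 / 32 : ℝ) ^ (32 * (6 + 2 * z2 + z1)) *
      (8 * ((d : ℝ) + 1) ^ 2 * (((2 ^ z1 : ℕ) : ℝ) + 1)) ≤ 1 := by
  have h1 : (d : ℝ) + 1 ≤ 2 * 2 ^ z2 := by
    have a1 : (d : ℝ) ≤ 2 ^ z2 := by exact_mod_cast hd
    have a2 : (1 : ℝ) ≤ 2 ^ z2 := one_le_pow₀ one_le_two
    linarith
  have h2 : ((2 ^ z1 : ℕ) : ℝ) + 1 ≤ 2 * 2 ^ z1 := by
    have a2 : (1 : ℝ) ≤ 2 ^ z1 := one_le_pow₀ one_le_two
    push_cast
    linarith
  have h3 : (31 / 32 : ℝ) ^ (32 * (6 + 2 * z2 + z1)) ≤ (1 / 2) ^ (6 + 2 * z2 + z1) := by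
    rw [pow_mul]
    exact pow_le_pow_left₀ (by positivity) (by norm_num) _
  calc _ ≤ (1 / 2 : ℝ) ^ (6 + 2 * z2 + z1) * (8 * (2 * 2 ^ z2) ^ 2 * (2 * 2 ^ z1)) := by gcongr
    _ = (1 / 2 : ℝ) ^ (6 + 2 * z2 + z1) * 2 ^ (6 + 2 * z2 + z1) := by ring
    _ = 1 := by rw [← mul_pow]; norm_num

theorem far_cond {b : ℕ} {Z : ℝ} (hZ : 13 * (b : ℝ) ^ 2 + 1 ≤ Z) :
    Real.exp (-Z) ≤ 1 / ((13 * (b : ℝ)) ^ b + 1) := by
  rw [Real.exp_neg, ← one_div]
  refine one_div_le_one_div_of_le (by positivity) (le_trans ?_ (Real.exp_le_exp.2 hZ))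
  have h1 : (13 * (b : ℝ)) ^ b ≤ Real.exp (13 * (b : ℝ) ^ 2) := by
    rw [show 13 * (b : ℝ) ^ 2 = b * (13 * b) by ring, Real.exp_nat_mul]
    exact pow_le_pow_left₀ (by positivity) (by linarith [Real.add_one_le_exp (13 * (b : ℝ))]) _
  have h2 : 1 ≤ Real.exp (13 * (b : ℝ) ^ 2) := Real.one_le_exp (by positivity)
  have h3 : 2 ≤ Real.exp 1 := by linarith [Real.add_one_le_exp 1]
  rw [Real.exp_add]
  nlinarith

end Lab5

open Lab5

/-- the angles -/
theorem exists_angle (ℓ : Len G) (R b : ℕ) (hR : 0 < R) (hb : ℓ.D * (2 * R) < b) :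
    ∃ ϑ : G → (G → ℝ) → ℝ, (∀ c η (m : ℤ), c ^ m = 1 → ee (ϑ c η * m) = 1) ∧
      ∀ c η, 4 / 5 ≤ η 1 → (¬ IsOfFinOrder c ∨ 8 * R * ((13 * b) ^ b + 1) < ℓ.len c) →
        1 / ((13 * (b : ℝ)) ^ b + 1) ≤ ‖1 - ee (ϑ c η)‖ ∧
        ∀ m : ℤ, (∀ z, |fη ℓ R η z - fη ℓ R η ((c ^ m)⁻¹ * z)| ≤ 2 * (1 / (8 * b))) →
          ‖ee (ϑ c η * m) - 1‖ ≤ 1 / 2 := by
  have hb0 : (0 : ℝ) < b := by exact_mod_cast (Nat.zero_le _).trans_lt hb
  have key : ∀ (c : G) (η : G → ℝ), ∃ ϑ : ℝ, (∀ m : ℤ, c ^ m = 1 → ee (ϑ * m) = 1) ∧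
      (4 / 5 ≤ η 1 → (¬ IsOfFinOrder c ∨ 8 * R * ((13 * b) ^ b + 1) < ℓ.len c) →
        1 / ((13 * (b : ℝ)) ^ b + 1) ≤ ‖1 - ee ϑ‖ ∧
        ∀ m : ℤ, (∀ z, |fη ℓ R η z - fη ℓ R η ((c ^ m)⁻¹ * z)| ≤ 2 * (1 / (8 * b))) →
          ‖ee (ϑ * m) - 1‖ ≤ 1 / 2) := by
    intro c η
    by_cases H : 4 / 5 ≤ η 1 ∧ (¬ IsOfFinOrder c ∨ 8 * R * ((13 * b) ^ b + 1) < ℓ.len c)
    · obtain ⟨ϱ, r0, r1, r2, r3, r4, r5⟩ := exists_rho (fη ℓ R η)
        (∑ z ∈ ℓ.ball (2 * R), |max 0 (η z - 1 / 2)|) fun z => by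
          unfold fη
          split_ifs with hz
          · exact Finset.single_le_sum (f := fun z => |max 0 (η z - 1 / 2)|)
              (fun _ _ => abs_nonneg _) hz
          · rw [abs_zero]
            exact Finset.sum_nonneg fun _ _ => abs_nonneg _
      obtain ⟨ϑ, h1, h2, h3⟩ := exists_char ℓ c ϱ (3 / 10) (by norm_num) (2 * R) b hb r0 r1 r2 r3
        (fun g hg => by
          by_contra hcon
          have a1 := r4 g 1
          have a2 : fη ℓ R η (g⁻¹ * 1) = 0 := by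
            unfold fη
            rw [if_neg]
            rwa [mul_one, ℓ.mem_ball, ℓ.len_inv]
          have a3 : 3 / 10 ≤ fη ℓ R η 1 := by
            unfold fη
            rw [if_pos (by rw [ℓ.mem_ball, ℓ.len_one]; exact Nat.zero_le _)]
            exact le_max_of_le_right (by linarith [H.1])
          rw [a2, sub_zero] at a1
          linarith [le_abs_self (fη ℓ R η 1)])
        (by rw [show 4 * (2 * R) = 8 * R by ring]; exact H.2)
      refine ⟨ϑ, h1, fun _ _ => ⟨h2, fun m hm => h3 m ?_⟩⟩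
      have a1 := mul_le_mul_of_nonneg_left (r5 _ _ hm) hb0.le
      have a2 : (b : ℝ) * (2 * (1 / (8 * b))) = 1 / 4 := by field_simp; norm_num
      linarith
    · refine ⟨0, fun m _ => ?_, fun h1 h2 => absurd ⟨h1, h2⟩ H⟩
      simpa using ee_int 0
  choose ϑ h1 h2 using key
  exact ⟨ϑ, h1, h2⟩

/-- assembling the labels from parameters -/
theorem labels_of_params (ℓ : Len G) (R L0 : ℕ) (p : LP G) (h : p.Ok ℓ R) (Sh' : Finset (G → ℝ))
    (w' Z : ℝ) (J : ℕ)
    (hnet : ∀ μ : G →₀ ℝ, IsProb μ → ∀ x, 9 / 10 ≤ feat ℓ R μ x →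
      ∃ η ∈ p.Sh, ∀ z ∈ ℓ.ball (2 * R), |feat ℓ R μ (x * z) - η z| ≤ p.t / 2)
    (hnet' : ∀ μ : G →₀ ℝ, IsProb μ → ∀ x,
      ∃ η ∈ Sh', ∀ z ∈ ℓ.ball (4 * R), |feat ℓ R μ (x * z) - η z| ≤ w')
    (hw' : 4 * p.β * w' ≤ 1) (hQ : 32 * p.N1 ≤ p.Q) (hP : 22 * p.N1 ≤ 2 ^ p.P)
    (hβ : 2 * (ℓ.ball (2 * R)).card * p.N1 * (p.Q : ℝ) ^ p.P ≤ Real.exp (p.β * p.t / 2))
    (hJ : (31 / 32 : ℝ) ^ J *
      (8 * (((ℓ.ball (4 * R)).card * Sh'.card : ℕ) + 1) ^ 2 * (p.N1 + 1)) ≤ 1)
    (hϑ : ∀ c, ∀ η ∈ p.Sh, (¬ IsOfFinOrder c ∨ L0 < ℓ.len c) →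
      Real.exp (-Z) ≤ ‖1 - ee (p.ϑ c η)‖ ∧
        ∀ m : ℤ, (∀ z, |fη ℓ R η z - fη ℓ R η ((c ^ m)⁻¹ * z)| ≤ 2 * p.t) →
          ‖ee (p.ϑ c η * m) - 1‖ ≤ 1 / 2)
    (hZ : 22 * Ksig * (1 + 4 * Ksig) * p.β ≤ Z) (hZ' : 2 * (J : ℝ) ≤ Z) :
    Nonempty (Labels ℓ R L0 Z) := by
  have : Countable G := ℓ.countable
  have : Countable (Lab p) := OT.countable
  have : Countable (OT G Sh') := OT.countable
  have : Nonempty (Fin p.Q) := ⟨⟨0, h.Q_pos⟩⟩
  obtain ⟨P, hP1, hP2, hP3⟩ := invariant_lll (G := G) (S := Fin p.Q)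
    (fun i : OT G Sh' => esupp ℓ R p i) (GoodEv ℓ R p Sh' w') (goodEv_dep h Sh' w')
    (fun g i a => esupp_smul g i a) (goodEv_smul Sh' w') ((ℓ.ball (4 * R)).card * Sh'.card) p.N1 J
    (card_esupp h) (fun i => by simpa only [Fintype.card_coe] using esupp_deg (p := p) i)
    (fun i w0 => by convert goodEv_prob h Sh' w' hnet hw' hQ hP hβ i w0) hJ
  have hadm : ∀ l : Lab p, Adm ℓ L0 l.c → ¬ IsOfFinOrder (l.base⁻¹ * l.c * l.base) ∨
      L0 < ℓ.len (l.base⁻¹ * l.c * l.base) := fun l hl =>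
    hl.imp (fun h1 h2 => h1 (IsConj.isOfFinOrder (isConj_iff.2 ⟨l.base, by group⟩) h2))
      fun h1 => h1 _
  have hK := one_le_Ksig
  have hβ0 := h.β_pos
  have hZ2 : 20 * (1 + 4 * Ksig) * p.β ≤ Z := by
    refine le_trans ?_ hZ
    gcongr
    linarith
  have hZ0 : 0 < Z := lt_of_lt_of_le (by positivity) hZ2
  refine ⟨{
    Λ := Lab p
    S := Fin (2 * J) → Fin p.Q
    L := PL (Lab p) (Fin (2 * J))
    P := P
    prob := hP1
    inv := hP2
    cls := fun l => l.1.c
    chi := fun l => ee (ang p l.1)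
    Y := fun w l => Y1 ℓ R p (fun a => w a l.2) l.1
    Act := fun w l μ => 6 / 10 < share ℓ R p (fun a => w a l.2) l.1 (feat ℓ R μ)
    cls_smul := fun _ _ => rfl
    chi_smul := fun g l => congrArg ee (ang_smul g l.1)
    norm_chi := fun _ => norm_ee _
    chi_far := fun l hl => (hϑ _ _ l.1.tag.2 (hadm l.1 hl)).1
    smooth := fun _ _ μ => Y1_smooth h _ _ μ
    fin := fun c X => ?_
    quasi := fun _ _ μ => Y1_quasi h _ _ μ
    equiv := fun g l => ?_
    norm_le := fun _ _ μ _ => Y1_norm_le h _ _ μ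
    fderiv_le := fun _ _ _ hμ => (Y1_fderiv_le h _ _ hμ).trans hZ
    inactive := fun _ _ μ _ hA => Y1_inactive h _ _ μ (not_lt.1 hA)
    mult := fun w c s μ h1 h2 => ?_
    lower := ?_ }⟩
  · obtain ⟨F, hF1, hF2⟩ := Y1_fin h c X
    refine ⟨(F ×ˢ (Finset.univ : Finset (Fin (2 * J))) : Finset (Lab p × Fin (2 * J))), F,
      fun l hl => hF1 _ (Finset.mem_product.1 hl).1, fun μ hμ => ⟨fun w l hc hl => ?_,
        fun w w' hw l hl => ?_⟩⟩
    · exact (hF2 μ hμ).1 _ _ hc fun h3 => hl (Finset.mem_product.2 ⟨h3, Finset.mem_univ _⟩)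
    · exact (hF2 μ hμ).2 _ _ (fun a ha => by rw [hw a ha]) _ (Finset.mem_product.1 hl).1
  · obtain ⟨u, hu, hu'⟩ := Y1_equiv h g l.1
    exact ⟨u, hu, fun w μ => hu' (fun a => w a l.2) μ⟩
  · have h3 : s.card ≤ (Finset.univ : Finset (Fin (2 * J))).card := by
      refine Finset.card_le_card_of_injOn (fun l => l.2) (fun _ _ => Finset.mem_univ _) ?_
      intro l hl l' hl' he
      have he' : l.2 = l'.2 := he
      refine Prod.ext (active_unique h (fun a => w a l.2) ((h1 l hl).1.trans (h1 l' hl').1.symm)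
        (h1 l hl).2.1 (h1 l' hl').2.1 ?_ (h1 l hl).2.2 ?_) he'
      · refine (mul_le_mul hZ2 (h2 l hl l' hl') (norm_nonneg _) hZ0.le).trans (le_of_eq ?_)
        field_simp
      · rw [he']
        exact (h1 l' hl').2.2
    rw [Finset.card_univ, Fintype.card_fin] at h3
    refine le_trans ?_ hZ'
    exact_mod_cast h3
  · filter_upwards [hP3] with w hw c hc μ hμ x hx
    obtain ⟨η, hη, hη'⟩ := hnet' μ hμ x
    obtain ⟨j, hj⟩ := hw (OT.mk' c x ⟨η, hη⟩)
    obtain ⟨l, hl, hs⟩ := hj x ⟨0, by simp⟩ μ hμ hx hη'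
    have hl' : l.c = c := hl
    exact ⟨(l, j), hl', Y1_lower h _ l (hϑ _ _ l.tag.2 (hadm l (hl' ▸ hc))).2 hμ hs⟩

theorem exists_labels (ℓ : Len G) : ∃ (C : ℝ) (k : ℕ), ∀ R : ℕ, 0 < R →
    ∃ (L0 : ℕ) (Z : ℝ), 1 ≤ Z ∧ Z ≤ C * (R : ℝ) ^ k ∧ Nonempty (Labels ℓ R L0 Z) := by
  classical
  obtain ⟨K, hK⟩ := exists_nat_ge (22 * Ksig * (1 + 4 * Ksig))
  obtain ⟨C, k, hC⟩ := PB_pZ K (f := fun R => ℓ.D * (5 * R) + 1)
    (((PB.const _).mul ((PB.const _).mul PB.id)).add (PB.const _))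
  refine ⟨C, k, fun R hR => ?_⟩
  replace hC := hC R hR
  simp only at hC
  obtain ⟨z, hz⟩ : ∃ z, z = ℓ.D * (5 * R) + 1 := ⟨_, rfl⟩
  rw [← hz] at hC
  have hz' : ∀ a, a ≤ 5 → ℓ.D * (a * R) < z := fun a ha => by
    rw [hz]
    exact Nat.lt_succ_of_le (Nat.mul_le_mul_left _ (Nat.mul_le_mul_right _ ha))
  have hz0 : 0 < z := by omega
  have hz1 : (1 : ℝ) ≤ z := by exact_mod_cast hz0
  have hE0 : 0 < pE z := by unfold pE; omega
  have hB0 : 0 < pB z := by unfold pB; positivity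
  have hB0' : (0 : ℝ) < pB z := by exact_mod_cast hB0
  obtain ⟨ϑ, hϑ1, hϑ2⟩ := exists_angle ℓ R z hR (hz' 2 (by norm_num))
  obtain ⟨N, hN1, hN2⟩ := exists_net ℓ R (2 * R) hR (1 / (8 * z) / 2) (by positivity) (pM z)
    (by unfold pM; positivity) (by
      refine (net_cond (hz' 2 (by norm_num))).trans_le (le_of_eq (congrArg _ ?_))
      unfold pM
      push_cast
      field_simp
      norm_num)
  obtain ⟨N', hN1', hN2'⟩ := exists_net ℓ R (4 * R) hR (1 / (4 * pB z)) (by positivity) (pM' z)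
    (by unfold pM'; positivity) (by
      refine (net_cond (hz' 4 (by norm_num))).trans_le (le_of_eq (congrArg _ ?_))
      unfold pM'
      push_cast
      field_simp
      norm_num)
  have ht : 1 / (8 * (z : ℝ)) ≤ 1 / 8 := one_div_le_one_div_of_le (by norm_num) (by linarith)
  let p : LP G := ⟨N.filter fun η => 4 / 5 ≤ η 1, pB z, 1 / (8 * z), 2 ^ pz1 z, 2 ^ (pz1 z + 5),
    pz1 z + 5, ϑ⟩
  have hp : p.Ok ℓ R :=
    { R_pos := hR
      β_pos := hB0'
      t_pos := by change (0 : ℝ) < 1 / (8 * z); positivity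
      t_le := ht
      valid := fun η hη => (Finset.mem_filter.1 hη).2
      N1_pos := Nat.two_pow_pos _
      N1_ge := card_le ℓ (hz' 2 (by norm_num)).le
        (by rw [show 2 * R + R = 3 * R by ring]; exact hz' 3 (by norm_num)) hN1
        (Finset.card_filter_le _ _)
      Q_pos := Nat.two_pow_pos _
      ϑ_int := hϑ1 }
  have hZ : (pZ K z : ℝ) = K * pB z + 2 * pJ z + (13 * (z : ℝ) ^ 2 + 1) := by
    unfold pZ; push_cast; ring
  have a1 : (0 : ℝ) ≤ K * pB z := by positivity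
  have a2 : (0 : ℝ) ≤ 2 * pJ z := by positivity
  have a3 : (0 : ℝ) ≤ 13 * (z : ℝ) ^ 2 := by positivity
  refine ⟨8 * R * ((13 * z) ^ z + 1), pZ K z, by linarith, by exact_mod_cast hC,
    labels_of_params ℓ R _ p hp N' (1 / (4 * pB z)) _ (pJ z) (fun μ hμ x hx => ?_) hN2' ?_ ?_ ?_ ?_
      (J_cond (card_le ℓ (hz' 4 (by norm_num)).le
        (by rw [show 4 * R + R = 5 * R by ring]; exact hz' 5 le_rfl) hN1' le_rfl))
      (fun c η hη hc => ?_) ?_ (by linarith)⟩
  · obtain ⟨η, hη, hη'⟩ := hN2 μ hμ x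
    refine ⟨η, Finset.mem_filter.2 ⟨hη, ?_⟩, hη'⟩
    have := (abs_le.1 (hη' 1 (by rw [ℓ.mem_ball, ℓ.len_one]; exact Nat.zero_le _))).2
    rw [mul_one] at this
    linarith
  · change 4 * (pB z : ℝ) * (1 / (4 * pB z)) ≤ 1
    rw [mul_one_div_cancel (by positivity)]
  · change 32 * 2 ^ pz1 z ≤ 2 ^ (pz1 z + 5)
    rw [pow_add]; omega
  · change 22 * 2 ^ pz1 z ≤ 2 ^ (pz1 z + 5)
    rw [pow_add]; omega
  · change 2 * ((ℓ.ball (2 * R)).card : ℝ) * ((2 ^ pz1 z : ℕ) : ℝ) *
      ((2 ^ (pz1 z + 5) : ℕ) : ℝ) ^ (pz1 z + 5) ≤ Real.exp (pB z * (1 / (8 * z)) / 2)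
    have b1 : (pB z : ℝ) * (1 / (8 * z)) / 2 = pE z := by
      unfold pB
      push_cast
      field_simp
      norm_num
    have b2 : ((ℓ.ball (2 * R)).card : ℝ) ≤ 2 ^ z := by
      exact_mod_cast (ℓ.card_ball _).trans (Nat.pow_le_pow_right two_pos (hz' 2 (by norm_num)).le)
    rw [b1]
    refine le_trans ?_ (two_pow_lt_exp hE0).le
    push_cast
    calc _ ≤ 2 * (2 : ℝ) ^ z * 2 ^ pz1 z * (2 ^ (pz1 z + 5)) ^ (pz1 z + 5) := by gcongr
      _ = _ := by rw [pE, ← pow_mul, ← sq, pow_add, pow_add, pow_add, pow_one]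
  · have := hϑ2 c η (Finset.mem_filter.1 hη).2 hc
    exact ⟨(far_cond (by linarith)).trans this.1, this.2⟩
  · have := mul_le_mul_of_nonneg_right hK hB0'.le
    change _ * (pB z : ℝ) ≤ _
    linarith

end Crest.Agent.R192
end

-- ▼ part PVc/R192/Main
section

/-! Row 192: choice of the parameters and the limit. -/

set_option autoImplicit false

namespace Crest.Agent.R192

open Crest.AlgebraR.L1 MeasureTheory Matrix
open scoped ContDiff BoundedContinuousFunction

open Filter Topology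

theorem exists_scale (C ε : ℝ) (hε : 0 < ε) (k : ℕ) :
    ∃ a : ℕ, 1 ≤ a ∧ C * (a : ℝ) ^ k ≤ ε * 2 ^ a := by
  have h := (tendsto_pow_const_mul_const_pow_of_abs_lt_one k
    (r := (1 / 2 : ℝ)) (by rw [abs_of_pos] <;> norm_num)).const_mul C
  rw [mul_zero] at h
  obtain ⟨a, ha1, ha2⟩ := ((h.eventually (gt_mem_nhds hε)).and (eventually_ge_atTop 1)).exists
  refine ⟨a, ha2, ?_⟩
  have h2 : (0 : ℝ) < 2 ^ a := by positivity
  have h3 : C * ((a : ℝ) ^ k * (1 / 2) ^ a) * 2 ^ a = C * (a : ℝ) ^ k := by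
    rw [one_div, inv_pow]; field_simp
  rw [← h3]
  exact mul_le_mul_of_nonneg_right ha1.le h2.le

theorem eq_zero_of_le_poly_geom (x C : ℝ) (hx : 0 ≤ x) (k : ℕ)
    (h : ∀ m0 : ℕ, ∃ m : ℕ, m0 ≤ m ∧ x ≤ C * ((m : ℝ) ^ k * (1 / 2) ^ m)) : x = 0 := by
  have ht := (tendsto_pow_const_mul_const_pow_of_abs_lt_one k
    (r := (1 / 2 : ℝ)) (by rw [abs_of_pos] <;> norm_num)).const_mul C
  rw [mul_zero] at ht
  by_contra hne
  have hpos : 0 < x := lt_of_le_of_ne hx (Ne.symm hne)
  obtain ⟨m0, hm0⟩ := eventually_atTop.1 (ht.eventually (gt_mem_nhds hpos))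
  obtain ⟨m, hm, hle⟩ := h m0
  exact absurd (hm0 m hm) (not_lt.2 hle)

theorem WSum.mono {G : Type} [Group G] {ℓ : Len G} {γ γ' : ℝ} (h : γ' ≤ γ) {q : ℕ}
    {e : Fin q → Fin q → G → ℂ} (hs : WSum ℓ γ e) : WSum ℓ γ' e := fun i j =>
  Summable.of_nonneg_of_le (fun x => by positivity) (fun x => by
    refine mul_le_mul_of_nonneg_left (Real.exp_le_exp.2 ?_) (norm_nonneg _)
    exact mul_le_mul_of_nonneg_right h (Nat.cast_nonneg _)) (hs i j)

theorem wnorm_nonneg {G : Type} [Group G] (ℓ : Len G) (γ : ℝ) {q : ℕ}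
    (e : Fin q → Fin q → G → ℂ) : 0 ≤ wnorm ℓ γ e :=
  Finset.sum_nonneg fun _ _ => Finset.sum_nonneg fun _ _ => tsum_nonneg fun _ => by positivity

theorem sqrtF_le {Z ε n : ℝ} (hZ : 1 ≤ Z) (hε : 0 < ε) (hn : 0 ≤ n) (B j : ℕ) (t : ℝ)
    (ht : 10 * Z ^ 2 ≤ t) (hB : B * t = 2 * j + 2) :
    √((1 + n / ε) ^ 2 * (10 * (1 + Real.exp Z)) ^ (4 * (⌊Z⌋₊ * B))) ≤
      (1 + n / ε) * (Real.exp 2) ^ (j + 1) := by
  have h1 : 10 * (1 + Real.exp Z) ≤ Real.exp (Z + 4) := by
    have e1 : 1 ≤ Real.exp Z := Real.one_le_exp (by linarith)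
    have e2 : (20 : ℝ) ≤ Real.exp 4 := by
      have := Real.exp_one_gt_d9
      have h4 : Real.exp 4 = Real.exp 1 ^ 4 := by rw [← Real.exp_nat_mul]; norm_num
      rw [h4]
      have : (2.7 : ℝ) ^ 4 ≤ Real.exp 1 ^ 4 := pow_le_pow_left₀ (by norm_num) (by linarith) 4
      norm_num at this ⊢
      linarith
    rw [Real.exp_add]
    nlinarith
  have hfl : (⌊Z⌋₊ : ℝ) ≤ Z := Nat.floor_le (by linarith)
  have h2 : (10 * (1 + Real.exp Z)) ^ (4 * (⌊Z⌋₊ * B)) ≤ (Real.exp 2 ^ (j + 1)) ^ 2 := by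
    calc (10 * (1 + Real.exp Z)) ^ (4 * (⌊Z⌋₊ * B))
        ≤ Real.exp (Z + 4) ^ (4 * (⌊Z⌋₊ * B)) := pow_le_pow_left₀ (by positivity) h1 _
      _ = Real.exp (((4 * (⌊Z⌋₊ * B) : ℕ) : ℝ) * (Z + 4)) := by rw [Real.exp_nat_mul]
      _ ≤ Real.exp (((2 * (j + 1) : ℕ) : ℝ) * 2) := by
        refine Real.exp_le_exp.2 ?_
        push_cast
        have hB0 : (0 : ℝ) ≤ B := Nat.cast_nonneg _
        have e1 : (⌊Z⌋₊ : ℝ) * (Z + 4) ≤ 5 * Z ^ 2 := by nlinarith
        have e2 : (B : ℝ) * ((⌊Z⌋₊ : ℝ) * (Z + 4)) ≤ B * (5 * Z ^ 2) :=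
          mul_le_mul_of_nonneg_left e1 hB0
        have e3 : (B : ℝ) * (10 * Z ^ 2) ≤ B * t := mul_le_mul_of_nonneg_left ht hB0
        nlinarith
      _ = (Real.exp 2 ^ (j + 1)) ^ 2 := by rw [Real.exp_nat_mul, ← pow_mul, mul_comm (j + 1)]
  rw [Real.sqrt_le_left (by positivity), mul_pow (1 + n / ε)]
  exact mul_le_mul_of_nonneg_left h2 (sq_nonneg _)

theorem mainStmt : MainStmt := by
  intro G _ ℓ q e γ0 hγ0 he hs0
  let _ : TopologicalSpace G := ⊥
  have _ : DiscreteTopology G := ⟨rfl⟩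
  set γ := min γ0 1 with hγdef
  have hγ : 0 < γ := lt_min hγ0 one_pos
  have hγ1 : γ ≤ 1 := min_le_right _ _
  have hs : WSum ℓ γ e := hs0.mono (min_le_left _ _)
  obtain ⟨Γ⟩ := exists_gibbs ℓ
  obtain ⟨Cz, k, hlab⟩ := exists_labels ℓ
  set E := wnorm ℓ γ e with hE
  have hE0 : 0 ≤ E := wnorm_nonneg ℓ γ e
  set D0 : ℝ := 16 * (4 / γ) ^ 8 * Real.exp 2 * E ^ 2 + 1 with hD0
  have hD1 : 1 ≤ D0 := by
    have : 0 ≤ 16 * (4 / γ) ^ 8 * Real.exp 2 * E ^ 2 := by positivity
    linarith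
  set ε : ℝ := 1 / D0 with hεdef
  have hε : 0 < ε := by positivity
  have hε1 : ε ≤ 1 := by rw [hεdef, div_le_one (by linarith)]; exact hD1
  have hεD : ε * D0 = 1 := by rw [hεdef]; field_simp
  clear_value ε D0 E γ
  have hlam := Γ.lam_pos
  have hC0 := Γ.C0_nonneg
  set c1 : ℝ := 20 * ((2 * Γ.lam + 2 * (Γ.C0 + 4)) / ε + 2) with hc1
  have hc10 : 0 < c1 := by positivity
  clear_value c1
  obtain ⟨a, ha1, ha⟩ := exists_scale (27 * (|Cz| * c1 ^ k) ^ 3) ε hε (3 * k)
  have ha1' : (1 : ℝ) ≤ a := by exact_mod_cast ha1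
  set Ln : ℕ := ⌈(2 * a * Γ.lam + 2 * (Γ.C0 + 4)) / ε⌉₊ + 1 with hLn
  have hL1 : (2 * a * Γ.lam + 2 * (Γ.C0 + 4)) / ε ≤ Ln := by
    rw [hLn]; push_cast
    linarith [Nat.le_ceil ((2 * a * Γ.lam + 2 * (Γ.C0 + 4)) / ε)]
  have hL2 : (Ln : ℝ) ≤ (2 * a * Γ.lam + 2 * (Γ.C0 + 4)) / ε + 2 := by
    rw [hLn]; push_cast
    linarith [Nat.ceil_lt_add_one (show 0 ≤ (2 * a * Γ.lam + 2 * (Γ.C0 + 4)) / ε by positivity)]
  have hL3 : 2 * a * Γ.lam + 2 * (Γ.C0 + 4) ≤ ε * Ln := by
    rw [div_le_iff₀ hε] at hL1; linarith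
  have hL4 : (1 : ℝ) ≤ Ln := by rw [hLn]; push_cast; linarith [Nat.cast_nonneg (α := ℝ) ⌈(2 * a * Γ.lam + 2 * (Γ.C0 + 4)) / ε⌉₊]
  have hRpos : 0 < 20 * Ln := by omega
  clear_value Ln
  obtain ⟨L0, Z, hZ, hZle, ⟨𝓛⟩⟩ := hlab (20 * Ln) hRpos
  have hRle : ((20 * Ln : ℕ) : ℝ) ≤ c1 * a := by
    push_cast
    have e1 : (2 * a * Γ.lam + 2 * (Γ.C0 + 4)) / ε ≤ (2 * Γ.lam + 2 * (Γ.C0 + 4)) / ε * a := by
      rw [div_mul_eq_mul_div]
      refine div_le_div_of_nonneg_right ?_ hε.le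
      nlinarith
    rw [hc1]
    nlinarith
  have hZ3 : 27 * Z ^ 3 ≤ ε * 2 ^ a := by
    refine le_trans ?_ ha
    have e1 : Z ≤ |Cz| * c1 ^ k * (a : ℝ) ^ k := by
      calc Z ≤ Cz * ((20 * Ln : ℕ) : ℝ) ^ k := hZle
        _ ≤ |Cz| * ((20 * Ln : ℕ) : ℝ) ^ k :=
          mul_le_mul_of_nonneg_right (le_abs_self _) (by positivity)
        _ ≤ |Cz| * (c1 * a) ^ k :=
          mul_le_mul_of_nonneg_left (pow_le_pow_left₀ (by positivity) hRle k) (abs_nonneg _)
        _ = |Cz| * c1 ^ k * (a : ℝ) ^ k := by rw [mul_pow, mul_assoc]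
    have e2 : Z ^ 3 ≤ (|Cz| * c1 ^ k * (a : ℝ) ^ k) ^ 3 := pow_le_pow_left₀ (by linarith) e1 3
    calc 27 * Z ^ 3 ≤ 27 * (|Cz| * c1 ^ k * (a : ℝ) ^ k) ^ 3 := by linarith
      _ = 27 * (|Cz| * c1 ^ k) ^ 3 * (a : ℝ) ^ (3 * k) := by ring
  have h2a : (0 : ℝ) < 2 ^ a := by positivity
  have hZ4 : 27 * Z ^ 3 ≤ 2 ^ a := hZ3.trans (by nlinarith)
  have hZ2 : 10 * Z ^ 2 ≤ 2 ^ a := by nlinarith [sq_nonneg Z]
  have hZ1 : 2 * Z ≤ 2 ^ a := by nlinarith
  refine ⟨L0, fun C hC hadm => ?_⟩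
  set K : ℝ := ((2 * a : ℕ) : ℝ) * (Γ.lam + 1) + 2 * Γ.C0 + 10 + 9 * (Real.exp Z * Z ^ 3) with hK
  have hK0 : 0 ≤ K := by positivity
  clear_value K
  have _ := 𝓛.prob
  rw [← norm_eq_zero]
  refine eq_zero_of_le_poly_geom _ ((1 + 2 / ε) * (1 + 27 * K ^ 2 / ε) * E) (norm_nonneg _) 4
    fun m0 => ?_
  obtain ⟨a', rfl⟩ : ∃ a', a = a' + 1 := ⟨a - 1, by omega⟩
  set a := a' + 1 with hadef
  set B : ℕ := m0 + 2 ^ a + 5 with hB
  have hpow1 : 1 ≤ 2 ^ a' := Nat.one_le_two_pow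
  obtain ⟨j, hj⟩ : ∃ j : ℕ, j + 1 = B * 2 ^ a' :=
    ⟨B * 2 ^ a' - 1, Nat.sub_add_cancel (Nat.mul_pos (Nat.succ_pos _) hpow1)⟩
  have hjB : (B : ℝ) * 2 ^ a = 2 * j + 2 := by
    have : ((j + 1 : ℕ) : ℝ) = ((B * 2 ^ a' : ℕ) : ℝ) := by rw [hj]
    push_cast at this
    rw [hadef, pow_succ]; linarith
  refine ⟨j + 1, ?_, ?_⟩
  · rw [hj]
    exact le_trans (le_trans (Nat.le_add_right _ _) (Nat.le_add_right _ _))
      (Nat.le_mul_of_pos_right B hpow1)
  set δ0 : ℝ := 1 / (2 * j + 2) with hδ0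
  have hj0 : (0 : ℝ) < 2 * j + 2 := by positivity
  have h0 : 0 < δ0 := by positivity
  have hB1 : (2 : ℝ) ^ a + 5 ≤ B := by
    rw [hB]; push_cast; linarith [Nat.cast_nonneg (α := ℝ) m0]
  have h2a1 : (1 : ℝ) ≤ 2 ^ a := one_le_pow₀ (by norm_num)
  have h1 : (2 ^ (2 * a) + 5) * δ0 ≤ 1 := by
    rw [hδ0, mul_one_div, div_le_one hj0, ← hjB, two_mul, pow_add]
    nlinarith
  have hBδ : (B : ℝ) * (2 ^ (2 * a) * δ0) = 2 ^ a := by
    rw [hδ0, ← hjB, two_mul, pow_add]
    have : (0 : ℝ) < B := by linarith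
    field_simp
  have hT : ∀ {n : ℕ} (c : G) (x : Fin (n + 1) → G),
      δ0 * tlen ℓ c x = tlen ℓ c x / (2 * j + 2) := fun c x => by rw [hδ0]; ring
  have hR : 20 * (Ln : ℝ) ≤ ((20 * Ln : ℕ) : ℝ) := by push_cast; exact le_rfl
  have key := generic ℓ e γ hγ hγ1 he hs C hC 𝓛.P 𝓛.inv j
    (Wtot Γ 𝓛 δ0 (2 * a) Ln (2 * j + 1)) (Wtot Γ 𝓛 δ0 (2 * a) Ln (2 * j + 2))
    (Wtot_fam Γ 𝓛 h0 h1 Ln C _) (Wtot_fam Γ 𝓛 h0 h1 Ln C _)
    (fun c _ x w p θ θ' => Wtot_face Γ 𝓛 Ln c x w p θ θ') K (4 * ε)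
    ((1 + ((2 * j + 2 : ℕ) : ℝ) / ε) ^ 2 * (10 * (1 + Real.exp Z)) ^ (4 * (⌊Z⌋₊ * B))) hK0
    (by positivity)
    (by
      filter_upwards [𝓛.lower] with w hw c hc x θ hθ
      rw [← hT, hK]
      exact Wtot_ent Γ 𝓛 h0 h1 hL4 hR hZ (hadm c hc) x w (hw c (hadm c hc)) hθ)
    (by
      filter_upwards [𝓛.lower] with w hw c hc x θ hθ
      rw [← hT, hK]
      refine ⟨Wtot_ent Γ 𝓛 h0 h1 hL4 hR hZ (hadm c hc) x w (hw c (hadm c hc)) hθ, ?_⟩
      refine Wtot_cost Γ 𝓛 h0 h1 hL4 hRpos hZ (hadm c hc) x w hθ hε B (by rw [hBδ]; exact hZ1)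
        (by rw [hBδ]; exact hZ3) ?_ ?_
      · push_cast; linarith
      · have : 0 ≤ 2 * (a : ℝ) * Γ.lam := by positivity
        linarith)
  rw [← hE] at key
  refine key.trans ?_
  have s1 := sqrtF_le hZ hε (n := ((2 * j + 2 : ℕ) : ℝ)) (by positivity) B j (2 ^ a) hZ2 hjB
  set m : ℝ := ((j + 1 : ℕ) : ℝ) with hm
  have hm1 : 1 ≤ m := by rw [hm]; push_cast; linarith [Nat.cast_nonneg (α := ℝ) j]
  have hmj : (j : ℝ) = m - 1 := by rw [hm]; push_cast; ring
  have s2 : 1 + ((2 * j + 2 : ℕ) : ℝ) / ε ≤ (1 + 2 / ε) * m := by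
    push_cast
    rw [hmj]
    have : (2 * (m - 1) + 2) / ε = 2 / ε * m := by ring
    rw [this]; linarith
  have s3 : 1 + 4 * K ^ 2 * (2 * j + 3) ^ 3 / (4 * ε) ≤ (1 + 27 * K ^ 2 / ε) * m ^ 3 := by
    have e1 : (2 * (j : ℝ) + 3) ^ 3 ≤ (3 * m) ^ 3 :=
      pow_le_pow_left₀ (by positivity) (by rw [hmj]; linarith) 3
    have e2 : 4 * K ^ 2 * (2 * j + 3) ^ 3 / (4 * ε) = K ^ 2 / ε * (2 * j + 3) ^ 3 := by
      field_simp
    have e3 : K ^ 2 / ε * (2 * j + 3) ^ 3 ≤ K ^ 2 / ε * (3 * m) ^ 3 :=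
      mul_le_mul_of_nonneg_left e1 (by positivity)
    have e4 : 1 ≤ m ^ 3 := one_le_pow₀ hm1
    have e5 : K ^ 2 / ε * (3 * m) ^ 3 = 27 * K ^ 2 / ε * m ^ 3 := by ring
    rw [e2]; linarith
  have s4 : Real.exp 2 * (2 * (4 * ε) * (4 / γ) ^ 8) * E ^ 2 ≤ 1 / 2 := by
    have : ε * (16 * (4 / γ) ^ 8 * Real.exp 2 * E ^ 2) ≤ 1 := by
      rw [← hεD, hD0]; nlinarith
    linarith
  have s5 : (Real.exp 2 * (2 * (4 * ε) * (4 / γ) ^ 8) * E ^ 2) ^ (j + 1) ≤ (1 / 2) ^ (j + 1) :=
    pow_le_pow_left₀ (by positivity) s4 _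
  calc √((1 + ((2 * j + 2 : ℕ) : ℝ) / ε) ^ 2 * (10 * (1 + Real.exp Z)) ^ (4 * (⌊Z⌋₊ * B))) *
        (1 + 4 * K ^ 2 * (2 * j + 3) ^ 3 / (4 * ε)) * (2 * (4 * ε) * (4 / γ) ^ 8) ^ (j + 1) *
        E ^ (2 * j + 3)
      ≤ ((1 + 2 / ε) * m * Real.exp 2 ^ (j + 1)) * ((1 + 27 * K ^ 2 / ε) * m ^ 3) *
        (2 * (4 * ε) * (4 / γ) ^ 8) ^ (j + 1) * E ^ (2 * j + 3) := by
        gcongr
        exact s1.trans (mul_le_mul_of_nonneg_right s2 (by positivity))
    _ = (1 + 2 / ε) * (1 + 27 * K ^ 2 / ε) * E *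
        (m ^ 4 * (Real.exp 2 * (2 * (4 * ε) * (4 / γ) ^ 8) * E ^ 2) ^ (j + 1)) := by
        rw [mul_pow _ (E ^ 2), mul_pow (Real.exp 2), ← pow_mul E]
        generalize (2 * (4 * ε) * (4 / γ) ^ 8) ^ (j + 1) = u
        generalize Real.exp 2 ^ (j + 1) = v
        ring
    _ ≤ (1 + 2 / ε) * (1 + 27 * K ^ 2 / ε) * E * (m ^ 4 * (1 / 2) ^ (j + 1)) := by gcongr

end Crest.Agent.R192
end

-- ▼ part PVc/R192/ReduceAux
section

/-! Row 192: idempotents in Banach rings; word length on a finitely generated group. -/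

set_option autoImplicit false

namespace Crest.Agent.R192.Red

open Crest.AlgebraR.L1
open scoped Pointwise

section banach
variable {R : Type} [NormedRing R] [CompleteSpace R]

/-- close idempotents have the same traces -/
theorem trace_eq_of_close {β : Type} (T : R → β) (hT : ∀ a b, T (a * b) = T (b * a)) {e f : R}
    (he : e * e = e) (hf : f * f = f) (h : ‖f - e‖ * ‖1 - 2 * e‖ < 1) : T f = T e := by
  have h1 : ‖(f - e) * (1 - 2 * e)‖ < 1 := (norm_mul_le _ _).trans_lt h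
  let u : Rˣ := Units.oneSub _ h1
  have hu : (u : R) = 1 - (f - e) * (1 - 2 * e) := rfl
  have hu' : (u : R) = 1 - e - f + 2 * (f * e) := by
    rw [hu]
    have : (f - e) * (1 - 2 * e) = f - 2 * (f * e) - e + 2 * (e * e) := by noncomm_ring
    rw [this, he]
    noncomm_ring
  have h2 : f * u = u * e := by
    rw [hu']
    have a1 : f * (1 - e - f + 2 * (f * e)) = f - f * e - f * f + 2 * ((f * f) * e) := by
      noncomm_ring
    have a2 : (1 - e - f + 2 * (f * e)) * e = e - e * e - f * e + 2 * (f * (e * e)) := by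
      noncomm_ring
    rw [a1, a2, he, hf]
    noncomm_ring
  calc T f = T (u * (e * ↑u⁻¹)) := by
        rw [← mul_assoc, ← h2, mul_assoc, Units.mul_inv, mul_one]
    _ = T (e * ↑u⁻¹ * u) := hT _ _
    _ = T e := by rw [mul_assoc, Units.inv_mul, mul_one]

/-- almost idempotents are close to idempotents -/
theorem exists_idem {x : R} {ε : ℝ} (hε : ε ≤ 1 / 40) (hx : ‖x * x - x‖ ≤ ε) :
    ∃ f : R, f * f = f ∧ ‖f - x‖ ≤ ‖2 * x - 1‖ * (2 * ε) := by
  set n := x * x - x with hn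
  have hε0 : 0 ≤ ε := (norm_nonneg _).trans hx
  let s : Set R := {t | ‖t‖ ≤ 2 * ε ∧ x * t = t * x}
  have hs : IsClosed s :=
    (isClosed_le continuous_norm continuous_const).inter
      (isClosed_eq (continuous_const.mul continuous_id) (continuous_id.mul continuous_const))
  let F : R → R := fun t => -n - t * t - (n * (t + t * t) + n * (t + t * t) + n * (t + t * t) +
    n * (t + t * t))
  have hxn : x * n = n * x := by rw [hn]; noncomm_ring
  have four : ∀ a : R, ‖a + a + a + a‖ ≤ 4 * ‖a‖ := by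
    intro a
    have h1 := norm_add_le (a + a + a) a
    have h2 := norm_add_le (a + a) a
    have h3 := norm_add_le a a
    linarith
  have hF : Set.MapsTo F s s := by
    rintro t ⟨ht, hc⟩
    have ht0 := norm_nonneg t
    have htt : ‖t * t‖ ≤ 4 * ε ^ 2 := (norm_mul_le _ _).trans (by nlinarith)
    constructor
    · have h1 : ‖n * (t + t * t)‖ ≤ ε * (2 * ε + 4 * ε ^ 2) :=
        (norm_mul_le _ _).trans (mul_le_mul hx ((norm_add_le _ _).trans (add_le_add ht htt))
          (norm_nonneg _) hε0)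
      have h2 := four (n * (t + t * t))
      have h3 : ‖F t‖ ≤ ‖-n - t * t‖ + ‖n * (t + t * t) + n * (t + t * t) + n * (t + t * t) +
        n * (t + t * t)‖ := norm_sub_le _ _
      have h4 : ‖-n - t * t‖ ≤ ‖n‖ + ‖t * t‖ := by
        have := norm_sub_le (-n) (t * t)
        rwa [norm_neg] at this
      have h5 : ε * ε ≤ ε * (1 / 40) := mul_le_mul_of_nonneg_left hε hε0
      have h6 : ε * (ε * ε) ≤ ε * (ε * (1 / 40)) := mul_le_mul_of_nonneg_left h5 hε0
      nlinarith
    · have c1 : Commute x n := hxn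
      have c2 : Commute x t := hc
      have c3 : Commute x (n * (t + t * t)) := c1.mul_right (c2.add_right (c2.mul_right c2))
      exact ((c1.neg_right.sub_right (c2.mul_right c2)).sub_right
        (((c3.add_right c3).add_right c3).add_right c3))
  have hL : ∀ t ∈ s, ∀ u ∈ s, ‖F t - F u‖ ≤ 1 / 2 * ‖t - u‖ := by
    rintro t ⟨ht, -⟩ u ⟨hu, -⟩
    have hd := norm_nonneg (t - u)
    have h1 : ‖t * t - u * u‖ ≤ 4 * ε * ‖t - u‖ := by
      have : t * t - u * u = t * (t - u) + (t - u) * u := by noncomm_ring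
      rw [this]
      have a1 := norm_add_le (t * (t - u)) ((t - u) * u)
      have a2 := norm_mul_le t (t - u)
      have a3 := norm_mul_le (t - u) u
      have a4 := mul_le_mul_of_nonneg_right ht hd
      have a5 := mul_le_mul_of_nonneg_left hu hd
      linarith
    have h2 : ‖n * ((t - u) + (t * t - u * u))‖ ≤ ε * (‖t - u‖ + 4 * ε * ‖t - u‖) :=
      (norm_mul_le _ _).trans (mul_le_mul hx ((norm_add_le _ _).trans (add_le_add le_rfl h1))
        (norm_nonneg _) hε0)
    have h3 := four (n * ((t - u) + (t * t - u * u)))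
    have h4 : F t - F u = -(t * t - u * u) - (n * ((t - u) + (t * t - u * u)) +
        n * ((t - u) + (t * t - u * u)) + n * ((t - u) + (t * t - u * u)) +
        n * ((t - u) + (t * t - u * u))) := by
      simp only [F]
      noncomm_ring
    rw [h4]
    have h5 := norm_sub_le (-(t * t - u * u)) (n * ((t - u) + (t * t - u * u)) +
        n * ((t - u) + (t * t - u * u)) + n * ((t - u) + (t * t - u * u)) +
        n * ((t - u) + (t * t - u * u)))
    rw [norm_neg] at h5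
    have h6 : ε * ‖t - u‖ ≤ 1 / 40 * ‖t - u‖ := mul_le_mul_of_nonneg_right hε hd
    have h7 : ε * (ε * ‖t - u‖) ≤ 1 / 40 * (1 / 40 * ‖t - u‖) :=
      mul_le_mul hε h6 (mul_nonneg hε0 hd) (by norm_num)
    nlinarith
  have hc : ContractingWith (1 / 2) (hF.restrict F s s) := by
    refine ⟨by norm_num, LipschitzWith.of_dist_le_mul fun t u => ?_⟩
    have := hL t t.2 u u.2
    rw [Subtype.dist_eq, Subtype.dist_eq, dist_eq_norm, dist_eq_norm]
    simpa using this
  have h0 : (0 : R) ∈ s := ⟨by simpa using hε0, by simp⟩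
  obtain ⟨t, ⟨ht, hct⟩, hfix, -⟩ := hc.exists_fixedPoint' hs.isComplete hF h0 (edist_ne_top _ _)
  have hfix' : -n - t * t - (n * (t + t * t) + n * (t + t * t) + n * (t + t * t) +
    n * (t + t * t)) = t := hfix
  refine ⟨x + (2 * x - 1) * t, ?_, ?_⟩
  · have htx : t * x = x * t := hct.symm
    have key : (x + (2 * x - 1) * t) * (x + (2 * x - 1) * t) - (x + (2 * x - 1) * t) =
        t - (-n - t * t - (n * (t + t * t) + n * (t + t * t) + n * (t + t * t) +
          n * (t + t * t))) := by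
      have e1 : (x + (2 * x - 1) * t) * (x + (2 * x - 1) * t) =
          x * x + x * (2 * x - 1) * t + (2 * x - 1) * (t * x) +
            (2 * x - 1) * (2 * (t * x) - t) * t := by noncomm_ring
      rw [e1, htx, hn]
      noncomm_ring
    rw [hfix', sub_self] at key
    exact sub_eq_zero.1 key
  · rw [add_sub_cancel_left]
    exact (norm_mul_le _ _).trans (mul_le_mul_of_nonneg_left ht (norm_nonneg _))

end banach

/-- word length -/
theorem exists_len (H : Type) [Group H] [hH : Group.FG H] : Nonempty (Len H) := by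
  classical
  obtain ⟨S, hS⟩ := hH.out
  let T : Finset H := insert 1 (S ∪ S⁻¹)
  have h1 : (1 : H) ∈ T := Finset.mem_insert_self _ _
  have hinv : T⁻¹ = T := by
    ext g
    simp only [T, Finset.mem_inv', Finset.mem_insert, Finset.mem_union, inv_eq_one, inv_inv]
    tauto
  have hpinv : ∀ (g : H) (r : ℕ), g ∈ T ^ r → g⁻¹ ∈ T ^ r := by
    intro g r ha
    rw [← hinv, inv_pow]
    exact Finset.inv_mem_inv ha
  have hex : ∀ g : H, ∃ r : ℕ, g ∈ T ^ r := by
    intro g
    have hg : g ∈ Subgroup.closure (S : Set H) := by rw [hS]; trivial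
    induction hg using Subgroup.closure_induction with
    | mem x hx => exact ⟨1, by rw [pow_one]; simp [T, Finset.mem_coe.1 hx]⟩
    | one => exact ⟨1, by rw [pow_one]; exact h1⟩
    | mul x y _ _ hx hy =>
      obtain ⟨a, ha⟩ := hx
      obtain ⟨b, hb⟩ := hy
      exact ⟨a + b, by rw [pow_add]; exact Finset.mul_mem_mul ha hb⟩
    | inv x _ hx =>
      obtain ⟨a, ha⟩ := hx
      exact ⟨a, hpinv _ _ ha⟩
  have hle : ∀ g r, g ∈ T ^ r ↔ Nat.find (hex g) ≤ r := by
    intro g r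
    refine ⟨fun h => Nat.find_min' _ h, fun h => ?_⟩
    exact Finset.pow_subset_pow_right h1 h (Nat.find_spec (hex g))
  have hinv' : ∀ g, Nat.find (hex g⁻¹) ≤ Nat.find (hex g) := by
    intro g
    rw [← hle]
    exact hpinv _ _ (Nat.find_spec (hex g))
  refine ⟨⟨fun g => Nat.find (hex g), ?_, fun g => ?_, fun g h => ?_, T.card, fun r => T ^ r,
    fun r g => hle g r, fun r => ?_⟩⟩
  · apply Nat.eq_zero_of_le_zero
    rw [← hle, pow_zero]
    exact Finset.one_mem_one
  · apply le_antisymm (hinv' g)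
    have := hinv' g⁻¹
    simpa only [inv_inv] using this
  · rw [← hle, pow_add]
    exact Finset.mul_mem_mul (Nat.find_spec (hex g)) (Nat.find_spec (hex h))
  · refine Finset.card_pow_le.trans ?_
    rw [pow_mul]
    exact Nat.pow_le_pow_left Nat.lt_two_pow_self.le _

end Crest.Agent.R192.Red
end

-- ▼ part PVc/R192/ReduceAux2
section

/-! Row 192: the weighted ℓ¹ group algebra as a Banach ring. -/

set_option autoImplicit false

namespace Crest.Agent.R192.Red

open Crest.AlgebraR.L1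

section conv
variable {G : Type} [Group G]

/-- the shear `(y, z) ↦ (y * z, y)` -/
def shear (G : Type) [Group G] : G × G ≃ G × G where
  toFun p := (p.1 * p.2, p.1)
  invFun p := (p.2, p.2⁻¹ * p.1)
  left_inv p := by simp
  right_inv p := by simp

theorem summable_shear {a b : G → ℝ} (ha : Summable a) (hb : Summable b) (ha0 : ∀ x, 0 ≤ a x)
    (hb0 : ∀ x, 0 ≤ b x) : Summable fun p : G × G => a p.2 * b (p.2⁻¹ * p.1) := by
  rw [← (shear G).summable_iff]
  have := ha.mul_of_nonneg hb ha0 hb0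
  refine this.congr fun p => ?_
  simp [shear]

theorem tsum_shear {a b : G → ℝ} (ha : Summable a) (hb : Summable b) (ha0 : ∀ x, 0 ≤ a x)
    (hb0 : ∀ x, 0 ≤ b x) :
    ∑' x, ∑' y, a y * b (y⁻¹ * x) = (∑' y, a y) * ∑' z, b z := by
  rw [← (summable_shear ha hb ha0 hb0).tsum_prod, ← (shear G).tsum_eq,
    ha.tsum_mul_tsum hb (ha.mul_of_nonneg hb ha0 hb0)]
  refine tsum_congr fun p => ?_
  simp [shear]

variable {f g h : G → ℂ}

theorem summable_shear_norm (hf : Summable fun x => ‖f x‖) (hg : Summable fun x => ‖g x‖) :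
    Summable fun p : G × G => ‖f p.2 * g (p.2⁻¹ * p.1)‖ := by
  simpa only [norm_mul] using summable_shear hf hg (fun _ => norm_nonneg _) fun _ => norm_nonneg _

theorem summable_conv_term (hf : Summable fun x => ‖f x‖) (hg : Summable fun x => ‖g x‖) (x : G) :
    Summable fun y => f y * g (y⁻¹ * x) :=
  ((summable_shear_norm hf hg).prod_factor x).of_norm

theorem conv_add (hf : Summable fun x => ‖f x‖) (hg : Summable fun x => ‖g x‖)
    (hh : Summable fun x => ‖h x‖) (x : G) :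
    conv f (fun x => g x + h x) x = conv f g x + conv f h x := by
  simp only [conv, mul_add]
  exact (summable_conv_term hf hg x).tsum_add (summable_conv_term hf hh x)

theorem add_conv (hf : Summable fun x => ‖f x‖) (hg : Summable fun x => ‖g x‖)
    (hh : Summable fun x => ‖h x‖) (x : G) :
    conv (fun x => f x + g x) h x = conv f h x + conv g h x := by
  simp only [conv, add_mul]
  exact (summable_conv_term hf hh x).tsum_add (summable_conv_term hg hh x)

theorem conv_assoc (hf : Summable fun x => ‖f x‖) (hg : Summable fun x => ‖g x‖)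
    (hh : Summable fun x => ‖h x‖) (x : G) :
    conv (conv f g) h x = conv f (conv g h) x := by
  have hb : ∀ y, ‖h y‖ ≤ ∑' y, ‖h y‖ := fun y => hh.le_tsum y fun _ _ => norm_nonneg _
  have hs : Summable fun p : G × G => f p.2 * g (p.2⁻¹ * p.1) * h (p.1⁻¹ * x) := by
    refine Summable.of_norm (((summable_shear_norm hf hg).mul_right (∑' y, ‖h y‖)).of_nonneg_of_le
      (fun _ => norm_nonneg _) fun p => ?_)
    rw [norm_mul]
    exact mul_le_mul_of_nonneg_left (hb _) (norm_nonneg _)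
  have h1 : conv (conv f g) h x = ∑' y, ∑' z, f z * g (z⁻¹ * y) * h (y⁻¹ * x) := by
    simp only [conv, tsum_mul_right]
  have h2 : conv f (conv g h) x = ∑' z, ∑' y, f z * g (z⁻¹ * y) * h (y⁻¹ * x) := by
    simp only [conv]
    refine tsum_congr fun z => ?_
    rw [← tsum_mul_left, ← (Equiv.mulLeft z).tsum_eq fun y => f z * g (z⁻¹ * y) * h (y⁻¹ * x)]
    refine tsum_congr fun u => ?_
    simp [mul_assoc]
  rw [h1, h2]
  exact (Summable.tsum_comm (f := fun y z => f z * g (z⁻¹ * y) * h (y⁻¹ * x)) hs).symm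

open Classical in
/-- the unit -/
noncomputable def delta (G : Type) [Group G] : G → ℂ := fun x => if x = 1 then 1 else 0

theorem delta_conv (f : G → ℂ) (x : G) : conv (delta G) f x = f x := by
  rw [conv, tsum_eq_single 1]
  · simp [delta]
  · intro y hy
    simp [delta, hy]

theorem conv_delta (f : G → ℂ) (x : G) : conv f (delta G) x = f x := by
  rw [conv, tsum_eq_single x]
  · simp [delta]
  · intro y hy
    have : y⁻¹ * x ≠ 1 := fun h => hy (inv_mul_eq_one.1 h)
    simp [delta, this]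

theorem tsum_ind_conv (hf : Summable fun x => ‖f x‖) (hg : Summable fun x => ‖g x‖) (C : Set G) :
    ∑' x : C, conv f g x =
      ∑' p : G × G, C.indicator (fun _ => (1 : ℂ)) (p.1 * p.2) * (f p.1 * g p.2) := by
  have hs : Summable fun p : G × G =>
      C.indicator (fun _ => (1 : ℂ)) p.1 * (f p.2 * g (p.2⁻¹ * p.1)) := by
    refine Summable.of_norm ((summable_shear_norm hf hg).of_nonneg_of_le
      (fun _ => norm_nonneg _) fun p => ?_)
    rw [norm_mul]
    refine mul_le_of_le_one_left (norm_nonneg _) ?_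
    by_cases h : p.1 ∈ C <;> simp [h]
  rw [tsum_subtype C (conv f g)]
  have h1 : ∀ x, C.indicator (conv f g) x =
      ∑' y, C.indicator (fun _ => (1 : ℂ)) x * (f y * g (y⁻¹ * x)) := by
    intro x
    by_cases h : x ∈ C <;> simp [h, conv]
  simp only [h1]
  rw [← hs.tsum_prod, ← (shear G).tsum_eq]
  refine tsum_congr fun p => ?_
  simp [shear]

theorem tsum_conv_comm (hf : Summable fun x => ‖f x‖) (hg : Summable fun x => ‖g x‖) {C : Set G}
    (hC : ConjInv C) : ∑' x : C, conv f g x = ∑' x : C, conv g f x := by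
  rw [tsum_ind_conv hf hg, tsum_ind_conv hg hf, ← (Equiv.prodComm G G).tsum_eq]
  refine tsum_congr fun p => ?_
  have key : ∀ a b : G, a * b ∈ C → b * a ∈ C := by
    intro a b h
    have := hC _ h b
    simpa [mul_assoc] using this
  simp only [Equiv.prodComm_apply, Prod.fst_swap, Prod.snd_swap]
  by_cases h : p.1 * p.2 ∈ C
  · simp [h, key _ _ h, mul_comm]
  · have h' : p.2 * p.1 ∉ C := fun h' => h (key _ _ h')
    simp [h, h']

end conv

/-- submultiplicative weights -/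
structure Wt (G : Type) [Group G] where
  w : G → ℝ
  one_le : ∀ x, 1 ≤ w x
  mul_le : ∀ x y, w (x * y) ≤ w x * w y

variable {G : Type} [Group G]

theorem Wt.pos (W : Wt G) (x : G) : 0 < W.w x := zero_lt_one.trans_le (W.one_le x)

theorem Wt.summable_norm (W : Wt G) {f : G → ℂ} (hf : Summable fun x => ‖f x‖ * W.w x) :
    Summable fun x => ‖f x‖ :=
  hf.of_nonneg_of_le (fun _ => norm_nonneg _) fun x =>
    le_mul_of_one_le_right (norm_nonneg _) (W.one_le x)

theorem Wt.conv_le (W : Wt G) {f g : G → ℂ} (hf : Summable fun x => ‖f x‖ * W.w x)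
    (hg : Summable fun x => ‖g x‖ * W.w x) (x : G) :
    ‖conv f g x‖ * W.w x ≤ ∑' y, ‖f y‖ * W.w y * (‖g (y⁻¹ * x)‖ * W.w (y⁻¹ * x)) := by
  have h0 : ∀ (f : G → ℂ) x, 0 ≤ ‖f x‖ * W.w x := fun f x =>
    mul_nonneg (norm_nonneg _) (W.pos x).le
  have h1 := (summable_shear hf hg (h0 f) (h0 g)).prod_factor x
  have h2 := (summable_shear_norm (W.summable_norm hf) (W.summable_norm hg)).prod_factor x
  refine (mul_le_mul_of_nonneg_right (norm_tsum_le_tsum_norm h2) (W.pos x).le).trans ?_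
  rw [← tsum_mul_right]
  refine (h2.mul_right _).tsum_le_tsum (fun y => ?_) h1
  have h3 := W.mul_le y (y⁻¹ * x)
  rw [mul_inv_cancel_left] at h3
  rw [norm_mul]
  calc ‖f y‖ * ‖g (y⁻¹ * x)‖ * W.w x ≤ ‖f y‖ * ‖g (y⁻¹ * x)‖ * (W.w y * W.w (y⁻¹ * x)) :=
        mul_le_mul_of_nonneg_left h3 (by positivity)
    _ = _ := by ring

theorem Wt.summable_conv (W : Wt G) {f g : G → ℂ} (hf : Summable fun x => ‖f x‖ * W.w x)
    (hg : Summable fun x => ‖g x‖ * W.w x) : Summable fun x => ‖conv f g x‖ * W.w x := by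
  have h0 : ∀ (f : G → ℂ) x, 0 ≤ ‖f x‖ * W.w x := fun f x =>
    mul_nonneg (norm_nonneg _) (W.pos x).le
  exact (summable_shear hf hg (h0 f) (h0 g)).prod.of_nonneg_of_le (h0 _) (W.conv_le hf hg)

theorem Wt.tsum_conv_le (W : Wt G) {f g : G → ℂ} (hf : Summable fun x => ‖f x‖ * W.w x)
    (hg : Summable fun x => ‖g x‖ * W.w x) :
    ∑' x, ‖conv f g x‖ * W.w x ≤ (∑' x, ‖f x‖ * W.w x) * ∑' x, ‖g x‖ * W.w x := by
  have h0 : ∀ (f : G → ℂ) x, 0 ≤ ‖f x‖ * W.w x := fun f x =>
    mul_nonneg (norm_nonneg _) (W.pos x).le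
  rw [← tsum_shear hf hg (h0 f) (h0 g)]
  exact (W.summable_conv hf hg).tsum_le_tsum (W.conv_le hf hg)
    (summable_shear hf hg (h0 f) (h0 g)).prod

/-- the weighted algebra -/
def WA (_W : Wt G) : Type := lp (fun _ : G => ℂ) 1

variable {W : Wt G}

noncomputable instance : NormedAddCommGroup (WA W) :=
  inferInstanceAs (NormedAddCommGroup (lp (fun _ : G => ℂ) 1))

instance : CompleteSpace (WA W) := inferInstanceAs (CompleteSpace (lp (fun _ : G => ℂ) 1))

/-- underlying sequence -/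
def WA.toLp (a : WA W) : lp (fun _ : G => ℂ) 1 := a

/-- coefficients -/
noncomputable def co (a : WA W) (x : G) : ℂ := a.toLp x / W.w x

/-- constructor -/
noncomputable def mk (f : G → ℂ) (hf : Summable fun x => ‖f x‖ * W.w x) : WA W :=
  (⟨fun x => f x * W.w x, memℓp_gen (by
    simpa [abs_of_pos (W.pos _)] using hf)⟩ : lp (fun _ : G => ℂ) 1)

theorem w_ne (x : G) : (W.w x : ℂ) ≠ 0 := by exact_mod_cast (W.pos x).ne'

theorem co_mk (f : G → ℂ) (hf : Summable fun x => ‖f x‖ * W.w x) : co (mk f hf) = f := by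
  funext x
  exact mul_div_cancel_right₀ _ (w_ne x)

theorem norm_co (a : WA W) (x : G) : ‖co a x‖ * W.w x = ‖a.toLp x‖ := by
  rw [co, norm_div, Complex.norm_real, Real.norm_of_nonneg (W.pos x).le,
    div_mul_cancel₀ _ (W.pos x).ne']

theorem hasSum_co (a : WA W) : HasSum (fun x => ‖co a x‖ * W.w x) ‖a‖ := by
  have := lp.hasSum_norm (p := 1) (by simp) a.toLp
  simp only [norm_co]
  show HasSum _ ‖a.toLp‖
  simpa using this

theorem summable_co (a : WA W) : Summable fun x => ‖co a x‖ * W.w x := (hasSum_co a).summable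

theorem summable_co' (a : WA W) : Summable fun x => ‖co a x‖ := W.summable_norm (summable_co a)

theorem norm_eq (a : WA W) : ‖a‖ = ∑' x, ‖co a x‖ * W.w x := (hasSum_co a).tsum_eq.symm

theorem ext_co {a b : WA W} (h : ∀ x, co a x = co b x) : a = b := by
  have : a.toLp = b.toLp := by
    ext x
    exact (div_left_inj' (w_ne x)).1 (h x)
  exact this

theorem co_add (a b : WA W) (x : G) : co (a + b) x = co a x + co b x := by
  have : (a + b).toLp x = a.toLp x + b.toLp x := by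
    show (a.toLp + b.toLp) x = _
    rw [lp.coeFn_add]; rfl
  rw [co, this, add_div]; rfl

theorem co_zero (x : G) : co (0 : WA W) x = 0 := by
  have : (0 : WA W).toLp x = 0 := by
    show (0 : lp (fun _ : G => ℂ) 1) x = _
    rw [lp.coeFn_zero]; rfl
  rw [co, this, zero_div]

/-- coefficient functionals -/
noncomputable def coH (x : G) : WA W →+ ℂ where
  toFun a := co a x
  map_zero' := co_zero x
  map_add' a b := co_add a b x

theorem co_sub (a b : WA W) (x : G) : co (a - b) x = co a x - co b x := (coH x).map_sub a b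

theorem co_sum {ι : Type} (s : Finset ι) (a : ι → WA W) (x : G) :
    co (∑ i ∈ s, a i) x = ∑ i ∈ s, co (a i) x := map_sum (coH x) a s

noncomputable instance : Mul (WA W) :=
  ⟨fun a b => mk (conv (co a) (co b)) (W.summable_conv (summable_co a) (summable_co b))⟩

noncomputable instance : One (WA W) :=
  ⟨mk (delta G) (summable_of_ne_finset_zero (s := {1}) fun x hx => by
    have : x ≠ 1 := by simpa using hx
    simp [delta, this])⟩

theorem co_mul (a b : WA W) : co (a * b) = conv (co a) (co b) := co_mk _ _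

theorem co_one : co (1 : WA W) = delta G := co_mk _ _

noncomputable instance : Ring (WA W) :=
  { (inferInstance : AddCommGroup (WA W)), (inferInstance : Mul (WA W)),
    (inferInstance : One (WA W)) with
    mul_assoc := fun a b c => ext_co fun x => by
      rw [co_mul, co_mul, co_mul, co_mul]
      exact conv_assoc (summable_co' a) (summable_co' b) (summable_co' c) x
    one_mul := fun a => ext_co fun x => by rw [co_mul, co_one, delta_conv]
    mul_one := fun a => ext_co fun x => by rw [co_mul, co_one, conv_delta]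
    zero_mul := fun a => ext_co fun x => by simp [co_mul, conv, co_zero]
    mul_zero := fun a => ext_co fun x => by simp [co_mul, conv, co_zero]
    left_distrib := fun a b c => ext_co fun x => by
      rw [co_add, co_mul, co_mul, co_mul, funext (co_add b c)]
      exact conv_add (summable_co' a) (summable_co' b) (summable_co' c) x
    right_distrib := fun a b c => ext_co fun x => by
      rw [co_add, co_mul, co_mul, co_mul, funext (co_add a b)]
      exact add_conv (summable_co' a) (summable_co' b) (summable_co' c) x }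

noncomputable instance : NormedRing (WA W) :=
  { (inferInstance : NormedAddCommGroup (WA W)), (inferInstance : Ring (WA W)) with
    norm_mul_le := fun a b => by
      rw [norm_eq, norm_eq a, norm_eq b, co_mul]
      exact W.tsum_conv_le (summable_co a) (summable_co b) }

end Crest.Agent.R192.Red
end

-- ▼ part PVc/R192/Reduce

/-! Row 192: reduction of S0292 to the weighted statement `MainStmt`. -/

set_option autoImplicit false

namespace Crest.Agent.R192

open Crest.AlgebraR.L1 MeasureTheory Matrix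
open scoped ContDiff BoundedContinuousFunction

namespace Red

open scoped Matrix.Norms.Operator

variable {G : Type} [Group G]

/-- trivial weight -/
def W1 (G : Type) [Group G] : Wt G := ⟨fun _ => 1, fun _ => le_rfl, fun _ _ => by simp⟩

/-- exponential weight -/
noncomputable def Wexp (ℓ : Len G) (γ : ℝ) (hγ : 0 ≤ γ) : Wt G :=
  ⟨fun x => Real.exp (γ * ℓ.len x), fun x => Real.one_le_exp (by positivity), fun x y => by
    rw [← Real.exp_add, Real.exp_le_exp, ← mul_add]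
    refine mul_le_mul_of_nonneg_left ?_ hγ
    exact_mod_cast ℓ.len_mul x y⟩

open Classical in
/-- extension by zero -/
noncomputable def ex (H : Subgroup G) (f : H → ℂ) : G → ℂ :=
  fun g => if h : g ∈ H then f ⟨g, h⟩ else 0

theorem ex_coe (H : Subgroup G) (f : H → ℂ) (x : H) : ex H f x = f x := by
  simp [ex]

theorem ex_not_mem (H : Subgroup G) (f : H → ℂ) {g : G} (hg : g ∉ H) : ex H f g = 0 := by
  simp [ex, hg]

theorem tsum_H {β : Type} [AddCommMonoid β] [TopologicalSpace β] (H : Subgroup G) (F : G → β)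
    (hF : ∀ g, g ∉ H → F g = 0) : ∑' g, F g = ∑' x : H, F x := by
  refine (Subtype.val_injective.tsum_eq (f := F) ?_).symm
  intro g hg
  by_contra hcon
  exact hg (hF g fun h => hcon ⟨⟨g, h⟩, rfl⟩)

theorem summable_ex (H : Subgroup G) {f : H → ℂ} (hf : Summable fun x => ‖f x‖) :
    Summable fun g => ‖ex H f g‖ * (W1 G).w g := by
  refine (Subtype.val_injective.summable_iff (f := fun g => ‖ex H f g‖ * (W1 G).w g)
    (g := (Subtype.val : H → G)) ?_).1 ?_
  · intro g hg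
    rw [ex_not_mem H f fun h => hg ⟨⟨g, h⟩, rfl⟩]
    simp
  · refine hf.congr fun x => ?_
    simp [ex_coe, W1]

theorem ex_conv (H : Subgroup G) (f g : H → ℂ) (x : G) :
    ex H (conv f g) x = conv (ex H f) (ex H g) x := by
  rw [conv, tsum_H H _ fun y hy => by rw [ex_not_mem H f hy, zero_mul]]
  by_cases hx : x ∈ H
  · obtain ⟨x, rfl⟩ : ∃ y : H, (y : G) = x := ⟨⟨x, hx⟩, rfl⟩
    rw [ex_coe, conv]
    refine tsum_congr fun y => ?_
    rw [ex_coe, ← ex_coe H g (y⁻¹ * x)]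
    rfl
  · rw [ex_not_mem H _ hx]
    symm
    refine (tsum_congr fun y => ?_).trans tsum_zero
    rw [ex_not_mem H g, mul_zero]
    intro h
    apply hx
    simpa using H.mul_mem y.2 h

/-- extension by zero as a ring homomorphism -/
noncomputable def Φ (H : Subgroup G) (W : Wt H) : WA W →ₙ+* WA (W1 G) where
  toFun a := mk (ex H (co a)) (summable_ex H (summable_co' a))
  map_zero' := ext_co fun x => by
    rw [co_mk, co_zero]
    by_cases hx : x ∈ H <;> simp [ex, hx, co_zero]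
  map_add' a b := ext_co fun x => by
    rw [co_add, co_mk, co_mk, co_mk]
    by_cases hx : x ∈ H <;> simp [ex, hx, co_add]
  map_mul' a b := ext_co fun x => by
    rw [co_mk, co_mul, co_mul, co_mk, co_mk, ex_conv]

theorem co_Φ (H : Subgroup G) (W : Wt H) (a : WA W) : co (Φ H W a) = ex H (co a) :=
  co_mk _ (summable_ex H (summable_co' a))

theorem norm_Φ (H : Subgroup G) (W : Wt H) (a : WA W) : ‖Φ H W a‖ = ∑' x : H, ‖co a x‖ := by
  rw [norm_eq, co_Φ, tsum_H H _ fun y hy => by rw [ex_not_mem H _ hy, norm_zero, zero_mul]]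
  refine tsum_congr fun x => ?_
  simp [ex_coe, W1]

theorem norm_Φ_le (H : Subgroup G) (W : Wt H) (a : WA W) : ‖Φ H W a‖ ≤ 1 * ‖a‖ := by
  rw [norm_Φ, norm_eq, one_mul]
  exact (summable_co' a).tsum_le_tsum
    (fun x => le_mul_of_one_le_right (norm_nonneg _) (W.one_le x)) (summable_co a)

/-- supported in a ball -/
def Supp (ℓ : Len G) (R : ℕ) {W : Wt G} (a : WA W) : Prop := ∀ x, R < ℓ.len x → co a x = 0

theorem Supp.mul {ℓ : Len G} {R R' : ℕ} {W : Wt G} {a b : WA W} (ha : Supp ℓ R a)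
    (hb : Supp ℓ R' b) : Supp ℓ (R + R') (a * b) := by
  intro x hx
  rw [co_mul, conv]
  refine (tsum_congr fun y => ?_).trans tsum_zero
  have h := ℓ.len_mul y (y⁻¹ * x)
  rw [mul_inv_cancel_left] at h
  by_cases hy : R < ℓ.len y
  · rw [ha y hy, zero_mul]
  · rw [hb _ (by omega), mul_zero]

theorem norm_le_Φ (H : Subgroup G) (ℓ : Len H) {γ : ℝ} (hγ : 0 ≤ γ) {R : ℕ} (hR : γ * R ≤ 1)
    {a : WA (Wexp ℓ γ hγ)} (ha : Supp ℓ R a) : ‖a‖ ≤ 3 * ‖Φ H _ a‖ := by
  rw [norm_Φ, norm_eq, ← tsum_mul_left]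
  refine (summable_co a).tsum_le_tsum (fun x => ?_) ((summable_co' a).mul_left 3)
  by_cases hx : R < ℓ.len x
  · simp [ha x hx]
  · rw [mul_comm]
    refine mul_le_mul_of_nonneg_right ?_ (norm_nonneg _)
    show Real.exp (γ * ℓ.len x) ≤ 3
    have h1 : (ℓ.len x : ℝ) ≤ R := by exact_mod_cast not_lt.1 hx
    have h2 : γ * ℓ.len x ≤ 1 := (mul_le_mul_of_nonneg_left h1 hγ).trans hR
    have h3 := Real.exp_one_lt_d9
    exact (Real.exp_le_exp.2 h2).trans (by linarith)

theorem norm_one_exp (ℓ : Len G) {γ : ℝ} (hγ : 0 ≤ γ) : ‖(1 : WA (Wexp ℓ γ hγ))‖ = 1 := by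
  rw [norm_eq, co_one, tsum_eq_single 1]
  · simp [delta, Wexp, ℓ.len_one]
  · intro y hy
    simp [delta, hy]

section mat
variable {A B : Type} [NormedRing A] [NormedRing B] {q : ℕ}

theorem row_le (M : Matrix (Fin q) (Fin q) A) (i : Fin q) : ∑ j, ‖M i j‖ ≤ ‖M‖ := by
  rw [linfty_opNorm_def]
  have := NNReal.coe_le_coe.2 (Finset.le_sup (f := fun i => ∑ j, ‖M i j‖₊) (Finset.mem_univ i))
  simpa only [NNReal.coe_sum, coe_nnnorm] using this

theorem mat_le (M : Matrix (Fin q) (Fin q) A) {c : ℝ} (hc : 0 ≤ c) (h : ∀ i, ∑ j, ‖M i j‖ ≤ c) :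
    ‖M‖ ≤ c := by
  rw [linfty_opNorm_def]
  lift c to NNReal using hc
  have : (Finset.univ.sup fun i => ∑ j, ‖M i j‖₊) ≤ c :=
    Finset.sup_le fun i _ => by
      rw [← NNReal.coe_le_coe]
      simpa only [NNReal.coe_sum, coe_nnnorm] using h i
  exact_mod_cast this

theorem mat_cmp (M : Matrix (Fin q) (Fin q) A) (N : Matrix (Fin q) (Fin q) B) {c : ℝ}
    (hc : 0 ≤ c) (h : ∀ i j, ‖M i j‖ ≤ c * ‖N i j‖) : ‖M‖ ≤ c * ‖N‖ := by
  refine mat_le M (by positivity) fun i => ?_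
  refine (Finset.sum_le_sum fun j _ => h i j).trans ?_
  rw [← Finset.mul_sum]
  exact mul_le_mul_of_nonneg_left (row_le N i) hc

theorem mat_one (h : ‖(1 : A)‖ = 1) : ‖(1 : Matrix (Fin q) (Fin q) A)‖ ≤ 1 := by
  refine mat_le _ zero_le_one fun i => ?_
  rw [Finset.sum_eq_single i]
  · simp [h]
  · intro j _ hj
    simp [Matrix.one_apply_ne hj.symm]
  · simp

theorem mat_complete [CompleteSpace A] :
    @CompleteSpace (Matrix (Fin q) (Fin q) A)
      (Matrix.linftyOpNormedRing (α := A) (n := Fin q)).toUniformSpace :=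
  (inferInstance : CompleteSpace (Fin q → Fin q → A))

end mat

theorem trace_comm {q : ℕ} {W : Wt G} {C : Set G} (hC : ConjInv C)
    (M N : Matrix (Fin q) (Fin q) (WA W)) :
    classTrace (fun i j => co ((M * N) i j)) C = classTrace (fun i j => co ((N * M) i j)) C := by
  have key : ∀ M N : Matrix (Fin q) (Fin q) (WA W), classTrace (fun i j => co ((M * N) i j)) C =
      ∑ i, ∑ k, ∑' g : C, conv (co (M i k)) (co (N k i)) g := by
    intro M N
    have hs : ∀ a : WA W, Summable fun g : C => co a g := fun a =>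
      ((summable_co' a).of_norm).subtype C
    rw [classTrace, Summable.tsum_finsetSum fun i _ => hs _]
    refine Finset.sum_congr rfl fun i _ => ?_
    simp only [Matrix.mul_apply, co_sum]
    rw [Summable.tsum_finsetSum fun k _ => hs _]
    simp only [co_mul]
  rw [key, key, Finset.sum_comm]
  refine Finset.sum_congr rfl fun i _ => Finset.sum_congr rfl fun k _ => ?_
  exact tsum_conv_comm (summable_co' _) (summable_co' _) hC

theorem classTrace_ex {q : ℕ} (H : Subgroup G) (f : Fin q → Fin q → H → ℂ) (C : Set G) :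
    classTrace (fun i j => ex H (f i j)) C = classTrace f (Subtype.val ⁻¹' C) := by
  rw [classTrace, classTrace, tsum_subtype C fun g => ∑ i, ex H (f i i) g,
    tsum_subtype (Subtype.val ⁻¹' C) fun g : H => ∑ i, f i i g, tsum_H H]
  · refine tsum_congr fun x => ?_
    by_cases hx : (x : G) ∈ C
    · have hx' : x ∈ (Subtype.val ⁻¹' C : Set H) := hx
      simp [hx, hx', ex_coe]
    · have hx' : x ∉ (Subtype.val ⁻¹' C : Set H) := hx
      simp [hx, hx']
  · intro g hg
    by_cases hx : g ∈ C <;> simp [hx, ex_not_mem H _ hg]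

/-- approximation by a weighted idempotent on a finitely generated subgroup -/
theorem exists_approx {q : ℕ} (e : Fin q → Fin q → G → ℂ) (he : IsL1IdempotentMatrix e) :
    ∃ (H : Subgroup G) (ℓ : Len H) (γ : ℝ) (f : Fin q → Fin q → H → ℂ), 0 < γ ∧
      IsL1IdempotentMatrix f ∧ WSum ℓ γ f ∧
      ∀ C : Set G, ConjInv C → classTrace e C = classTrace f (Subtype.val ⁻¹' C) := by
  classical
  have he1 : ∀ i j, Summable fun x => ‖e i j x‖ * (W1 G).w x := fun i j => by
    simpa [W1] using he.1 i j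
  let E : Matrix (Fin q) (Fin q) (WA (W1 G)) := Matrix.of fun i j => mk (e i j) (he1 i j)
  have hEco : ∀ i j, co (E i j) = e i j := fun i j => co_mk _ (he1 i j)
  have hE : E * E = E := by
    ext i j
    refine ext_co fun x => ?_
    simp only [Matrix.mul_apply, co_sum, co_mul, hEco]
    exact he.2 i j x
  -- choice of `δ`
  have hc1 : Continuous fun Y : Matrix (Fin q) (Fin q) (WA (W1 G)) => 3 * ‖Y * Y - Y‖ := by
    fun_prop
  have hc2 : Continuous fun Y : Matrix (Fin q) (Fin q) (WA (W1 G)) =>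
      ((6 * ‖Y‖ + 1) * (2 * (3 * ‖Y * Y - Y‖)) + ‖Y - E‖) * ‖1 - 2 * E‖ := by
    fun_prop
  have hopen := (isOpen_lt hc1 (continuous_const (y := (1 / 40 : ℝ)))).inter
    (isOpen_lt hc2 (continuous_const (y := (1 : ℝ))))
  obtain ⟨δ, hδ, hball⟩ := Metric.isOpen_iff.1 hopen E ⟨by simp [hE], by simp [hE]⟩
  -- choice of the finite set
  have hev : ∀ᶠ S : Finset G in Filter.atTop, ∀ i j,
      ∑' x : {x // x ∉ S}, ‖e i j x‖ < δ / (q + 1) := by
    refine Filter.eventually_all.2 fun i => Filter.eventually_all.2 fun j => ?_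
    exact (tendsto_tsum_compl_atTop_zero fun x => ‖e i j x‖).eventually
      (gt_mem_nhds (by positivity))
  obtain ⟨S, hS⟩ := hev.exists
  let H : Subgroup G := Subgroup.closure (S : Set G)
  obtain ⟨ℓ⟩ := exists_len H
  have hfin : {x : H | (x : G) ∈ S}.Finite :=
    S.finite_toSet.preimage Subtype.val_injective.injOn
  obtain ⟨R, hR⟩ := (hfin.image ℓ.len).bddAbove
  have hR' : ∀ x : H, (x : G) ∈ S → ℓ.len x ≤ R := fun x hx => hR ⟨x, hx, rfl⟩
  set γ : ℝ := 1 / (2 * R + 1) with hγ_def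
  have hγ : 0 < γ := by positivity
  have hγR : γ * ((R + R : ℕ) : ℝ) ≤ 1 := by
    rw [hγ_def, div_mul_eq_mul_div, one_mul, div_le_one (by positivity)]
    push_cast
    linarith
  let W : Wt H := Wexp ℓ γ hγ.le
  have hX1 : ∀ i j, Summable fun x : H => ‖if (x : G) ∈ S then e i j x else 0‖ * W.w x :=
    fun i j => summable_of_ne_finset_zero (s := hfin.toFinset) fun x hx => by
      have : (x : G) ∉ S := by simpa using hx
      simp [this]
  let X : Matrix (Fin q) (Fin q) (WA W) :=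
    Matrix.of fun i j => mk (fun x : H => if (x : G) ∈ S then e i j x else 0) (hX1 i j)
  have hXco : ∀ i j (x : H), co (X i j) x = if (x : G) ∈ S then e i j x else 0 :=
    fun i j x => congrFun (co_mk _ (hX1 i j)) x
  have hXs : ∀ i j, Supp ℓ R (X i j) := by
    intro i j x hx
    rw [hXco, if_neg fun h => absurd (hR' x h) (not_le.2 hx)]
  have hXs2 : ∀ i j, Supp ℓ (R + R) (X i j) := fun i j x hx => hXs i j x (by omega)
  have hXXs : ∀ i j, Supp ℓ (R + R) ((X * X - X) i j) := by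
    intro i j x hx
    rw [Matrix.sub_apply, co_sub, Matrix.mul_apply, co_sum, hXs2 i j x hx, sub_zero]
    exact Finset.sum_eq_zero fun k _ => (hXs i k).mul (hXs k j) x hx
  let Y : Matrix (Fin q) (Fin q) (WA (W1 G)) := X.map (Φ H W)
  have hYE : ‖Y - E‖ < δ := by
    have h1 : ∀ i j, ‖(Y - E) i j‖ ≤ δ / (q + 1) := by
      intro i j
      refine le_trans (le_of_eq ?_) (hS i j).le
      rw [norm_eq]
      have h2 := tsum_subtype {x : G | x ∉ S} fun x => ‖e i j x‖
      refine Eq.trans (tsum_congr fun g => ?_) h2.symm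
      rw [Matrix.sub_apply, co_sub, hEco]
      have h3 : co (Y i j) = ex H (co (X i j)) := co_Φ H W _
      rw [h3]
      by_cases hg : g ∈ S
      · have hgH : g ∈ H := Subgroup.subset_closure hg
        have h4 := ex_coe H (co (X i j)) ⟨g, hgH⟩
        rw [hXco] at h4
        simp only [hg, if_true] at h4
        simp [h4, hg]
      · have h4 : ex H (co (X i j)) g = 0 := by
          by_cases hgH : g ∈ H
          · have h4 := ex_coe H (co (X i j)) ⟨g, hgH⟩
            rw [hXco] at h4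
            simpa only [hg, if_false] using h4
          · exact ex_not_mem H _ hgH
        simp [h4, hg, W1]
    refine lt_of_le_of_lt (mat_le _ (c := q * (δ / (q + 1))) (by positivity) fun i => ?_) ?_
    · refine (Finset.sum_le_sum fun j _ => h1 i j).trans ?_
      simp
    · rw [← mul_div_assoc, div_lt_iff₀ (by positivity)]
      nlinarith
  obtain ⟨hY1, hY2⟩ := hball (show Y ∈ Metric.ball E δ by rwa [mem_ball_iff_norm])
  simp only [Set.mem_ofPred_eq] at hY1 hY2
  have hmap : (X * X - X).map (Φ H W) = Y * Y - Y := by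
    rw [Matrix.map_sub _ (map_sub (Φ H W)), Matrix.map_mul]
  have hXX : ‖X * X - X‖ ≤ 3 * ‖Y * Y - Y‖ := by
    rw [← hmap]
    exact mat_cmp _ _ (by norm_num) fun i j => norm_le_Φ H ℓ hγ.le hγR (hXXs i j)
  have hXn : ‖X‖ ≤ 3 * ‖Y‖ :=
    mat_cmp _ _ (by norm_num) fun i j => norm_le_Φ H ℓ hγ.le hγR (hXs2 i j)
  have := mat_complete (q := q) (A := WA W)
  have := mat_complete (q := q) (A := WA (W1 G))
  obtain ⟨F, hF, hFX⟩ := exists_idem hY1.le hXX
  have h2X : ‖2 * X - 1‖ ≤ 6 * ‖Y‖ + 1 := by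
    have h1 := norm_sub_le (2 * X) 1
    have h2 := mat_one (q := q) (norm_one_exp ℓ hγ.le)
    have h3 : ‖2 * X‖ ≤ ‖X‖ + ‖X‖ := by rw [two_mul]; exact norm_add_le _ _
    linarith
  let F1 : Matrix (Fin q) (Fin q) (WA (W1 G)) := F.map (Φ H W)
  have hF1 : F1 * F1 = F1 := by
    rw [← Matrix.map_mul, hF]
  have hF1Y : ‖F1 - Y‖ ≤ 1 * ‖F - X‖ := by
    rw [← Matrix.map_sub _ (map_sub (Φ H W))]
    exact mat_cmp _ _ zero_le_one fun i j => norm_Φ_le H W _
  have hclose : ‖F1 - E‖ * ‖1 - 2 * E‖ < 1 := by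
    refine lt_of_le_of_lt (mul_le_mul_of_nonneg_right ?_ (norm_nonneg _)) hY2
    have h1 : ‖F1 - E‖ ≤ ‖F1 - Y‖ + ‖Y - E‖ := norm_sub_le_norm_sub_add_norm_sub _ _ _
    have h2 : ‖2 * X - 1‖ * (2 * (3 * ‖Y * Y - Y‖)) ≤ (6 * ‖Y‖ + 1) * (2 * (3 * ‖Y * Y - Y‖)) :=
      mul_le_mul_of_nonneg_right h2X (by positivity)
    linarith
  refine ⟨H, ℓ, γ, fun i j => co (F i j), hγ, ⟨fun i j => summable_co' _, fun i j x => ?_⟩,
    fun i j => summable_co (F i j), fun C hC => ?_⟩
  · conv_rhs => rw [← hF]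
    simp only [Matrix.mul_apply, co_sum, co_mul]
  · have h1 := trace_eq_of_close
      (fun M : Matrix (Fin q) (Fin q) (WA (W1 G)) => classTrace (fun i j => co (M i j)) C)
      (trace_comm hC) hE hF1 hclose
    simp only [hEco] at h1
    rw [← h1, ← classTrace_ex]
    congr 1
    funext i j
    exact co_Φ H W _

end Red

theorem bass_of_main (hM : MainStmt) : BassStmt := by
  intro G _ q _ e he
  obtain ⟨H, ℓ, γ, f, hγ, hf, hw, htr⟩ := Red.exists_approx e he
  obtain ⟨L0, hL⟩ := hM H ℓ q f γ hγ hf hw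
  have hcarr : ∀ C : ConjClasses G, ConjInv C.carrier := by
    intro C c hc h
    rw [ConjClasses.mem_carrier_iff_mk_eq] at hc ⊢
    rw [← hc, ConjClasses.mk_eq_mk_iff_isConj]
    exact (isConj_iff.2 ⟨h, rfl⟩).symm
  have hpre : ∀ C : ConjClasses G, ConjInv (Subtype.val ⁻¹' C.carrier : Set H) :=
    fun C c hc h => hcarr C c hc h
  constructor
  · refine ((ℓ.ball L0).finite_toSet.image fun x : H => ConjClasses.mk (x : G)).subset ?_
    intro C hC
    by_contra hcon
    apply hC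
    rw [htr _ (hcarr C)]
    refine hL _ (hpre C) fun c hc => Or.inr fun h => ?_
    by_contra hle
    apply hcon
    refine ⟨h⁻¹ * c * h, (ℓ.mem_ball _ _).2 (not_lt.1 hle), ?_⟩
    have := hpre C c hc h⁻¹
    rw [inv_inv] at this
    exact ConjClasses.mem_carrier_iff_mk_eq.1 this
  · intro g hg
    rw [htr _ (hcarr _)]
    refine hL _ (hpre _) fun c hc => Or.inl fun hfin => hg ?_
    have h1 : IsConj (c : G) g :=
      ConjClasses.mk_eq_mk_iff_isConj.1 (ConjClasses.mem_carrier_iff_mk_eq.1 hc)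
    exact h1.isOfFinOrder (H.subtype.isOfFinOrder hfin)

end Crest.Agent.R192
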